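import Mathlib

/-!
# Partial derivatives of functions of the polar coordinates `(r, θ)`
-/

namespace Vale.Agent.H60.Hot

/-- the partial derivative in the first variable of a function of two real variables -/
noncomputable def dR (v : ℝ → ℝ → ℝ) (r θ : ℝ) : ℝ := deriv (fun s => v s θ) r

/-- the partial derivative in the second variable of a function of two real variables -/
noncomputable def dT (v : ℝ → ℝ → ℝ) (r θ : ℝ) : ℝ := deriv (fun t => v r t) θ

end Vale.Agent.H60.Hot
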