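import Vale.Agent.H60.Hot.Defs

/-!
# Partial derivatives and parametric integrals (TASK H1)

Sketch.  With `U p = v p.1 p.2`: `s ↦ (s, θ)` has derivative `(1, 0)`, so by the chain rule
`dR v r θ = fderiv ℝ U (r, θ) (1, 0)` and `dT v r θ = fderiv ℝ U (r, θ) (0, 1)`; continuity and
`C^1` regularity follow from `ContDiff.continuous_fderiv` / `ContDiff.fderiv_right` and
`Continuous.clm_apply`.  Parametric integrals: `intervalIntegral` is a set integral over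
`Set.uIoc c d` (finite measure); dominate on the compact set `Icc (r₀ - 1) (r₀ + 1) × uIcc c d`
and use `hasDerivAt_integral_of_dominated_loc_of_deriv_le`
(or `intervalIntegral.hasDerivAt_integral_of_dominated_loc_of_deriv_le`).
-/

namespace Vale.Agent.H60.Hot

open Set

theorem h1_dR_eq {v : ℝ → ℝ → ℝ} (hv : ContDiff ℝ 1 (fun p : ℝ × ℝ => v p.1 p.2))
    (r θ : ℝ) :
    HasDerivAt (fun s => v s θ)
      (fderiv ℝ (fun p : ℝ × ℝ => v p.1 p.2) (r, θ) ((1 : ℝ), (0 : ℝ))) r := by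
  have hU : DifferentiableAt ℝ (fun p : ℝ × ℝ => v p.1 p.2) (r, θ) :=
    (hv.differentiable one_ne_zero) (r, θ)
  have hc : HasDerivAt (fun s : ℝ => (s, θ)) ((1 : ℝ), (0 : ℝ)) r :=
    (hasDerivAt_id r).prodMk (hasDerivAt_const r θ)
  exact hU.hasFDerivAt.comp_hasDerivAt r hc

theorem h1_dT_eq {v : ℝ → ℝ → ℝ} (hv : ContDiff ℝ 1 (fun p : ℝ × ℝ => v p.1 p.2))
    (r θ : ℝ) :
    HasDerivAt (fun t => v r t)
      (fderiv ℝ (fun p : ℝ × ℝ => v p.1 p.2) (r, θ) ((0 : ℝ), (1 : ℝ))) θ := by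
  have hU : DifferentiableAt ℝ (fun p : ℝ × ℝ => v p.1 p.2) (r, θ) :=
    (hv.differentiable one_ne_zero) (r, θ)
  have hc : HasDerivAt (fun t : ℝ => (r, t)) ((0 : ℝ), (1 : ℝ)) θ :=
    (hasDerivAt_const θ r).prodMk (hasDerivAt_id θ)
  exact hU.hasFDerivAt.comp_hasDerivAt θ hc

theorem h1_dR_formula {v : ℝ → ℝ → ℝ} (hv : ContDiff ℝ 1 (fun p : ℝ × ℝ => v p.1 p.2))
    (r θ : ℝ) :
    dR v r θ = fderiv ℝ (fun p : ℝ × ℝ => v p.1 p.2) (r, θ) ((1 : ℝ), (0 : ℝ)) :=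
  (h1_dR_eq hv r θ).deriv

theorem h1_dT_formula {v : ℝ → ℝ → ℝ} (hv : ContDiff ℝ 1 (fun p : ℝ × ℝ => v p.1 p.2))
    (r θ : ℝ) :
    dT v r θ = fderiv ℝ (fun p : ℝ × ℝ => v p.1 p.2) (r, θ) ((0 : ℝ), (1 : ℝ)) :=
  (h1_dT_eq hv r θ).deriv

theorem hasDerivAt_dR {v : ℝ → ℝ → ℝ} (hv : ContDiff ℝ 1 (fun p : ℝ × ℝ => v p.1 p.2))
    (r θ : ℝ) : HasDerivAt (fun s => v s θ) (dR v r θ) r := by
  rw [h1_dR_formula hv r θ]
  exact h1_dR_eq hv r θ

theorem hasDerivAt_dT {v : ℝ → ℝ → ℝ} (hv : ContDiff ℝ 1 (fun p : ℝ × ℝ => v p.1 p.2))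
    (r θ : ℝ) : HasDerivAt (fun t => v r t) (dT v r θ) θ := by
  rw [h1_dT_formula hv r θ]
  exact h1_dT_eq hv r θ

theorem continuous_dR {v : ℝ → ℝ → ℝ} (hv : ContDiff ℝ 1 (fun p : ℝ × ℝ => v p.1 p.2)) :
    Continuous (fun p : ℝ × ℝ => dR v p.1 p.2) := by
  have h : (fun p : ℝ × ℝ => dR v p.1 p.2)
      = fun p : ℝ × ℝ => fderiv ℝ (fun p : ℝ × ℝ => v p.1 p.2) p ((1 : ℝ), (0 : ℝ)) := by
    funext p
    exact h1_dR_formula hv p.1 p.2
  rw [h]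
  exact (hv.continuous_fderiv one_ne_zero).clm_apply continuous_const

theorem continuous_dT {v : ℝ → ℝ → ℝ} (hv : ContDiff ℝ 1 (fun p : ℝ × ℝ => v p.1 p.2)) :
    Continuous (fun p : ℝ × ℝ => dT v p.1 p.2) := by
  have h : (fun p : ℝ × ℝ => dT v p.1 p.2)
      = fun p : ℝ × ℝ => fderiv ℝ (fun p : ℝ × ℝ => v p.1 p.2) p ((0 : ℝ), (1 : ℝ)) := by
    funext p
    exact h1_dT_formula hv p.1 p.2
  rw [h]
  exact (hv.continuous_fderiv one_ne_zero).clm_apply continuous_const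

theorem contDiff_dR {u : ℝ → ℝ → ℝ} (hu : ContDiff ℝ 2 (fun p : ℝ × ℝ => u p.1 p.2)) :
    ContDiff ℝ 1 (fun p : ℝ × ℝ => dR u p.1 p.2) := by
  have hu1 : ContDiff ℝ 1 (fun p : ℝ × ℝ => u p.1 p.2) := hu.of_le (by norm_num)
  have h : (fun p : ℝ × ℝ => dR u p.1 p.2)
      = fun p : ℝ × ℝ => fderiv ℝ (fun p : ℝ × ℝ => u p.1 p.2) p ((1 : ℝ), (0 : ℝ)) := by
    funext p
    exact h1_dR_formula hu1 p.1 p.2
  rw [h]
  have hf : ContDiff ℝ 1 (fderiv ℝ (fun p : ℝ × ℝ => u p.1 p.2)) :=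
    hu.fderiv_right (by norm_num)
  exact hf.clm_apply contDiff_const

theorem contDiff_dT {u : ℝ → ℝ → ℝ} (hu : ContDiff ℝ 2 (fun p : ℝ × ℝ => u p.1 p.2)) :
    ContDiff ℝ 1 (fun p : ℝ × ℝ => dT u p.1 p.2) := by
  have hu1 : ContDiff ℝ 1 (fun p : ℝ × ℝ => u p.1 p.2) := hu.of_le (by norm_num)
  have h : (fun p : ℝ × ℝ => dT u p.1 p.2)
      = fun p : ℝ × ℝ => fderiv ℝ (fun p : ℝ × ℝ => u p.1 p.2) p ((0 : ℝ), (1 : ℝ)) := by
    funext p
    exact h1_dT_formula hu1 p.1 p.2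
  rw [h]
  have hf : ContDiff ℝ 1 (fderiv ℝ (fun p : ℝ × ℝ => u p.1 p.2)) :=
    hu.fderiv_right (by norm_num)
  exact hf.clm_apply contDiff_const

/-- continuity of a parametric integral -/
theorem continuous_param_integral {Ψ : ℝ → ℝ → ℝ}
    (hΨ : Continuous (fun p : ℝ × ℝ => Ψ p.1 p.2)) (c d : ℝ) :
    Continuous (fun r => ∫ θ in c..d, Ψ r θ) :=
  intervalIntegral.continuous_parametric_intervalIntegral_of_continuous' hΨ c d

/-- differentiation of a parametric integral -/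
theorem hasDerivAt_param_integral {Ψ Ψ' : ℝ → ℝ → ℝ}
    (hΨ : Continuous (fun p : ℝ × ℝ => Ψ p.1 p.2))
    (hΨ' : Continuous (fun p : ℝ × ℝ => Ψ' p.1 p.2))
    (hd : ∀ r θ, HasDerivAt (fun s => Ψ s θ) (Ψ' r θ) r) (c d r₀ : ℝ) :
    HasDerivAt (fun r => ∫ θ in c..d, Ψ r θ) (∫ θ in c..d, Ψ' r₀ θ) r₀ := by
  have hK : IsCompact (Metric.closedBall r₀ 1 ×ˢ uIcc c d) :=
    (isCompact_closedBall r₀ 1).prod isCompact_uIcc
  obtain ⟨M, hM⟩ := hK.exists_bound_of_continuousOn hΨ'.continuousOn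
  have hcont : ∀ r : ℝ, Continuous (fun θ => Ψ r θ) := fun r =>
    hΨ.comp (Continuous.prodMk continuous_const continuous_id)
  have hcont' : ∀ r : ℝ, Continuous (fun θ => Ψ' r θ) := fun r =>
    hΨ'.comp (Continuous.prodMk continuous_const continuous_id)
  have key := intervalIntegral.hasDerivAt_integral_of_dominated_loc_of_deriv_le
    (μ := MeasureTheory.volume) (a := c) (b := d) (F := Ψ) (F' := Ψ') (x₀ := r₀)
    (s := Metric.closedBall r₀ 1) (bound := fun _ => M)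
    (Metric.closedBall_mem_nhds r₀ one_pos)
    (Filter.Eventually.of_forall fun r => (hcont r).aestronglyMeasurable)
    ((hcont r₀).intervalIntegrable c d)
    (hcont' r₀).aestronglyMeasurable
    (Filter.Eventually.of_forall fun t ht r hr =>
      hM (r, t) ⟨hr, uIoc_subset_uIcc ht⟩)
    intervalIntegrable_const
    (Filter.Eventually.of_forall fun t _ r _ => hd r t)
  exact key.2

end Vale.Agent.H60.Hot
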