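import Vale.Agent.H60.Hot.Defs0

/-!
# Partial derivatives and parametric integrals on the open half plane `r > 0` (TASK S1)

Same statements as in `Calc.lean` (TASK H1, helper55), for functions that are only `C^1` / `C^2` on
the open set `{p | 0 < p.1}`.  Sketch: the set is open, so `ContDiffOn` gives `ContDiffAt` at each
of its points (`ContDiffOn.contDiffAt` with `IsOpen.mem_nhds`; the set is
`Prod.fst ⁻¹' Ioi 0`), and the proofs of `Calc.lean` localise.  For the parametric integrals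
dominate on the compact set `closedBall r₀ (r₀ / 2) × uIcc c d`, which lies in the open set.
The last lemma is the Cauchy-Schwarz inequality (from `0 ≤ ∫ (f - t g)²` for all `t`).
-/

namespace Vale.Agent.H60.Hot

open Set

theorem s1_isOpen : IsOpen {p : ℝ × ℝ | 0 < p.1} :=
  isOpen_lt continuous_const continuous_fst

theorem s1_mem_nhds {r : ℝ} (hr : 0 < r) (θ : ℝ) : {p : ℝ × ℝ | 0 < p.1} ∈ nhds (r, θ) :=
  s1_isOpen.mem_nhds hr

theorem s1_dR_eq {v : ℝ → ℝ → ℝ}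
    (hv : ContDiffOn ℝ 1 (fun p : ℝ × ℝ => v p.1 p.2) {p : ℝ × ℝ | 0 < p.1})
    {r : ℝ} (hr : 0 < r) (θ : ℝ) :
    HasDerivAt (fun s => v s θ)
      (fderiv ℝ (fun p : ℝ × ℝ => v p.1 p.2) (r, θ) ((1 : ℝ), (0 : ℝ))) r := by
  have hU : DifferentiableAt ℝ (fun p : ℝ × ℝ => v p.1 p.2) (r, θ) :=
    (hv.contDiffAt (s1_mem_nhds hr θ)).differentiableAt one_ne_zero
  have hc : HasDerivAt (fun s : ℝ => (s, θ)) ((1 : ℝ), (0 : ℝ)) r :=
    (hasDerivAt_id r).prodMk (hasDerivAt_const r θ)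
  exact hU.hasFDerivAt.comp_hasDerivAt r hc

theorem s1_dT_eq {v : ℝ → ℝ → ℝ}
    (hv : ContDiffOn ℝ 1 (fun p : ℝ × ℝ => v p.1 p.2) {p : ℝ × ℝ | 0 < p.1})
    {r : ℝ} (hr : 0 < r) (θ : ℝ) :
    HasDerivAt (fun t => v r t)
      (fderiv ℝ (fun p : ℝ × ℝ => v p.1 p.2) (r, θ) ((0 : ℝ), (1 : ℝ))) θ := by
  have hU : DifferentiableAt ℝ (fun p : ℝ × ℝ => v p.1 p.2) (r, θ) :=
    (hv.contDiffAt (s1_mem_nhds hr θ)).differentiableAt one_ne_zero
  have hc : HasDerivAt (fun t : ℝ => (r, t)) ((0 : ℝ), (1 : ℝ)) θ :=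
    (hasDerivAt_const θ r).prodMk (hasDerivAt_id θ)
  exact hU.hasFDerivAt.comp_hasDerivAt θ hc

theorem s1_dR_formula {v : ℝ → ℝ → ℝ}
    (hv : ContDiffOn ℝ 1 (fun p : ℝ × ℝ => v p.1 p.2) {p : ℝ × ℝ | 0 < p.1})
    {r : ℝ} (hr : 0 < r) (θ : ℝ) :
    dR v r θ = fderiv ℝ (fun p : ℝ × ℝ => v p.1 p.2) (r, θ) ((1 : ℝ), (0 : ℝ)) :=
  (s1_dR_eq hv hr θ).deriv

theorem s1_dT_formula {v : ℝ → ℝ → ℝ}
    (hv : ContDiffOn ℝ 1 (fun p : ℝ × ℝ => v p.1 p.2) {p : ℝ × ℝ | 0 < p.1})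
    {r : ℝ} (hr : 0 < r) (θ : ℝ) :
    dT v r θ = fderiv ℝ (fun p : ℝ × ℝ => v p.1 p.2) (r, θ) ((0 : ℝ), (1 : ℝ)) :=
  (s1_dT_eq hv hr θ).deriv

theorem hasDerivAt_dR0 {v : ℝ → ℝ → ℝ}
    (hv : ContDiffOn ℝ 1 (fun p : ℝ × ℝ => v p.1 p.2) {p : ℝ × ℝ | 0 < p.1})
    {r : ℝ} (hr : 0 < r) (θ : ℝ) : HasDerivAt (fun s => v s θ) (dR v r θ) r := by
  rw [s1_dR_formula hv hr θ]
  exact s1_dR_eq hv hr θ

theorem hasDerivAt_dT0 {v : ℝ → ℝ → ℝ}
    (hv : ContDiffOn ℝ 1 (fun p : ℝ × ℝ => v p.1 p.2) {p : ℝ × ℝ | 0 < p.1})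
    {r : ℝ} (hr : 0 < r) (θ : ℝ) : HasDerivAt (fun t => v r t) (dT v r θ) θ := by
  rw [s1_dT_formula hv hr θ]
  exact s1_dT_eq hv hr θ

theorem continuousOn_dR0 {v : ℝ → ℝ → ℝ}
    (hv : ContDiffOn ℝ 1 (fun p : ℝ × ℝ => v p.1 p.2) {p : ℝ × ℝ | 0 < p.1}) :
    ContinuousOn (fun p : ℝ × ℝ => dR v p.1 p.2) {p : ℝ × ℝ | 0 < p.1} := by
  have hc : ContinuousOn
      (fun p : ℝ × ℝ => fderiv ℝ (fun p : ℝ × ℝ => v p.1 p.2) p ((1 : ℝ), (0 : ℝ)))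
      {p : ℝ × ℝ | 0 < p.1} :=
    (hv.continuousOn_fderiv_of_isOpen s1_isOpen le_rfl).clm_apply continuousOn_const
  refine hc.congr ?_
  intro p hp
  exact s1_dR_formula hv hp p.2

theorem continuousOn_dT0 {v : ℝ → ℝ → ℝ}
    (hv : ContDiffOn ℝ 1 (fun p : ℝ × ℝ => v p.1 p.2) {p : ℝ × ℝ | 0 < p.1}) :
    ContinuousOn (fun p : ℝ × ℝ => dT v p.1 p.2) {p : ℝ × ℝ | 0 < p.1} := by
  have hc : ContinuousOn
      (fun p : ℝ × ℝ => fderiv ℝ (fun p : ℝ × ℝ => v p.1 p.2) p ((0 : ℝ), (1 : ℝ)))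
      {p : ℝ × ℝ | 0 < p.1} :=
    (hv.continuousOn_fderiv_of_isOpen s1_isOpen le_rfl).clm_apply continuousOn_const
  refine hc.congr ?_
  intro p hp
  exact s1_dT_formula hv hp p.2

theorem contDiffOn_dR0 {u : ℝ → ℝ → ℝ}
    (hu : ContDiffOn ℝ 2 (fun p : ℝ × ℝ => u p.1 p.2) {p : ℝ × ℝ | 0 < p.1}) :
    ContDiffOn ℝ 1 (fun p : ℝ × ℝ => dR u p.1 p.2) {p : ℝ × ℝ | 0 < p.1} := by
  have hu1 : ContDiffOn ℝ 1 (fun p : ℝ × ℝ => u p.1 p.2) {p : ℝ × ℝ | 0 < p.1} :=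
    hu.of_le (by norm_num)
  have hf : ContDiffOn ℝ 1 (fderiv ℝ (fun p : ℝ × ℝ => u p.1 p.2)) {p : ℝ × ℝ | 0 < p.1} :=
    hu.fderiv_of_isOpen s1_isOpen (by norm_num)
  have hc : ContDiffOn ℝ 1
      (fun p : ℝ × ℝ => fderiv ℝ (fun p : ℝ × ℝ => u p.1 p.2) p ((1 : ℝ), (0 : ℝ)))
      {p : ℝ × ℝ | 0 < p.1} :=
    hf.clm_apply contDiffOn_const
  refine hc.congr ?_
  intro p hp
  exact s1_dR_formula hu1 hp p.2

theorem contDiffOn_dT0 {u : ℝ → ℝ → ℝ}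
    (hu : ContDiffOn ℝ 2 (fun p : ℝ × ℝ => u p.1 p.2) {p : ℝ × ℝ | 0 < p.1}) :
    ContDiffOn ℝ 1 (fun p : ℝ × ℝ => dT u p.1 p.2) {p : ℝ × ℝ | 0 < p.1} := by
  have hu1 : ContDiffOn ℝ 1 (fun p : ℝ × ℝ => u p.1 p.2) {p : ℝ × ℝ | 0 < p.1} :=
    hu.of_le (by norm_num)
  have hf : ContDiffOn ℝ 1 (fderiv ℝ (fun p : ℝ × ℝ => u p.1 p.2)) {p : ℝ × ℝ | 0 < p.1} :=
    hu.fderiv_of_isOpen s1_isOpen (by norm_num)
  have hc : ContDiffOn ℝ 1
      (fun p : ℝ × ℝ => fderiv ℝ (fun p : ℝ × ℝ => u p.1 p.2) p ((0 : ℝ), (1 : ℝ)))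
      {p : ℝ × ℝ | 0 < p.1} :=
    hf.clm_apply contDiffOn_const
  refine hc.congr ?_
  intro p hp
  exact s1_dT_formula hu1 hp p.2

/-- continuity in `θ` of the slices at a radius `r > 0` -/
theorem continuous_slice0 {Ψ : ℝ → ℝ → ℝ}
    (hΨ : ContinuousOn (fun p : ℝ × ℝ => Ψ p.1 p.2) {p : ℝ × ℝ | 0 < p.1})
    {r : ℝ} (hr : 0 < r) : Continuous (fun θ => Ψ r θ) :=
  hΨ.comp_continuous (f := fun θ : ℝ => (r, θ)) (by fun_prop) (fun _ => hr)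

theorem s1_ball_subset (r₀ : ℝ) (hr₀ : 0 < r₀) (c d : ℝ) :
    Metric.closedBall r₀ (r₀ / 2) ×ˢ uIcc c d ⊆ {p : ℝ × ℝ | 0 < p.1} := by
  intro p hp
  have h1 : p.1 ∈ Metric.closedBall r₀ (r₀ / 2) := hp.1
  rw [Metric.mem_closedBall, Real.dist_eq] at h1
  have h2 := (abs_le.mp h1).1
  show 0 < p.1
  linarith

/-- continuity of a parametric integral on `r > 0` -/
theorem continuousOn_param_integral0 {Ψ : ℝ → ℝ → ℝ}
    (hΨ : ContinuousOn (fun p : ℝ × ℝ => Ψ p.1 p.2) {p : ℝ × ℝ | 0 < p.1}) (c d : ℝ) :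
    ContinuousOn (fun r => ∫ θ in c..d, Ψ r θ) (Ioi 0) := by
  intro r₀ hr₀
  have hr₀' : (0 : ℝ) < r₀ := hr₀
  apply ContinuousAt.continuousWithinAt
  have hK : IsCompact (Metric.closedBall r₀ (r₀ / 2) ×ˢ uIcc c d) :=
    (isCompact_closedBall r₀ (r₀ / 2)).prod isCompact_uIcc
  obtain ⟨M, hM⟩ := hK.exists_bound_of_continuousOn (hΨ.mono (s1_ball_subset r₀ hr₀' c d))
  apply intervalIntegral.continuousAt_of_dominated_interval (bound := fun _ => M)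
  · exact (lt_mem_nhds hr₀').mono fun r hr => (continuous_slice0 hΨ hr).aestronglyMeasurable
  · filter_upwards [Metric.closedBall_mem_nhds r₀ (half_pos hr₀')] with r hr
    exact Filter.Eventually.of_forall fun t ht => hM (r, t) ⟨hr, uIoc_subset_uIcc ht⟩
  · exact intervalIntegrable_const
  · refine Filter.Eventually.of_forall fun t _ => ?_
    have h := hΨ.continuousAt (s1_mem_nhds hr₀' t)
    exact ContinuousAt.comp (g := fun p : ℝ × ℝ => Ψ p.1 p.2) (f := fun x : ℝ => (x, t)) h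
      (by fun_prop)

/-- differentiation of a parametric integral at `r₀ > 0` -/
theorem hasDerivAt_param_integral0 {Ψ Ψ' : ℝ → ℝ → ℝ}
    (hΨ : ContinuousOn (fun p : ℝ × ℝ => Ψ p.1 p.2) {p : ℝ × ℝ | 0 < p.1})
    (hΨ' : ContinuousOn (fun p : ℝ × ℝ => Ψ' p.1 p.2) {p : ℝ × ℝ | 0 < p.1})
    (hd : ∀ r : ℝ, 0 < r → ∀ θ : ℝ, HasDerivAt (fun s => Ψ s θ) (Ψ' r θ) r) (c d : ℝ)
    {r₀ : ℝ} (hr₀ : 0 < r₀) :
    HasDerivAt (fun r => ∫ θ in c..d, Ψ r θ) (∫ θ in c..d, Ψ' r₀ θ) r₀ := by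
  have hK : IsCompact (Metric.closedBall r₀ (r₀ / 2) ×ˢ uIcc c d) :=
    (isCompact_closedBall r₀ (r₀ / 2)).prod isCompact_uIcc
  have hsub := s1_ball_subset r₀ hr₀ c d
  obtain ⟨M, hM⟩ := hK.exists_bound_of_continuousOn (hΨ'.mono hsub)
  have hpos : ∀ r ∈ Metric.closedBall r₀ (r₀ / 2), (0 : ℝ) < r := by
    intro r hr
    rw [Metric.mem_closedBall, Real.dist_eq] at hr
    have h2 := (abs_le.mp hr).1
    linarith
  have key := intervalIntegral.hasDerivAt_integral_of_dominated_loc_of_deriv_le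
    (μ := MeasureTheory.volume) (a := c) (b := d) (F := Ψ) (F' := Ψ') (x₀ := r₀)
    (s := Metric.closedBall r₀ (r₀ / 2)) (bound := fun _ => M)
    (Metric.closedBall_mem_nhds r₀ (half_pos hr₀))
    ((lt_mem_nhds hr₀).mono fun r hr => (continuous_slice0 hΨ hr).aestronglyMeasurable)
    ((continuous_slice0 hΨ hr₀).intervalIntegrable c d)
    (continuous_slice0 hΨ' hr₀).aestronglyMeasurable
    (Filter.Eventually.of_forall fun t ht r hr =>
      hM (r, t) ⟨hr, uIoc_subset_uIcc ht⟩)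
    intervalIntegrable_const
    (Filter.Eventually.of_forall fun t _ r hr => hd r (hpos r hr) t)
  exact key.2

/-- a function with two continuous derivatives on `(0, ∞)` is `C^2` there -/
theorem contDiffOn_two_of_hasDerivAt {g g' g'' : ℝ → ℝ}
    (h1 : ∀ x : ℝ, 0 < x → HasDerivAt g (g' x) x)
    (h2 : ∀ x : ℝ, 0 < x → HasDerivAt g' (g'' x) x)
    (h3 : ContinuousOn g'' (Ioi 0)) : ContDiffOn ℝ 2 g (Ioi 0) := by
  have hg' : ContDiffOn ℝ 1 g' (Ioi 0) := by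
    have e : ((1 : ℕ∞) : WithTop ℕ∞) = (0 : WithTop ℕ∞) + 1 := by norm_num
    have e1 : (1 : WithTop ℕ∞) = 0 + 1 := by norm_num
    rw [e1, contDiffOn_succ_iff_deriv_of_isOpen isOpen_Ioi]
    refine ⟨fun x hx => (h2 x hx).differentiableAt.differentiableWithinAt, ?_, ?_⟩
    · intro h
      exact absurd h (by simp)
    · rw [contDiffOn_zero]
      refine h3.congr ?_
      intro x hx
      exact (h2 x hx).deriv
  have e2 : (2 : WithTop ℕ∞) = 1 + 1 := by norm_num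
  rw [e2, contDiffOn_succ_iff_deriv_of_isOpen isOpen_Ioi]
  refine ⟨fun x hx => (h1 x hx).differentiableAt.differentiableWithinAt, ?_, ?_⟩
  · intro h
    exact absurd h (by simp)
  · refine hg'.congr ?_
    intro x hx
    exact (h1 x hx).deriv

/-- the Cauchy-Schwarz inequality for interval integrals of continuous functions -/
theorem sq_integral_mul_le {f g : ℝ → ℝ} (hf : Continuous f) (hg : Continuous g) {c d : ℝ}
    (hcd : c ≤ d) :
    (∫ x in c..d, f x * g x) ^ 2 ≤ (∫ x in c..d, f x ^ 2) * (∫ x in c..d, g x ^ 2) := by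
  have key : ∀ t : ℝ, 0 ≤ (∫ x in c..d, g x ^ 2) * (t * t)
      + (-2 * ∫ x in c..d, f x * g x) * t + ∫ x in c..d, f x ^ 2 := by
    intro t
    have h0 : 0 ≤ ∫ x in c..d, (f x - t * g x) ^ 2 :=
      intervalIntegral.integral_nonneg hcd (fun x _ => sq_nonneg _)
    have h1 : (∫ x in c..d, (f x - t * g x) ^ 2) = (∫ x in c..d, g x ^ 2) * (t * t)
        + (-2 * ∫ x in c..d, f x * g x) * t + ∫ x in c..d, f x ^ 2 := by
      have e : ∀ x, (f x - t * g x) ^ 2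
          = (t * t) * g x ^ 2 + (-2 * t) * (f x * g x) + f x ^ 2 := by
        intro x
        ring
      simp_rw [e]
      rw [intervalIntegral.integral_add, intervalIntegral.integral_add,
        intervalIntegral.integral_const_mul, intervalIntegral.integral_const_mul]
      · ring
      all_goals (apply Continuous.intervalIntegrable; fun_prop)
    linarith
  have hd := discrim_le_zero key
  unfold discrim at hd
  nlinarith

end Vale.Agent.H60.Hot
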