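import Vale.Agent.H60.Hot.Defs

/-!
# Completeness of the cosines on an interval (TASK H2)

Sketch.  Put `ν = π / α` and `h θ = g θ - c₀ - c₁ cos (ν θ)` with `c₀ = (1/α) ∫ g`,
`c₁ = (2/α) ∫ g cos (ν ·)`.  Then `∫_0^α h cos (m ν ·) = 0` for every `m : ℕ` (orthogonality of the
cosines on `[0, α]`).  The even `2α`-periodic extension `H` of `h` is continuous and all its
Fourier coefficients vanish (`fourierCoeff`, the sine parts by evenness), hence `H = 0` by
Parseval (`tsum_sq_fourierCoeff`) or by `fourierBasis` completeness, and by continuity `h = 0` on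
`[0, α]`.  Alternative: Stone-Weierstrass for the algebra generated by `cos (ν ·)` on `[0, α]`
(it separates points since `cos` is injective on `[0, π]`), then `∫ h² = 0`.
-/

namespace Vale.Agent.H60.Hot

open Set intervalIntegral

/-- `∫_0^α cos (k ν θ) dθ = 0` for `k ≥ 1`, `ν = π / α`. -/
private theorem cosine_aux_integral_cos_nat {α : ℝ} (hα : 0 < α) {k : ℕ} (hk : 1 ≤ k) :
    ∫ θ in (0 : ℝ)..α, Real.cos (k * (Real.pi / α) * θ) = 0 := by
  have hk' : (0 : ℝ) < k := by exact_mod_cast hk
  have hc : (k : ℝ) * (Real.pi / α) ≠ 0 := by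
    have := Real.pi_pos
    positivity
  rw [intervalIntegral.integral_comp_mul_left (fun x => Real.cos x) hc, integral_cos]
  have e : (k : ℝ) * (Real.pi / α) * α = k * Real.pi := by field_simp
  rw [e, Real.sin_nat_mul_pi]
  simp

/-- all cosine moments vanish implies all moments against `cos^k * cos (m ·)` vanish -/
private theorem cosine_aux_moments_pow {α : ℝ} {h : ℝ → ℝ} (hh : Continuous h)
    (hm : ∀ m : ℕ, ∫ θ in (0 : ℝ)..α, h θ * Real.cos (m * (Real.pi / α) * θ) = 0) :
    ∀ (k m : ℕ), ∫ θ in (0 : ℝ)..α,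
      h θ * Real.cos (Real.pi / α * θ) ^ k * Real.cos (m * (Real.pi / α) * θ) = 0 := by
  intro k
  induction k with
  | zero =>
    intro m
    simpa using hm m
  | succ k ih =>
    intro m
    rcases Nat.eq_zero_or_pos m with hm0 | hmpos
    · subst hm0
      have h1 := ih 1
      refine Eq.trans ?_ h1
      apply intervalIntegral.integral_congr
      intro θ _
      simp only [Nat.cast_zero, zero_mul, Real.cos_zero, mul_one, Nat.cast_one, one_mul]
      ring
    · obtain ⟨n, rfl⟩ : ∃ n, m = n + 1 := ⟨m - 1, by omega⟩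
      have h1 := ih (n + 2)
      have h2 := ih n
      have hcont : ∀ j : ℕ, Continuous (fun θ : ℝ =>
          h θ * Real.cos (Real.pi / α * θ) ^ k * Real.cos (j * (Real.pi / α) * θ)) := by
        intro j
        fun_prop
      have key : ∀ θ : ℝ,
          h θ * Real.cos (Real.pi / α * θ) ^ (k + 1) * Real.cos ((n + 1 : ℕ) * (Real.pi / α) * θ)
          = (1 / 2) * (h θ * Real.cos (Real.pi / α * θ) ^ k
              * Real.cos ((n + 2 : ℕ) * (Real.pi / α) * θ))
            + (1 / 2) * (h θ * Real.cos (Real.pi / α * θ) ^ k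
              * Real.cos ((n : ℕ) * (Real.pi / α) * θ)) := by
        intro θ
        have e1 : ((n + 2 : ℕ) : ℝ) * (Real.pi / α) * θ
            = ((n + 1 : ℕ) : ℝ) * (Real.pi / α) * θ + Real.pi / α * θ := by
          push_cast; ring
        have e2 : ((n : ℕ) : ℝ) * (Real.pi / α) * θ
            = ((n + 1 : ℕ) : ℝ) * (Real.pi / α) * θ - Real.pi / α * θ := by
          push_cast; ring
        rw [e1, e2, Real.cos_add, Real.cos_sub]
        ring
      rw [intervalIntegral.integral_congr (fun θ _ => key θ)]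
      rw [intervalIntegral.integral_add (((hcont (n + 2)).const_mul _).intervalIntegrable _ _)
        (((hcont n).const_mul _).intervalIntegrable _ _),
        intervalIntegral.integral_const_mul, intervalIntegral.integral_const_mul, h1, h2]
      simp

/-- all cosine moments vanish implies all polynomial moments in `cos (ν θ)` vanish -/
private theorem cosine_aux_moments_poly {α : ℝ} {h : ℝ → ℝ} (hh : Continuous h)
    (hm : ∀ m : ℕ, ∫ θ in (0 : ℝ)..α, h θ * Real.cos (m * (Real.pi / α) * θ) = 0)
    (p : Polynomial ℝ) :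
    ∫ θ in (0 : ℝ)..α, h θ * p.eval (Real.cos (Real.pi / α * θ)) = 0 := by
  have hk : ∀ k : ℕ, ∫ θ in (0 : ℝ)..α, h θ * Real.cos (Real.pi / α * θ) ^ k = 0 := by
    intro k
    have := cosine_aux_moments_pow hh hm k 0
    simpa using this
  have e : ∀ θ : ℝ, h θ * p.eval (Real.cos (Real.pi / α * θ))
      = ∑ i ∈ Finset.range (p.natDegree + 1),
          p.coeff i * (h θ * Real.cos (Real.pi / α * θ) ^ i) := by
    intro θ
    rw [Polynomial.eval_eq_sum_range, Finset.mul_sum]
    apply Finset.sum_congr rfl
    intro i _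
    ring
  rw [intervalIntegral.integral_congr (fun θ _ => e θ)]
  rw [intervalIntegral.integral_finsetSum]
  · apply Finset.sum_eq_zero
    intro i _
    rw [intervalIntegral.integral_const_mul, hk i, mul_zero]
  · intro i _
    apply Continuous.intervalIntegrable
    fun_prop

/-- a continuous function on `[0, α]` all of whose cosine moments vanish is zero on `[0, α]` -/
private theorem cosine_aux_eq_zero_of_moments {α : ℝ} (hα : 0 < α) {h : ℝ → ℝ} (hh : Continuous h)
    (hm : ∀ m : ℕ, ∫ θ in (0 : ℝ)..α, h θ * Real.cos (m * (Real.pi / α) * θ) = 0) :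
    ∀ θ ∈ Icc (0 : ℝ) α, h θ = 0 := by
  by_contra hne
  simp only [not_forall] at hne
  obtain ⟨θ₀, hθ₀, hθ₀ne⟩ := hne
  have hν : 0 < Real.pi / α := div_pos Real.pi_pos hα
  -- the integral of `h²` is positive
  have hI : 0 < ∫ θ in (0 : ℝ)..α, h θ * h θ := by
    apply intervalIntegral.integral_pos hα
    · exact (hh.mul hh).continuousOn
    · intro x _
      exact mul_self_nonneg _
    · exact ⟨θ₀, hθ₀, mul_self_pos.mpr hθ₀ne⟩
  set I := ∫ θ in (0 : ℝ)..α, h θ * h θ with hIdef
  have hM : 0 ≤ ∫ θ in (0 : ℝ)..α, |h θ| :=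
    intervalIntegral.integral_nonneg hα.le (fun _ _ => abs_nonneg _)
  set M := ∫ θ in (0 : ℝ)..α, |h θ| with hMdef
  set ε := I / (2 * (M + 1)) with hεdef
  have hε : 0 < ε := by positivity
  -- the function `φ` with `φ (cos (ν θ)) = h θ`
  set φ : ℝ → ℝ := fun x => h (Real.arccos x / (Real.pi / α)) with hφdef
  have hφc : Continuous φ := by
    apply hh.comp
    exact Real.continuous_arccos.div_const _
  obtain ⟨p, hp⟩ := exists_polynomial_near_of_continuousOn (-1) 1 φ hφc.continuousOn ε hε
  have hφh : ∀ θ ∈ Icc (0 : ℝ) α, φ (Real.cos (Real.pi / α * θ)) = h θ := by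
    intro θ hθ
    have h0 : 0 ≤ Real.pi / α * θ := mul_nonneg hν.le hθ.1
    have h1 : Real.pi / α * θ ≤ Real.pi := by
      have : Real.pi / α * θ ≤ Real.pi / α * α := mul_le_mul_of_nonneg_left hθ.2 hν.le
      have e : Real.pi / α * α = Real.pi := by field_simp
      linarith
    simp only [hφdef]
    rw [Real.arccos_cos h0 h1]
    congr 1
    field_simp
  have hp0 := cosine_aux_moments_poly hh hm p
  -- `I = ∫ h (φ ∘ cos - p ∘ cos)`
  have hI2 : I = ∫ θ in (0 : ℝ)..α,
      h θ * (φ (Real.cos (Real.pi / α * θ)) - p.eval (Real.cos (Real.pi / α * θ))) := by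
    have e1 : ∫ θ in (0 : ℝ)..α,
        h θ * (φ (Real.cos (Real.pi / α * θ)) - p.eval (Real.cos (Real.pi / α * θ)))
        = (∫ θ in (0 : ℝ)..α, h θ * φ (Real.cos (Real.pi / α * θ)))
          - ∫ θ in (0 : ℝ)..α, h θ * p.eval (Real.cos (Real.pi / α * θ)) := by
      rw [← intervalIntegral.integral_sub]
      · apply intervalIntegral.integral_congr
        intro θ _
        ring
      · apply Continuous.intervalIntegrable
        exact hh.mul (hφc.comp (by fun_prop))
      · apply Continuous.intervalIntegrable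
        exact hh.mul (p.continuous.comp (by fun_prop))
    rw [e1, hp0, sub_zero, hIdef]
    apply intervalIntegral.integral_congr
    intro θ hθ
    rw [uIcc_of_le hα.le] at hθ
    simp only
    rw [hφh θ hθ]
  have hle : I ≤ ∫ θ in (0 : ℝ)..α, ε * |h θ| := by
    rw [hI2]
    apply intervalIntegral.integral_mono_on hα.le
    · apply Continuous.intervalIntegrable
      exact hh.mul ((hφc.comp (by fun_prop)).sub (p.continuous.comp (by fun_prop)))
    · apply Continuous.intervalIntegrable
      exact continuous_const.mul hh.abs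
    · intro θ hθ
      have hcos : Real.cos (Real.pi / α * θ) ∈ Icc (-1 : ℝ) 1 :=
        ⟨Real.neg_one_le_cos _, Real.cos_le_one _⟩
      have hb := hp _ hcos
      have hb' : |φ (Real.cos (Real.pi / α * θ)) - p.eval (Real.cos (Real.pi / α * θ))| < ε := by
        rw [abs_sub_comm]; exact hb
      calc h θ * (φ (Real.cos (Real.pi / α * θ)) - p.eval (Real.cos (Real.pi / α * θ)))
          ≤ |h θ * (φ (Real.cos (Real.pi / α * θ)) - p.eval (Real.cos (Real.pi / α * θ)))| :=
            le_abs_self _
        _ = |h θ| * |φ (Real.cos (Real.pi / α * θ)) - p.eval (Real.cos (Real.pi / α * θ))| :=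
            abs_mul _ _
        _ ≤ |h θ| * ε := mul_le_mul_of_nonneg_left hb'.le (abs_nonneg _)
        _ = ε * |h θ| := mul_comm _ _
  rw [intervalIntegral.integral_const_mul] at hle
  -- `I ≤ ε M < I`
  have hlt : ε * M < I := by
    rw [hεdef]
    have hM1 : 0 < M + 1 := by linarith
    rw [div_mul_eq_mul_div, div_lt_iff₀ (by positivity)]
    nlinarith
  linarith

/-- a continuous function on `[0, α]` whose cosine coefficients of order `≥ 2` vanish is a
combination of `1` and `cos (π θ / α)` -/
theorem cosine_complete {α : ℝ} (hα : 0 < α) {g : ℝ → ℝ} (hg : Continuous g)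
    (h : ∀ m : ℕ, 2 ≤ m → ∫ θ in (0 : ℝ)..α, g θ * Real.cos (m * (Real.pi / α) * θ) = 0) :
    ∀ θ ∈ Icc (0 : ℝ) α, g θ = (1 / α) * (∫ t in (0 : ℝ)..α, g t)
      + (2 / α) * (∫ t in (0 : ℝ)..α, g t * Real.cos (Real.pi / α * t))
        * Real.cos (Real.pi / α * θ) := by
  set c0 := (1 / α) * (∫ t in (0 : ℝ)..α, g t) with hc0
  set c1 := (2 / α) * (∫ t in (0 : ℝ)..α, g t * Real.cos (Real.pi / α * t)) with hc1
  set hfun : ℝ → ℝ := fun θ => g θ - c0 - c1 * Real.cos (Real.pi / α * θ) with hfdef
  have hhc : Continuous hfun := by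
    simp only [hfdef]
    fun_prop
  have hαne : α ≠ 0 := hα.ne'
  -- the cosine integrals
  have hcos0 : ∀ k : ℕ, 1 ≤ k → ∫ θ in (0 : ℝ)..α, Real.cos (k * (Real.pi / α) * θ) = 0 :=
    fun k hk => cosine_aux_integral_cos_nat hα hk
  have hcos1 : ∫ θ in (0 : ℝ)..α, Real.cos (Real.pi / α * θ) = 0 := by
    have := hcos0 1 le_rfl
    simpa using this
  -- ∫ cos (ν θ) cos ((n+1) ν θ)
  have hprod : ∀ n : ℕ, ∫ θ in (0 : ℝ)..α,
      Real.cos (Real.pi / α * θ) * Real.cos ((n + 1 : ℕ) * (Real.pi / α) * θ)
      = if n = 0 then α / 2 else 0 := by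
    intro n
    have key : ∀ θ : ℝ,
        Real.cos (Real.pi / α * θ) * Real.cos ((n + 1 : ℕ) * (Real.pi / α) * θ)
        = (1 / 2) * Real.cos ((n + 2 : ℕ) * (Real.pi / α) * θ)
          + (1 / 2) * Real.cos ((n : ℕ) * (Real.pi / α) * θ) := by
      intro θ
      have e1 : ((n + 2 : ℕ) : ℝ) * (Real.pi / α) * θ
          = ((n + 1 : ℕ) : ℝ) * (Real.pi / α) * θ + Real.pi / α * θ := by
        push_cast; ring
      have e2 : ((n : ℕ) : ℝ) * (Real.pi / α) * θ
          = ((n + 1 : ℕ) : ℝ) * (Real.pi / α) * θ - Real.pi / α * θ := by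
        push_cast; ring
      rw [e1, e2, Real.cos_add, Real.cos_sub]
      ring
    rw [intervalIntegral.integral_congr (fun θ _ => key θ)]
    rw [intervalIntegral.integral_add (by apply Continuous.intervalIntegrable; fun_prop)
      (by apply Continuous.intervalIntegrable; fun_prop),
      intervalIntegral.integral_const_mul, intervalIntegral.integral_const_mul,
      hcos0 (n + 2) (by omega)]
    by_cases hn : n = 0
    · subst hn
      simp
      ring
    · rw [hcos0 n (by omega)]
      simp [hn]
  -- all cosine moments of `hfun` vanish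
  have hmom : ∀ m : ℕ,
      ∫ θ in (0 : ℝ)..α, hfun θ * Real.cos (m * (Real.pi / α) * θ) = 0 := by
    intro m
    have hsplit : ∫ θ in (0 : ℝ)..α, hfun θ * Real.cos (m * (Real.pi / α) * θ)
        = (∫ θ in (0 : ℝ)..α, g θ * Real.cos (m * (Real.pi / α) * θ))
          - c0 * (∫ θ in (0 : ℝ)..α, Real.cos (m * (Real.pi / α) * θ))
          - c1 * (∫ θ in (0 : ℝ)..α,
              Real.cos (Real.pi / α * θ) * Real.cos (m * (Real.pi / α) * θ)) := by
      rw [← intervalIntegral.integral_const_mul, ← intervalIntegral.integral_const_mul,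
        ← intervalIntegral.integral_sub (by apply Continuous.intervalIntegrable; fun_prop)
          (by apply Continuous.intervalIntegrable; fun_prop),
        ← intervalIntegral.integral_sub (by apply Continuous.intervalIntegrable; fun_prop)
          (by apply Continuous.intervalIntegrable; fun_prop)]
      apply intervalIntegral.integral_congr
      intro θ _
      simp only [hfdef]
      ring
    rw [hsplit]
    rcases Nat.eq_zero_or_pos m with hm0 | hmpos
    · subst hm0
      simp only [Nat.cast_zero, zero_mul, Real.cos_zero, mul_one]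
      rw [hcos1, intervalIntegral.integral_const, hc0]
      simp only [sub_zero, smul_eq_mul, mul_zero]
      field_simp
      ring
    · obtain ⟨n, rfl⟩ : ∃ n, m = n + 1 := ⟨m - 1, by omega⟩
      rw [hprod n, hcos0 (n + 1) (by omega)]
      by_cases hn : n = 0
      · subst hn
        simp only [zero_add, Nat.cast_one, one_mul, mul_zero, sub_zero, if_true]
        rw [hc1]
        field_simp
        ring
      · rw [h (n + 1) (by omega)]
        simp [hn]
  intro θ hθ
  have hz := cosine_aux_eq_zero_of_moments hα hhc hmom θ hθ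
  simp only [hfdef] at hz
  linarith

end Vale.Agent.H60.Hot
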