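import Vale.Agent.H60.Hot.Defs0

/-!
# Logarithmic cut-off functions near the vertex (TASK S2a)

A point has zero capacity in the plane: for every `η > 0` there is a `C^1` function `χ` of the
radius with `0 ≤ χ ≤ 1`, `χ = 0` near `r = 0`, `χ = 1` for `r ≥ δ` (with `δ < η`, `δ < b`), and
`∫_0^b χ'(r)² r dr ≤ η`.

Sketch.  Take a `C^1` step `Φ : ℝ → [0, 1]`, `Φ = 0` on `(-∞, 0]`, `Φ = 1` on `[1, ∞)`, with
`|Φ'| ≤ C` on `[0, 1]` (here `Real.smoothTransition`).  For `L > 0` put `δ = exp (-L)` and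
`χ r = Φ ((Real.log r + 2 L) / L)` for `r > 0`, `χ r = 0` for `r ≤ 0`.  Then
`χ = 0` for `r ≤ δ²`, `χ = 1` for `r ≥ δ`, and for `δ² < r < δ`,
`χ' (r) = Φ' (..) / (r L)`, so
`∫_0^b χ'² r ≤ C² / L² * ∫_{δ²}^{δ} dr / r = C² / L`, which is `≤ η` for `L` large.
-/

namespace Vale.Agent.H60.Hot

open Set

/-- the logarithmic cut-off profile with parameter `L` -/
noncomputable def s2a_chi (L : ℝ) (r : ℝ) : ℝ :=
  if 0 < r then Real.smoothTransition ((Real.log r + 2 * L) / L) else 0

private lemma s2a_bound :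
    ∃ C : ℝ, 0 ≤ C ∧ ∀ x ∈ Icc (0 : ℝ) 1, |deriv Real.smoothTransition x| ≤ C := by
  have hc : Continuous (deriv Real.smoothTransition) :=
    (Real.smoothTransition.contDiff (n := 1)).continuous_deriv le_rfl
  obtain ⟨C, hC⟩ :=
    isCompact_Icc.exists_bound_of_continuousOn (hc.continuousOn (s := Icc (0 : ℝ) 1))
  refine ⟨max C 0, le_max_right _ _, fun x hx => ?_⟩
  have h := hC x hx
  rw [Real.norm_eq_abs] at h
  exact h.trans (le_max_left _ _)

private lemma s2a_nonneg (L r : ℝ) : 0 ≤ s2a_chi L r := by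
  unfold s2a_chi
  split_ifs
  · exact Real.smoothTransition.nonneg _
  · exact le_rfl

private lemma s2a_le_one (L r : ℝ) : s2a_chi L r ≤ 1 := by
  unfold s2a_chi
  split_ifs
  · exact Real.smoothTransition.le_one _
  · exact zero_le_one

private lemma s2a_zero {L : ℝ} (hL : 0 < L) {r : ℝ} (hr : r ≤ Real.exp (-(2 * L))) :
    s2a_chi L r = 0 := by
  unfold s2a_chi
  split_ifs with h
  · apply Real.smoothTransition.zero_of_nonpos
    have h1 : Real.log r ≤ -(2 * L) := by
      calc Real.log r ≤ Real.log (Real.exp (-(2 * L))) := Real.log_le_log h hr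
        _ = -(2 * L) := Real.log_exp _
    exact div_nonpos_of_nonpos_of_nonneg (by linarith) hL.le
  · rfl

private lemma s2a_one {L : ℝ} (hL : 0 < L) {r : ℝ} (hr : Real.exp (-L) ≤ r) :
    s2a_chi L r = 1 := by
  have h0 : 0 < r := (Real.exp_pos _).trans_le hr
  unfold s2a_chi
  rw [if_pos h0]
  apply Real.smoothTransition.one_of_one_le
  have h1 : -L ≤ Real.log r := by
    calc -L = Real.log (Real.exp (-L)) := (Real.log_exp _).symm
      _ ≤ Real.log r := Real.log_le_log (Real.exp_pos _) hr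
  rw [le_div_iff₀ hL]
  linarith

private lemma s2a_eq_of_pos (L : ℝ) {x : ℝ} (hx : 0 < x) :
    s2a_chi L =ᶠ[nhds x] fun r => Real.smoothTransition ((Real.log r + 2 * L) / L) := by
  filter_upwards [lt_mem_nhds hx] with r hr
  unfold s2a_chi
  rw [if_pos hr]

private lemma s2a_contDiff {L : ℝ} (hL : 0 < L) : ContDiff ℝ 1 (s2a_chi L) := by
  rw [contDiff_iff_contDiffAt]
  intro x
  by_cases hx : 0 < x
  · have h1 : ContDiffAt ℝ 1
        (fun r => Real.smoothTransition ((Real.log r + 2 * L) / L)) x := by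
      apply Real.smoothTransition.contDiff.contDiffAt.comp
      exact ((Real.contDiffAt_log.mpr hx.ne').add contDiffAt_const).div_const _
    exact h1.congr_of_eventuallyEq (s2a_eq_of_pos L hx)
  · have hx' : x < Real.exp (-(2 * L)) := (not_lt.mp hx).trans_lt (Real.exp_pos _)
    have h2 : s2a_chi L =ᶠ[nhds x] fun _ => (0 : ℝ) := by
      filter_upwards [gt_mem_nhds hx'] with r hr
      exact s2a_zero hL hr.le
    exact contDiffAt_const.congr_of_eventuallyEq h2

private lemma s2a_deriv (L : ℝ) {r : ℝ} (hr : 0 < r) :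
    deriv (s2a_chi L) r
      = deriv Real.smoothTransition ((Real.log r + 2 * L) / L) * (r⁻¹ / L) := by
  rw [(s2a_eq_of_pos L hr).deriv_eq]
  have hΦ : DifferentiableAt ℝ Real.smoothTransition ((Real.log r + 2 * L) / L) :=
    ((Real.smoothTransition.contDiff (n := 1)).differentiable (by norm_num)) _
  have hu : HasDerivAt (fun r => (Real.log r + 2 * L) / L) (r⁻¹ / L) r :=
    ((Real.hasDerivAt_log hr.ne').add_const (2 * L)).div_const L
  exact (hΦ.hasDerivAt.comp r hu).deriv

private lemma s2a_integral {L C : ℝ} (hL : 0 < L)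
    (hC : ∀ x ∈ Icc (0 : ℝ) 1, |deriv Real.smoothTransition x| ≤ C) {b : ℝ}
    (hb : Real.exp (-L) < b) :
    (∫ r in (0 : ℝ)..b, deriv (s2a_chi L) r ^ 2 * r) ≤ C ^ 2 / L := by
  set F : ℝ → ℝ := fun r => deriv (s2a_chi L) r ^ 2 * r with hF
  have hcont : Continuous F :=
    (((s2a_contDiff hL).continuous_deriv le_rfl).pow 2).mul continuous_id
  have hint : ∀ a c : ℝ, IntervalIntegrable F MeasureTheory.volume a c :=
    fun a c => hcont.intervalIntegrable a c
  have hd2pos : 0 < Real.exp (-(2 * L)) := Real.exp_pos _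
  have hd1pos : 0 < Real.exp (-L) := Real.exp_pos _
  have h21 : Real.exp (-(2 * L)) < Real.exp (-L) := Real.exp_lt_exp.mpr (by linarith)
  have hsplit : (∫ r in (0 : ℝ)..b, F r)
      = (∫ r in (0 : ℝ)..Real.exp (-(2 * L)), F r)
        + (∫ r in Real.exp (-(2 * L))..Real.exp (-L), F r)
        + (∫ r in Real.exp (-L)..b, F r) := by
    rw [intervalIntegral.integral_add_adjacent_intervals (hint _ _) (hint _ _),
      intervalIntegral.integral_add_adjacent_intervals (hint _ _) (hint _ _)]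
  have hz1 : (∫ r in (0 : ℝ)..Real.exp (-(2 * L)), F r) = 0 := by
    have h0 : ∀ r ∈ uIcc (0 : ℝ) (Real.exp (-(2 * L))), F r = 0 := by
      intro r hr
      rw [uIcc_of_le hd2pos.le] at hr
      have hmin : IsLocalMin (s2a_chi L) r := by
        apply Filter.Eventually.of_forall
        intro y
        rw [s2a_zero hL hr.2]
        exact s2a_nonneg L y
      simp [hF, hmin.deriv_eq_zero]
    rw [intervalIntegral.integral_congr h0]
    simp
  have hz3 : (∫ r in Real.exp (-L)..b, F r) = 0 := by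
    have h0 : ∀ r ∈ uIcc (Real.exp (-L)) b, F r = 0 := by
      intro r hr
      rw [uIcc_of_le hb.le] at hr
      have hmax : IsLocalMax (s2a_chi L) r := by
        apply Filter.Eventually.of_forall
        intro y
        rw [s2a_one hL hr.1]
        exact s2a_le_one L y
      simp [hF, hmax.deriv_eq_zero]
    rw [intervalIntegral.integral_congr h0]
    simp
  have hgi : IntervalIntegrable (fun r : ℝ => C ^ 2 / L ^ 2 * r⁻¹) MeasureTheory.volume
      (Real.exp (-(2 * L))) (Real.exp (-L)) := by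
    apply ContinuousOn.intervalIntegrable
    rw [uIcc_of_le h21.le]
    apply ContinuousOn.mul continuousOn_const
    apply ContinuousOn.inv₀ continuousOn_id
    intro x hx
    exact (hd2pos.trans_le hx.1).ne'
  have hmid : (∫ r in Real.exp (-(2 * L))..Real.exp (-L), F r)
      ≤ ∫ r in Real.exp (-(2 * L))..Real.exp (-L), C ^ 2 / L ^ 2 * r⁻¹ := by
    apply intervalIntegral.integral_mono_on h21.le (hint _ _) hgi
    intro r hr
    have hr0 : 0 < r := hd2pos.trans_le hr.1
    have hlog1 : -(2 * L) ≤ Real.log r := by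
      rw [← Real.log_exp (-(2 * L))]
      exact Real.log_le_log hd2pos hr.1
    have hlog2 : Real.log r ≤ -L := by
      rw [← Real.log_exp (-L)]
      exact Real.log_le_log hr0 hr.2
    have hu : (Real.log r + 2 * L) / L ∈ Icc (0 : ℝ) 1 :=
      ⟨div_nonneg (by linarith) hL.le, by rw [div_le_one hL]; linarith⟩
    have hbd := hC _ hu
    have hsq : deriv Real.smoothTransition ((Real.log r + 2 * L) / L) ^ 2 ≤ C ^ 2 :=
      sq_le_sq' (by linarith [(abs_le.mp hbd).1]) (abs_le.mp hbd).2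
    show deriv (s2a_chi L) r ^ 2 * r ≤ C ^ 2 / L ^ 2 * r⁻¹
    rw [s2a_deriv L hr0]
    have hpos : 0 ≤ r⁻¹ / L ^ 2 := by positivity
    calc (deriv Real.smoothTransition ((Real.log r + 2 * L) / L) * (r⁻¹ / L)) ^ 2 * r
        = deriv Real.smoothTransition ((Real.log r + 2 * L) / L) ^ 2 * (r⁻¹ / L ^ 2) := by
          field_simp
      _ ≤ C ^ 2 * (r⁻¹ / L ^ 2) := mul_le_mul_of_nonneg_right hsq hpos
      _ = C ^ 2 / L ^ 2 * r⁻¹ := by ring
  have hval : (∫ r in Real.exp (-(2 * L))..Real.exp (-L), C ^ 2 / L ^ 2 * r⁻¹) = C ^ 2 / L := by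
    rw [intervalIntegral.integral_const_mul, integral_inv_of_pos hd2pos hd1pos]
    have hlog : Real.log (Real.exp (-L) / Real.exp (-(2 * L))) = L := by
      rw [Real.log_div hd1pos.ne' hd2pos.ne', Real.log_exp, Real.log_exp]
      ring
    rw [hlog]
    field_simp
  have hmain : (∫ r in (0 : ℝ)..b, F r) ≤ C ^ 2 / L := by
    rw [hsplit, hz1, hz3]
    linarith
  exact hmain

theorem exists_cutoff {b : ℝ} (hb : 0 < b) {η : ℝ} (hη : 0 < η) :
    ∃ (χ : ℝ → ℝ) (δ : ℝ), 0 < δ ∧ δ < b ∧ δ < η ∧ ContDiff ℝ 1 χ ∧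
      (∀ r : ℝ, 0 ≤ χ r ∧ χ r ≤ 1) ∧
      (∃ ε : ℝ, 0 < ε ∧ ∀ r : ℝ, r ≤ ε → χ r = 0) ∧
      (∀ r : ℝ, δ ≤ r → χ r = 1) ∧
      (∫ r in (0 : ℝ)..b, deriv χ r ^ 2 * r) ≤ η := by
  obtain ⟨C, -, hC⟩ := s2a_bound
  have hm0 : 0 < min b η := lt_min hb hη
  have hq : 0 ≤ C ^ 2 / η := div_nonneg (sq_nonneg C) hη.le
  have hL0 : 0 < C ^ 2 / η + |Real.log (min b η)| + 1 := by
    have := abs_nonneg (Real.log (min b η))
    linarith
  have hCL : C ^ 2 ≤ η * (C ^ 2 / η + |Real.log (min b η)| + 1) := by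
    have h1 : η * (C ^ 2 / η) = C ^ 2 := by field_simp
    have h2 : 0 ≤ η * (|Real.log (min b η)| + 1) :=
      mul_nonneg hη.le (by have := abs_nonneg (Real.log (min b η)); linarith)
    nlinarith
  have hδm : Real.exp (-(C ^ 2 / η + |Real.log (min b η)| + 1)) < min b η := by
    have h1 : -(C ^ 2 / η + |Real.log (min b η)| + 1) < Real.log (min b η) := by
      have := neg_abs_le (Real.log (min b η))
      linarith
    calc Real.exp (-(C ^ 2 / η + |Real.log (min b η)| + 1))
        < Real.exp (Real.log (min b η)) := Real.exp_lt_exp.mpr h1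
      _ = min b η := Real.exp_log hm0
  refine ⟨s2a_chi (C ^ 2 / η + |Real.log (min b η)| + 1),
    Real.exp (-(C ^ 2 / η + |Real.log (min b η)| + 1)), Real.exp_pos _,
    hδm.trans_le (min_le_left _ _), hδm.trans_le (min_le_right _ _), s2a_contDiff hL0,
    fun r => ⟨s2a_nonneg _ r, s2a_le_one _ r⟩,
    ⟨Real.exp (-(2 * (C ^ 2 / η + |Real.log (min b η)| + 1))), Real.exp_pos _,
      fun r hr => s2a_zero hL0 hr⟩,
    fun r hr => s2a_one hL0 hr, ?_⟩
  exact (s2a_integral hL0 hC (hδm.trans_le (min_le_left _ _))).trans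
    ((div_le_iff₀ hL0).mpr hCL)

end Vale.Agent.H60.Hot
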