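import Vale.Agent.H60.Hot.Base

/-!
# Hot spots on annular sectors: definitions

The annular sector `{a < |x| < b, 0 < arg x < α}` is described in polar coordinates `(r, θ)` by the
rectangle `[a, b] × [0, α]`; the Laplacian is `∂_r² + ∂_r / r + ∂_θ² / r²`, the area element is
`r dr dθ` and `|∇ v|² = (∂_r v)² + (∂_θ v)² / r²`.
-/

namespace Vale.Agent.H60.Hot

open Set

/-- `μ` is a lower bound for the Rayleigh quotient `∫ |∇ v|² / ∫ v²` of the annular sector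
(in polar coordinates) over all `C^1` functions `v` of zero mean -/
def RayleighBound (a b α μ : ℝ) : Prop :=
  ∀ v : ℝ → ℝ → ℝ, ContDiff ℝ 1 (fun p : ℝ × ℝ => v p.1 p.2) →
    (∫ r in a..b, ∫ θ in (0 : ℝ)..α, v r θ * r) = 0 →
    μ * (∫ r in a..b, ∫ θ in (0 : ℝ)..α, v r θ ^ 2 * r)
      ≤ ∫ r in a..b, ∫ θ in (0 : ℝ)..α, (dR v r θ ^ 2 + dT v r θ ^ 2 / r ^ 2) * r

/-- `u` is a Neumann eigenfunction with eigenvalue `μ` of the annular sector, in polar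
coordinates: `u_rr + u_r / r + u_θθ / r² + μ u = 0` on `[a, b] × [0, α]`, with vanishing normal
derivative on the four sides -/
structure NeumannEig (a b α μ : ℝ) (u : ℝ → ℝ → ℝ) : Prop where
  smooth : ContDiff ℝ 2 (fun p : ℝ × ℝ => u p.1 p.2)
  pde : ∀ r ∈ Icc a b, ∀ θ ∈ Icc (0 : ℝ) α,
    dR (dR u) r θ + dR u r θ / r + dT (dT u) r θ / r ^ 2 + μ * u r θ = 0
  bc_r : ∀ θ ∈ Icc (0 : ℝ) α, dR u a θ = 0 ∧ dR u b θ = 0
  bc_t : ∀ r ∈ Icc a b, dT u r 0 = 0 ∧ dT u r α = 0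

end Vale.Agent.H60.Hot
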