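import Vale.Agent.H60.Hot.Base

/-!
# Hot spots on circular sectors: definitions

The circular sector `{0 < |x| < b, 0 < arg x < α}` is described in polar coordinates `(r, θ)` by
`(0, b] × [0, α]`; the vertex `r = 0` is a singular point of the coordinates, and the
eigenfunctions are only required to be smooth for `r > 0`, bounded, and of finite energy.
-/

namespace Vale.Agent.H60.Hot

open Set

/-- `μ` is a lower bound for the Rayleigh quotient `∫ |∇ v|² / ∫ v²` of the circular sector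
(in polar coordinates) over all `C^1` functions `v` of zero mean that vanish near the vertex -/
def RayleighBound0 (b α μ : ℝ) : Prop :=
  ∀ v : ℝ → ℝ → ℝ, ContDiff ℝ 1 (fun p : ℝ × ℝ => v p.1 p.2) →
    (∃ ε : ℝ, 0 < ε ∧ ∀ r : ℝ, r ≤ ε → ∀ θ : ℝ, v r θ = 0) →
    (∫ r in (0 : ℝ)..b, ∫ θ in (0 : ℝ)..α, v r θ * r) = 0 →
    μ * (∫ r in (0 : ℝ)..b, ∫ θ in (0 : ℝ)..α, v r θ ^ 2 * r)
      ≤ ∫ r in (0 : ℝ)..b, ∫ θ in (0 : ℝ)..α, (dR v r θ ^ 2 + dT v r θ ^ 2 / r ^ 2) * r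

/-- `u` is a bounded Neumann eigenfunction of finite energy, with eigenvalue `μ`, of the circular
sector, in polar coordinates: `u_rr + u_r / r + u_θθ / r² + μ u = 0` on `(0, b] × [0, α]`, with
vanishing normal derivative on the arc `r = b` and on the two straight sides `θ = 0`, `θ = α` -/
structure NeumannEig0 (b α μ : ℝ) (u : ℝ → ℝ → ℝ) : Prop where
  smooth : ContDiffOn ℝ 2 (fun p : ℝ × ℝ => u p.1 p.2) {p : ℝ × ℝ | 0 < p.1}
  pde : ∀ r ∈ Ioc (0 : ℝ) b, ∀ θ ∈ Icc (0 : ℝ) α,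
    dR (dR u) r θ + dR u r θ / r + dT (dT u) r θ / r ^ 2 + μ * u r θ = 0
  bc_r : ∀ θ ∈ Icc (0 : ℝ) α, dR u b θ = 0
  bc_t : ∀ r ∈ Ioc (0 : ℝ) b, dT u r 0 = 0 ∧ dT u r α = 0
  bdd : ∃ M : ℝ, ∀ r ∈ Ioc (0 : ℝ) b, ∀ θ ∈ Icc (0 : ℝ) α, |u r θ| ≤ M
  energy : ∃ E : ℝ, ∀ ε ∈ Ioo (0 : ℝ) b,
    (∫ r in ε..b, ∫ θ in (0 : ℝ)..α, (dR u r θ ^ 2 + dT u r θ ^ 2 / r ^ 2) * r) ≤ E

end Vale.Agent.H60.Hot
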