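import Vale.Agent.H60.Hot.Ode

/-!
# A radial solution that minimises the Rayleigh quotient has no zero (TASK H5)

Sketch.  Put `Q φ = ∫_a^b (φ'² r + κ φ² / r) - μ ∫_a^b φ² r ≥ 0` (hypothesis `hQ`); `Q A = 0` by
`RadialSol.energy`.  For `δ > 0` the function `φ = sqrt (A² + δ²)` is `C^1` with
`φ' = A A' / φ`, so `φ'² = A'² - δ² A'² / (A² + δ²)` and `φ² = A² + δ²`, hence
`Q φ = δ² (K₀ - ∫_a^b A'² r / (A² + δ²))` with `K₀ = ∫_a^b (κ / r - μ r)`.  So
`∫_a^b A'² r / (A² + δ²) ≤ K₀` for every `δ > 0`.  Suppose `A c = 0`, `c ∈ [a, b]`.  If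
`A' c = 0` then `A = 0` on `[a, b]` by `RadialSol.unique`, contradiction.  Otherwise `c ∈ (a, b)`
(the derivative vanishes at the end points), `|A'| ≥ |A' c| / 2` on some `[c, c + η] ⊆ [a, b]`,
and `|A r| ≤ L |r - c|` there with `L = |A' c| + 1`; for `δ ≤ L η` the integral is at
least `(A' c)² / 4 * a * (δ / L) / (2 δ²)`, which tends to infinity as `δ → 0`.
-/

namespace Vale.Agent.H60.Hot

open Set

variable {a b μ κ : ℝ} {A : ℝ → ℝ}

/-- the regularised absolute value `sqrt (A² + δ²)` is `C^1` -/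
private lemma h5_sqrt_contDiff (hA : ContDiff ℝ 2 A) {δ : ℝ} (hδ : 0 < δ) :
    ContDiff ℝ 1 (fun r => Real.sqrt (A r ^ 2 + δ ^ 2)) := by
  have h1 : ContDiff ℝ 1 (fun r => A r ^ 2 + δ ^ 2) :=
    ((hA.of_le (by norm_num)).pow 2).add contDiff_const
  exact h1.sqrt (fun x => by positivity)

/-- the derivative of the regularised absolute value -/
private lemma h5_sqrt_deriv (hA : ContDiff ℝ 2 A) {δ : ℝ} (hδ : 0 < δ) (r : ℝ) :
    deriv (fun r => Real.sqrt (A r ^ 2 + δ ^ 2)) r
      = A r * deriv A r / Real.sqrt (A r ^ 2 + δ ^ 2) := by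
  have hd : DifferentiableAt ℝ A r := (hA.differentiable (by norm_num)).differentiableAt
  have h1 : HasDerivAt (fun r => A r ^ 2 + δ ^ 2) (2 * A r * deriv A r) r := by
    have := (hd.hasDerivAt.pow 2).add_const (δ ^ 2)
    simpa using this
  have h2 := h1.sqrt (by positivity)
  rw [h2.deriv]
  have : Real.sqrt (A r ^ 2 + δ ^ 2) ≠ 0 := by positivity
  field_simp

/-- testing the Rayleigh bound with `sqrt (A² + δ²)` bounds `∫ A'² r / (A² + δ²)` uniformly in
`δ` -/
private lemma h5_key (ha : 0 < a) (hab : a < b) (h : RadialSol a b μ κ A)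
    (hQ : ∀ φ : ℝ → ℝ, ContDiff ℝ 1 φ →
      μ * ∫ r in a..b, φ r ^ 2 * r ≤ ∫ r in a..b, (deriv φ r ^ 2 * r + κ * φ r ^ 2 / r))
    {δ : ℝ} (hδ : 0 < δ) :
    ∫ r in a..b, deriv A r ^ 2 * r / (A r ^ 2 + δ ^ 2)
      ≤ (∫ r in a..b, κ / r) - μ * ∫ r in a..b, r := by
  have hA := h.smooth
  have hAc : Continuous A := hA.continuous
  have hA'c : Continuous (deriv A) := hA.continuous_deriv (by norm_num)
  have hpos : ∀ r, 0 < A r ^ 2 + δ ^ 2 := fun r => by positivity
  have hne0 : ∀ r ∈ uIcc a b, r ≠ 0 := by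
    intro r hr
    rw [uIcc_of_le hab.le] at hr
    exact (lt_of_lt_of_le ha hr.1).ne'
  have hf1 : IntervalIntegrable (fun r => deriv A r ^ 2 * r + κ * A r ^ 2 / r)
      MeasureTheory.volume a b :=
    ContinuousOn.intervalIntegrable
      (ContinuousOn.add (by fun_prop) (ContinuousOn.div (by fun_prop) continuousOn_id hne0))
  have hf2 : IntervalIntegrable (fun r => A r ^ 2 * r) MeasureTheory.volume a b :=
    (by fun_prop : Continuous (fun r => A r ^ 2 * r)).intervalIntegrable a b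
  have hg : IntervalIntegrable (fun r => deriv A r ^ 2 * r / (A r ^ 2 + δ ^ 2))
      MeasureTheory.volume a b :=
    (Continuous.div (by fun_prop) (by fun_prop) (fun r => (hpos r).ne')).intervalIntegrable a b
  have hh1 : IntervalIntegrable (fun r => κ / r) MeasureTheory.volume a b :=
    ContinuousOn.intervalIntegrable (ContinuousOn.div continuousOn_const continuousOn_id hne0)
  have hh2 : IntervalIntegrable (fun r : ℝ => r) MeasureTheory.volume a b :=
    continuous_id.intervalIntegrable a b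
  have hφ1 : ContDiff ℝ 1 (fun r => Real.sqrt (A r ^ 2 + δ ^ 2)) := h5_sqrt_contDiff hA hδ
  have key := hQ _ hφ1
  have e1 : ∫ r in a..b, Real.sqrt (A r ^ 2 + δ ^ 2) ^ 2 * r
      = (∫ r in a..b, A r ^ 2 * r) + δ ^ 2 * ∫ r in a..b, r := by
    rw [← intervalIntegral.integral_const_mul, ← intervalIntegral.integral_add hf2 (hh2.const_mul _)]
    apply intervalIntegral.integral_congr
    intro r _
    simp only
    rw [Real.sq_sqrt (hpos r).le]
    ring
  have e2 : ∫ r in a..b, (deriv (fun r => Real.sqrt (A r ^ 2 + δ ^ 2)) r ^ 2 * r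
        + κ * Real.sqrt (A r ^ 2 + δ ^ 2) ^ 2 / r)
      = (∫ r in a..b, (deriv A r ^ 2 * r + κ * A r ^ 2 / r))
        - δ ^ 2 * (∫ r in a..b, deriv A r ^ 2 * r / (A r ^ 2 + δ ^ 2))
        + δ ^ 2 * ∫ r in a..b, κ / r := by
    rw [← intervalIntegral.integral_const_mul, ← intervalIntegral.integral_const_mul,
      ← intervalIntegral.integral_sub hf1 (hg.const_mul _),
      ← intervalIntegral.integral_add (hf1.sub (hg.const_mul _)) (hh1.const_mul _)]
    apply intervalIntegral.integral_congr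
    intro r hr
    have hr0 := hne0 r hr
    simp only
    rw [h5_sqrt_deriv hA hδ r, div_pow, Real.sq_sqrt (hpos r).le]
    have := (hpos r).ne'
    field_simp
    ring
  have e3 := h.energy ha hab
  rw [e1, e2, e3] at key
  have hδ2 : 0 < δ ^ 2 := by positivity
  have : δ ^ 2 * (∫ r in a..b, deriv A r ^ 2 * r / (A r ^ 2 + δ ^ 2))
      ≤ δ ^ 2 * ((∫ r in a..b, κ / r) - μ * ∫ r in a..b, r) := by nlinarith
  exact le_of_mul_le_mul_left this hδ2

/-- at a simple zero in the interior, `∫ A'² r / (A² + δ²)` is unbounded as `δ → 0` -/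
private lemma h5_blowup (ha : 0 < a) (hA : ContDiff ℝ 2 A) {c : ℝ} (hc : c ∈ Ioo a b)
    (h0 : A c = 0) (h1 : deriv A c ≠ 0) (K : ℝ) :
    ∃ δ : ℝ, 0 < δ ∧ K < ∫ r in a..b, deriv A r ^ 2 * r / (A r ^ 2 + δ ^ 2) := by
  set d := |deriv A c| with hd
  have hdpos : 0 < d := abs_pos.mpr h1
  have hAc : Continuous A := hA.continuous
  have hA'c : Continuous (deriv A) := hA.continuous_deriv (by norm_num)
  have ev1 : ∀ᶠ r in nhds c, d / 2 ≤ |deriv A r| := by
    have hc1 : ContinuousAt (fun r => |deriv A r|) c := (hA'c.abs).continuousAt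
    have hlt : d / 2 < (fun r => |deriv A r|) c := by
      show d / 2 < |deriv A c|
      rw [← hd]
      linarith
    exact Filter.Tendsto.eventually_const_le hlt hc1
  have ev2 : ∀ᶠ r in nhds c, |A r| ≤ (d + 1) * |r - c| := by
    have hd' : HasDerivAt A (deriv A c) c :=
      (hA.differentiable (by norm_num)).differentiableAt.hasDerivAt
    have hb := hd'.isLittleO.bound (show (0 : ℝ) < 1 by norm_num)
    filter_upwards [hb] with r hr
    simp only [h0, sub_zero, smul_eq_mul, Real.norm_eq_abs, one_mul] at hr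
    have h3 : |A r| ≤ |A r - (r - c) * deriv A c| + |(r - c) * deriv A c| := by
      have := abs_add_le (A r - (r - c) * deriv A c) ((r - c) * deriv A c)
      simpa using this
    rw [abs_mul] at h3
    nlinarith [abs_nonneg (r - c)]
  obtain ⟨η, hη, hball⟩ := Metric.eventually_nhds_iff.mp (ev1.and ev2)
  set L := d + 1 with hL
  have hLpos : 0 < L := by positivity
  set η' := min (η / 2) (b - c) with hη'
  have hη'pos : 0 < η' := lt_min (by linarith) (by linarith [hc.2])
  set δ := min (L * η') (d ^ 2 * a / (8 * L * (|K| + 1))) with hδdef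
  have hK1 : 0 < |K| + 1 := by positivity
  have hδpos : 0 < δ := lt_min (by positivity) (by positivity)
  refine ⟨δ, hδpos, ?_⟩
  set c' := c + δ / L with hc'
  have hcc' : c ≤ c' := by
    have : 0 ≤ δ / L := by positivity
    linarith
  have hc'η : c' ≤ c + η' := by
    have : δ / L ≤ η' := by
      rw [div_le_iff₀ hLpos]
      calc δ ≤ L * η' := min_le_left _ _
        _ = η' * L := mul_comm _ _
    linarith
  have hc'b : c' ≤ b := by
    have : η' ≤ b - c := min_le_right _ _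
    linarith
  have hpos : ∀ r, 0 < A r ^ 2 + δ ^ 2 := fun r => by positivity
  have hgc : Continuous (fun r => deriv A r ^ 2 * r / (A r ^ 2 + δ ^ 2)) :=
    Continuous.div (by fun_prop) (by fun_prop) (fun r => (hpos r).ne')
  have hgi : ∀ x y : ℝ, IntervalIntegrable (fun r => deriv A r ^ 2 * r / (A r ^ 2 + δ ^ 2))
      MeasureTheory.volume x y := fun x y => hgc.intervalIntegrable x y
  have hgnn : ∀ r, a ≤ r → 0 ≤ deriv A r ^ 2 * r / (A r ^ 2 + δ ^ 2) := by
    intro r hr
    have : 0 ≤ r := ha.le.trans hr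
    have := hpos r
    positivity
  have hsplit : ∫ r in a..b, deriv A r ^ 2 * r / (A r ^ 2 + δ ^ 2)
      = (∫ r in a..c, deriv A r ^ 2 * r / (A r ^ 2 + δ ^ 2))
        + (∫ r in c..c', deriv A r ^ 2 * r / (A r ^ 2 + δ ^ 2))
        + ∫ r in c'..b, deriv A r ^ 2 * r / (A r ^ 2 + δ ^ 2) := by
    rw [intervalIntegral.integral_add_adjacent_intervals (hgi a c) (hgi c c'),
      intervalIntegral.integral_add_adjacent_intervals (hgi a c') (hgi c' b)]
  have hI1 : 0 ≤ ∫ r in a..c, deriv A r ^ 2 * r / (A r ^ 2 + δ ^ 2) :=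
    intervalIntegral.integral_nonneg hc.1.le (fun r hr => hgnn r hr.1)
  have hI3 : 0 ≤ ∫ r in c'..b, deriv A r ^ 2 * r / (A r ^ 2 + δ ^ 2) :=
    intervalIntegral.integral_nonneg hc'b
      (fun r hr => hgnn r (hc.1.le.trans (hcc'.trans hr.1)))
  have hI2 : (c' - c) * (d ^ 2 * a / (8 * δ ^ 2))
      ≤ ∫ r in c..c', deriv A r ^ 2 * r / (A r ^ 2 + δ ^ 2) := by
    have hconst : ∫ _r in c..c', d ^ 2 * a / (8 * δ ^ 2) = (c' - c) * (d ^ 2 * a / (8 * δ ^ 2)) := by
      rw [intervalIntegral.integral_const, smul_eq_mul]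
    rw [← hconst]
    apply intervalIntegral.integral_mono_on hcc' intervalIntegrable_const (hgi c c')
    intro r hr
    have hr1 : c ≤ r := hr.1
    have hr2 : r ≤ c' := hr.2
    have hdist : dist r c < η := by
      rw [Real.dist_eq, abs_of_nonneg (by linarith)]
      have : η' ≤ η / 2 := min_le_left _ _
      linarith
    obtain ⟨hb1, hb2⟩ := hball hdist
    rw [abs_of_nonneg (by linarith : (0 : ℝ) ≤ r - c)] at hb2
    have hAδ : |A r| ≤ δ := by
      have : L * (r - c) ≤ L * (δ / L) := by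
        apply mul_le_mul_of_nonneg_left _ hLpos.le
        linarith
      have h4 : L * (δ / L) = δ := by field_simp
      linarith
    have hA2 : A r ^ 2 ≤ δ ^ 2 := by
      have := sq_le_sq' (by linarith [abs_nonneg (A r), neg_abs_le (A r)]) (le_trans (le_abs_self _) hAδ)
      exact this
    have hd2 : d ^ 2 / 4 ≤ deriv A r ^ 2 := by
      have : (d / 2) ^ 2 ≤ |deriv A r| ^ 2 := by
        apply pow_le_pow_left₀ (by positivity) hb1
      rw [sq_abs] at this
      linarith
    have hra : a ≤ r := hc.1.le.trans hr1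
    rw [div_le_div_iff₀ (by positivity) (hpos r)]
    have hδ2 : 0 < δ ^ 2 := by positivity
    have e1 : d ^ 2 * a * (A r ^ 2 + δ ^ 2) ≤ d ^ 2 * a * (2 * δ ^ 2) := by
      apply mul_le_mul_of_nonneg_left _ (by positivity)
      linarith
    have e2 : d ^ 2 / 4 * a ≤ deriv A r ^ 2 * r := by
      apply mul_le_mul hd2 hra ha.le (by positivity)
    nlinarith
  have hval : (c' - c) * (d ^ 2 * a / (8 * δ ^ 2)) = d ^ 2 * a / (8 * L * δ) := by
    rw [hc']
    field_simp
    ring
  have hbig : |K| + 1 ≤ d ^ 2 * a / (8 * L * δ) := by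
    rw [le_div_iff₀ (by positivity)]
    have : δ ≤ d ^ 2 * a / (8 * L * (|K| + 1)) := min_le_right _ _
    rw [le_div_iff₀ (by positivity)] at this
    nlinarith
  have hKlt : K < |K| + 1 := by linarith [le_abs_self K]
  rw [hsplit]
  linarith

theorem RadialSol.ne_zero_of_ground (ha : 0 < a) (hab : a < b) (h : RadialSol a b μ κ A)
    (hQ : ∀ φ : ℝ → ℝ, ContDiff ℝ 1 φ →
      μ * ∫ r in a..b, φ r ^ 2 * r ≤ ∫ r in a..b, (deriv φ r ^ 2 * r + κ * φ r ^ 2 / r))
    (hne : ∃ r ∈ Icc a b, A r ≠ 0) : ∀ r ∈ Icc a b, A r ≠ 0 := by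
  intro c hc h0
  by_cases h1 : deriv A c = 0
  · obtain ⟨r, hr, hr0⟩ := hne
    exact hr0 (h.unique ha hab hc h0 h1 r hr)
  · have hca : c ≠ a := fun e => h1 (e ▸ h.bc.1)
    have hcb : c ≠ b := fun e => h1 (e ▸ h.bc.2)
    have hc' : c ∈ Ioo a b := ⟨lt_of_le_of_ne hc.1 (Ne.symm hca), lt_of_le_of_ne hc.2 hcb⟩
    obtain ⟨δ, hδ, hlt⟩ :=
      h5_blowup ha h.smooth hc' h0 h1 ((∫ r in a..b, κ / r) - μ * ∫ r in a..b, r)
    exact absurd (h5_key ha hab h hQ hδ) (not_le.mpr hlt)

end Vale.Agent.H60.Hot
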