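import Vale.Agent.H60.Hot.Ode0

/-!
# A ground state of the singular radial problem has no zero (TASK S4)

Sketch (compare `Ground.lean`, helper98).  For `δ > 0` put `φ r = sqrt (A r ² + δ² r²)`: it is
`C^1` on `(0, ∞)`, bounded on `(0, b]`, and for `r > 0`
`φ'² = A'² + δ² - δ² (A - r A')² / (A² + δ² r²)`, `φ² = A² + δ² r²`.
By `RadialSol0.energy_le`, for `0 < ε ≤ ε₁ < b`
`∫_ε^b (φ'² r + κ φ²/r) ≤ μ ∫_0^b A² r + δ² (1 + κ) b²/2 - δ² I (δ, ε₁)`,
`I (δ, ε₁) = ∫_{ε₁}^b (A - r A')² r / (A² + δ² r²)`, and for `ε ≥ ε₁` the left side is smaller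
still (nonnegative integrand).  The hypothesis `hQ` and `∫_0^b φ² r ≥ ∫_0^b A² r` give
`I (δ, ε₁) ≤ (1 + κ) b² / 2` for all `δ > 0`, `ε₁ ∈ (0, b)`.  If `A c = 0`, `c ∈ (0, b]`: when
`A' c = 0`, `A = 0` on `(0, b]` by `RadialSol0.unique`, contradiction; otherwise `c < b`,
and near `c` we have `(A - r A')² r ≥ c³ (A' c)² / 8` and `A² + δ² r² ≤ L² (r - c)² + δ² b²`, so
`I (δ, ε₁) ≥ const / δ` for small `δ`: contradiction.
-/

namespace Vale.Agent.H60.Hot

open Set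

variable {b μ κ : ℝ} {A : ℝ → ℝ}

lemma s4_hasDerivAt (h : RadialSol0 b μ κ A) {r : ℝ} (hr : 0 < r) :
    HasDerivAt A (deriv A r) r :=
  ((h.smooth.contDiffAt (Ioi_mem_nhds hr)).differentiableAt (by norm_num)).hasDerivAt

lemma s4_cont (h : RadialSol0 b μ κ A) : ContinuousOn A (Ioi 0) := h.smooth.continuousOn

lemma s4_cont' (h : RadialSol0 b μ κ A) : ContinuousOn (deriv A) (Ioi 0) :=
  (h.smooth.deriv_of_isOpen isOpen_Ioi (m := 1) (by norm_num)).continuousOn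

/-- the test function `sqrt (A² + δ² r²)` is `C^1` on `(0, ∞)` -/
lemma s4_phi_contDiffOn (h : RadialSol0 b μ κ A) {δ : ℝ} (hδ : 0 < δ) :
    ContDiffOn ℝ 1 (fun r => Real.sqrt (A r ^ 2 + δ ^ 2 * r ^ 2)) (Ioi 0) := by
  have h1 : ContDiffOn ℝ 1 A (Ioi 0) := h.smooth.of_le (by norm_num)
  have h2 : ContDiffOn ℝ 1 (fun r => A r ^ 2 + δ ^ 2 * r ^ 2) (Ioi 0) :=
    (h1.pow 2).add (contDiffOn_const.mul (contDiffOn_id.pow 2))
  apply h2.sqrt
  intro x hx
  have hx0 : 0 < x := hx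
  positivity

/-- the derivative of the test function -/
lemma s4_phi_deriv (h : RadialSol0 b μ κ A) {δ : ℝ} (hδ : 0 < δ) {r : ℝ} (hr : 0 < r) :
    deriv (fun r => Real.sqrt (A r ^ 2 + δ ^ 2 * r ^ 2)) r
      = (A r * deriv A r + δ ^ 2 * r) / Real.sqrt (A r ^ 2 + δ ^ 2 * r ^ 2) := by
  have hA := s4_hasDerivAt h hr
  have h2 : HasDerivAt (fun r => A r ^ 2 + δ ^ 2 * r ^ 2)
      (2 * A r * deriv A r + δ ^ 2 * (2 * r)) r := by
    have h3 := (hA.pow 2).add ((hasDerivAt_pow 2 r).const_mul (δ ^ 2))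
    exact h3.congr_deriv (by norm_num)
  have hpos : A r ^ 2 + δ ^ 2 * r ^ 2 ≠ 0 := by positivity
  have h3 := h2.sqrt hpos
  rw [h3.deriv]
  have hs : Real.sqrt (A r ^ 2 + δ ^ 2 * r ^ 2) ≠ 0 := by positivity
  field_simp

/-- continuity of the weighted integrand -/
lemma s4_G_cont (h : RadialSol0 b μ κ A) {δ : ℝ} (hδ : 0 < δ) :
    ContinuousOn (fun r => (A r - r * deriv A r) ^ 2 * r / (A r ^ 2 + δ ^ 2 * r ^ 2)) (Ioi 0) := by
  have hcA := s4_cont h
  have hcA' := s4_cont' h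
  apply ContinuousOn.div
  · exact ((hcA.sub (continuousOn_id.mul hcA')).pow 2).mul continuousOn_id
  · exact (hcA.pow 2).add (continuousOn_const.mul (continuousOn_id.pow 2))
  · intro x hx
    have hx0 : 0 < x := hx
    positivity

/-- continuity of the energy density of `A` -/
lemma s4_EA_cont (h : RadialSol0 b μ κ A) :
    ContinuousOn (fun r => deriv A r ^ 2 * r + κ * A r ^ 2 / r) (Ioi 0) := by
  have hcA := s4_cont h
  have hcA' := s4_cont' h
  apply ContinuousOn.add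
  · exact (hcA'.pow 2).mul continuousOn_id
  · apply ContinuousOn.div
    · exact continuousOn_const.mul (hcA.pow 2)
    · exact continuousOn_id
    · intro x hx
      have hx0 : 0 < x := hx
      exact hx0.ne'

/-- continuity of the energy density of the test function -/
lemma s4_Ephi_cont (h : RadialSol0 b μ κ A) {δ : ℝ} (hδ : 0 < δ) :
    ContinuousOn (fun r => deriv (fun r => Real.sqrt (A r ^ 2 + δ ^ 2 * r ^ 2)) r ^ 2 * r
      + κ * Real.sqrt (A r ^ 2 + δ ^ 2 * r ^ 2) ^ 2 / r) (Ioi 0) := by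
  have hφ := s4_phi_contDiffOn h hδ
  have hc := hφ.continuousOn
  have hc' : ContinuousOn (deriv (fun r => Real.sqrt (A r ^ 2 + δ ^ 2 * r ^ 2))) (Ioi 0) :=
    (hφ.deriv_of_isOpen isOpen_Ioi (m := 0) (by norm_num)).continuousOn
  apply ContinuousOn.add
  · exact (hc'.pow 2).mul continuousOn_id
  · apply ContinuousOn.div
    · exact continuousOn_const.mul (hc.pow 2)
    · exact continuousOn_id
    · intro x hx
      have hx0 : 0 < x := hx
      exact hx0.ne'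

/-- the pointwise identity for the energy density of the test function -/
lemma s4_pointwise (h : RadialSol0 b μ κ A) {δ : ℝ} (hδ : 0 < δ) {r : ℝ} (hr : 0 < r) :
    deriv (fun r => Real.sqrt (A r ^ 2 + δ ^ 2 * r ^ 2)) r ^ 2 * r
      + κ * Real.sqrt (A r ^ 2 + δ ^ 2 * r ^ 2) ^ 2 / r
    = (deriv A r ^ 2 * r + κ * A r ^ 2 / r) + δ ^ 2 * ((1 + κ) * r)
      - δ ^ 2 * ((A r - r * deriv A r) ^ 2 * r / (A r ^ 2 + δ ^ 2 * r ^ 2)) := by
  rw [s4_phi_deriv h hδ hr, div_pow, Real.sq_sqrt (by positivity)]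
  have hpos : A r ^ 2 + δ ^ 2 * r ^ 2 ≠ 0 := by positivity
  have hr0 : r ≠ 0 := hr.ne'
  field_simp
  ring

/-- the integrated identity on `[ε, b]` -/
lemma s4_integral_eq (h : RadialSol0 b μ κ A) {δ : ℝ} (hδ : 0 < δ) {ε : ℝ} (hε : 0 < ε)
    (hεb : ε ≤ b) :
    ∫ r in ε..b, (deriv (fun r => Real.sqrt (A r ^ 2 + δ ^ 2 * r ^ 2)) r ^ 2 * r
      + κ * Real.sqrt (A r ^ 2 + δ ^ 2 * r ^ 2) ^ 2 / r)
    = (∫ r in ε..b, (deriv A r ^ 2 * r + κ * A r ^ 2 / r))
      + δ ^ 2 * ((1 + κ) * ∫ r in ε..b, r)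
      - δ ^ 2 * ∫ r in ε..b, (A r - r * deriv A r) ^ 2 * r / (A r ^ 2 + δ ^ 2 * r ^ 2) := by
  have hsub : uIcc ε b ⊆ Ioi 0 := by
    intro r hr
    rw [uIcc_of_le hεb] at hr
    exact lt_of_lt_of_le hε hr.1
  have hiE : IntervalIntegrable (fun r => deriv A r ^ 2 * r + κ * A r ^ 2 / r)
      MeasureTheory.volume ε b := ((s4_EA_cont h).mono hsub).intervalIntegrable
  have hiG : IntervalIntegrable
      (fun r => (A r - r * deriv A r) ^ 2 * r / (A r ^ 2 + δ ^ 2 * r ^ 2))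
      MeasureTheory.volume ε b := ((s4_G_cont h hδ).mono hsub).intervalIntegrable
  have hir : IntervalIntegrable (fun r : ℝ => r) MeasureTheory.volume ε b :=
    continuous_id.intervalIntegrable ε b
  rw [← intervalIntegral.integral_const_mul (1 + κ), ← intervalIntegral.integral_const_mul (δ ^ 2),
    ← intervalIntegral.integral_const_mul (δ ^ 2),
    ← intervalIntegral.integral_add hiE ((hir.const_mul _).const_mul _),
    ← intervalIntegral.integral_sub (hiE.add ((hir.const_mul _).const_mul _)) (hiG.const_mul _)]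
  apply intervalIntegral.integral_congr
  intro r hr
  exact s4_pointwise h hδ (hsub hr)

/-- `A² r` is integrable on `[0, b]` -/
lemma s4_intA2 (hb : 0 < b) (h : RadialSol0 b μ κ A) :
    IntervalIntegrable (fun r => A r ^ 2 * r) MeasureTheory.volume 0 b := by
  obtain ⟨M, hM⟩ := h.bdd
  rw [intervalIntegrable_iff_integrableOn_Ioc_of_le hb.le]
  have hc : ContinuousOn (fun r => A r ^ 2 * r) (Ioc 0 b) :=
    (((s4_cont h).pow 2).mul continuousOn_id).mono (fun x hx => hx.1)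
  apply MeasureTheory.Integrable.of_bound (hc.aestronglyMeasurable measurableSet_Ioc) (M ^ 2 * b)
  apply (MeasureTheory.ae_restrict_iff' measurableSet_Ioc).mpr
  apply Filter.Eventually.of_forall
  intro r hr
  have h1 := hM r hr
  have h2 : A r ^ 2 ≤ M ^ 2 := by
    rw [← sq_abs (A r)]
    exact pow_le_pow_left₀ (abs_nonneg _) h1 2
  rw [Real.norm_eq_abs, abs_of_nonneg (mul_nonneg (sq_nonneg _) hr.1.le)]
  exact mul_le_mul h2 hr.2 hr.1.le (sq_nonneg _)

/-- the uniform bound of the weighted integral given by the test functions -/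
lemma s4_bound (hb : 0 < b) (hμ : 0 < μ) (hκ : 0 ≤ κ) (h : RadialSol0 b μ κ A)
    (hQ : ∀ φ : ℝ → ℝ, ContDiffOn ℝ 1 φ (Ioi 0) →
      ∀ M : ℝ, (∀ r ∈ Ioc (0 : ℝ) b, |φ r| ≤ M) →
      ∀ E : ℝ, (∀ ε ∈ Ioo (0 : ℝ) b,
        (∫ r in ε..b, (deriv φ r ^ 2 * r + κ * φ r ^ 2 / r)) ≤ E) →
      μ * ∫ r in (0 : ℝ)..b, φ r ^ 2 * r ≤ E)
    {δ : ℝ} (hδ : 0 < δ) {ε₁ : ℝ} (hε₁ : ε₁ ∈ Ioo (0 : ℝ) b) :
    ∫ r in ε₁..b, (A r - r * deriv A r) ^ 2 * r / (A r ^ 2 + δ ^ 2 * r ^ 2)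
      ≤ (1 + κ) * b ^ 2 / 2 := by
  have hen := RadialSol0.energy_le hb hμ.le hκ h
  obtain ⟨M₀, hM₀⟩ := h.bdd
  have hM₀nn : 0 ≤ M₀ := (abs_nonneg _).trans (hM₀ b ⟨hb, le_refl b⟩)
  have hsubI : ∀ ε : ℝ, 0 < ε → ε ≤ b → uIcc ε b ⊆ Ioi 0 := by
    intro ε hε hεb r hr
    rw [uIcc_of_le hεb] at hr
    exact lt_of_lt_of_le hε hr.1
  -- the test function is bounded
  have hφb : ∀ r ∈ Ioc (0 : ℝ) b, |Real.sqrt (A r ^ 2 + δ ^ 2 * r ^ 2)| ≤ M₀ + δ * b := by
    intro r hr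
    rw [abs_of_nonneg (Real.sqrt_nonneg _), Real.sqrt_le_iff]
    have h1 := abs_le.mp (hM₀ r hr)
    have h2 : A r ^ 2 ≤ M₀ ^ 2 := by nlinarith [h1.1, h1.2]
    have h3 : r ^ 2 ≤ b ^ 2 := by nlinarith [hr.1, hr.2]
    have h4 : δ ^ 2 * r ^ 2 ≤ δ ^ 2 * b ^ 2 := mul_le_mul_of_nonneg_left h3 (sq_nonneg δ)
    have h5 : 0 ≤ M₀ * (δ * b) := by positivity
    constructor
    · positivity
    · nlinarith
  -- the energy of the test function is bounded
  have hlow : ∀ ε ∈ Ioo (0 : ℝ) b, ε ≤ ε₁ →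
      (∫ r in ε..b, (deriv (fun r => Real.sqrt (A r ^ 2 + δ ^ 2 * r ^ 2)) r ^ 2 * r
        + κ * Real.sqrt (A r ^ 2 + δ ^ 2 * r ^ 2) ^ 2 / r))
      ≤ μ * (∫ r in (0 : ℝ)..b, A r ^ 2 * r) + δ ^ 2 * ((1 + κ) * (b ^ 2 / 2))
        - δ ^ 2 * ∫ r in ε₁..b, (A r - r * deriv A r) ^ 2 * r / (A r ^ 2 + δ ^ 2 * r ^ 2) := by
    intro ε hε hle
    rw [s4_integral_eq h hδ hε.1 hε.2.le]
    have h1 := hen ε hε
    have h2 : ∫ r in ε..b, r ≤ b ^ 2 / 2 := by
      rw [integral_id]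
      nlinarith [sq_nonneg ε]
    have h3 : ∫ r in ε₁..b, (A r - r * deriv A r) ^ 2 * r / (A r ^ 2 + δ ^ 2 * r ^ 2)
        ≤ ∫ r in ε..b, (A r - r * deriv A r) ^ 2 * r / (A r ^ 2 + δ ^ 2 * r ^ 2) := by
      apply intervalIntegral.integral_mono_interval hle hε₁.2.le le_rfl
      · apply (MeasureTheory.ae_restrict_iff' measurableSet_Ioc).mpr
        apply Filter.Eventually.of_forall
        intro r hr
        have hr0 : 0 < r := lt_trans hε.1 hr.1
        simp only [Pi.zero_apply]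
        positivity
      · exact ((s4_G_cont h hδ).mono (hsubI ε hε.1 hε.2.le)).intervalIntegrable
    have h4 : δ ^ 2 * ((1 + κ) * ∫ r in ε..b, r) ≤ δ ^ 2 * ((1 + κ) * (b ^ 2 / 2)) :=
      mul_le_mul_of_nonneg_left (mul_le_mul_of_nonneg_left h2 (by linarith)) (sq_nonneg δ)
    have h5 := mul_le_mul_of_nonneg_left h3 (sq_nonneg δ)
    linarith
  have hEb : ∀ ε ∈ Ioo (0 : ℝ) b,
      (∫ r in ε..b, (deriv (fun r => Real.sqrt (A r ^ 2 + δ ^ 2 * r ^ 2)) r ^ 2 * r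
        + κ * Real.sqrt (A r ^ 2 + δ ^ 2 * r ^ 2) ^ 2 / r))
      ≤ μ * (∫ r in (0 : ℝ)..b, A r ^ 2 * r) + δ ^ 2 * ((1 + κ) * (b ^ 2 / 2))
        - δ ^ 2 * ∫ r in ε₁..b, (A r - r * deriv A r) ^ 2 * r / (A r ^ 2 + δ ^ 2 * r ^ 2) := by
    intro ε hε
    rcases le_or_gt ε ε₁ with hle | hgt
    · exact hlow ε hε hle
    · refine le_trans ?_ (hlow ε₁ hε₁ le_rfl)
      apply intervalIntegral.integral_mono_interval hgt.le hε.2.le le_rfl
      · apply (MeasureTheory.ae_restrict_iff' measurableSet_Ioc).mpr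
        apply Filter.Eventually.of_forall
        intro r hr
        have hr0 : 0 < r := lt_trans hε₁.1 hr.1
        simp only [Pi.zero_apply]
        positivity
      · exact ((s4_Ephi_cont h hδ).mono (hsubI ε₁ hε₁.1 hε₁.2.le)).intervalIntegrable
  have hq := hQ _ (s4_phi_contDiffOn h hδ) (M₀ + δ * b) hφb _ hEb
  -- the weighted square integral of the test function is at least that of `A`
  have hiA := s4_intA2 hb h
  have e : (fun r => Real.sqrt (A r ^ 2 + δ ^ 2 * r ^ 2) ^ 2 * r)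
      = (fun r => A r ^ 2 * r + δ ^ 2 * r ^ 3) := by
    funext r
    rw [Real.sq_sqrt (by positivity)]
    ring
  have hiφ : IntervalIntegrable (fun r => Real.sqrt (A r ^ 2 + δ ^ 2 * r ^ 2) ^ 2 * r)
      MeasureTheory.volume 0 b := by
    rw [e]
    exact hiA.add ((continuous_const.mul (continuous_pow 3)).intervalIntegrable 0 b)
  have hI : ∫ r in (0 : ℝ)..b, A r ^ 2 * r
      ≤ ∫ r in (0 : ℝ)..b, Real.sqrt (A r ^ 2 + δ ^ 2 * r ^ 2) ^ 2 * r := by
    apply intervalIntegral.integral_mono_on hb.le hiA hiφ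
    intro r hr
    rw [Real.sq_sqrt (by positivity)]
    have h6 : 0 ≤ δ ^ 2 * r ^ 2 := by positivity
    exact mul_le_mul_of_nonneg_right (by linarith) hr.1
  have h7 := mul_le_mul_of_nonneg_left hI hμ.le
  have hδ2 : 0 < δ ^ 2 := by positivity
  generalize (∫ r in (0 : ℝ)..b, A r ^ 2 * r) = I₀ at hq h7
  generalize (∫ r in (0 : ℝ)..b, Real.sqrt (A r ^ 2 + δ ^ 2 * r ^ 2) ^ 2 * r) = I₂ at hq h7
  generalize (∫ r in ε₁..b, (A r - r * deriv A r) ^ 2 * r / (A r ^ 2 + δ ^ 2 * r ^ 2)) = I₁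
    at hq ⊢
  have h8 : δ ^ 2 * I₁ ≤ δ ^ 2 * ((1 + κ) * (b ^ 2 / 2)) := by linarith
  have h9 := le_of_mul_le_mul_left h8 hδ2
  linarith

theorem RadialSol0.ne_zero_of_ground (hb : 0 < b) (hμ : 0 < μ) (hκ : 0 ≤ κ)
    (h : RadialSol0 b μ κ A)
    (hQ : ∀ φ : ℝ → ℝ, ContDiffOn ℝ 1 φ (Ioi 0) →
      ∀ M : ℝ, (∀ r ∈ Ioc (0 : ℝ) b, |φ r| ≤ M) →
      ∀ E : ℝ, (∀ ε ∈ Ioo (0 : ℝ) b,
        (∫ r in ε..b, (deriv φ r ^ 2 * r + κ * φ r ^ 2 / r)) ≤ E) →
      μ * ∫ r in (0 : ℝ)..b, φ r ^ 2 * r ≤ E)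
    (hne : ∃ r ∈ Ioc (0 : ℝ) b, A r ≠ 0) : ∀ r ∈ Ioc (0 : ℝ) b, A r ≠ 0 := by
  intro c hc h0
  have hc0 : 0 < c := hc.1
  have hcA := s4_cont h
  have hcA' := s4_cont' h
  -- the derivative does not vanish at the zero
  have h1 : deriv A c ≠ 0 := by
    intro h1
    obtain ⟨r, hr, hr0⟩ := hne
    exact hr0 (RadialSol0.unique hb h hc h0 h1 r hr)
  -- the zero is not the end point
  have hcb : c < b := by
    rcases eq_or_lt_of_le hc.2 with e | e
    · exfalso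
      apply h1
      rw [e]
      exact h.bc
    · exact e
  obtain ⟨d, hd⟩ : ∃ d : ℝ, d = |deriv A c| := ⟨_, rfl⟩
  have hdpos : 0 < d := by rw [hd]; exact abs_pos.mpr h1
  -- the numerator is bounded below near the zero
  have hNc : ContinuousOn (fun r => (A r - r * deriv A r) ^ 2 * r) (Ioi 0) :=
    ((hcA.sub (continuousOn_id.mul hcA')).pow 2).mul continuousOn_id
  have hNat : ContinuousAt (fun r => (A r - r * deriv A r) ^ 2 * r) c :=
    hNc.continuousAt (Ioi_mem_nhds hc0)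
  have hNval : (A c - c * deriv A c) ^ 2 * c = c ^ 3 * d ^ 2 := by
    rw [h0, hd, sq_abs]
    ring
  obtain ⟨η₀, hη₀, hη₀'⟩ := Metric.continuousAt_iff.mp hNat (c ^ 3 * d ^ 2 / 2) (by positivity)
  -- a Lipschitz bound for `A` on `[c / 2, b]`
  have hsubK : Icc (c / 2) b ⊆ Ioi (0 : ℝ) := by
    intro x hx
    have hx1 : c / 2 ≤ x := hx.1
    have hx0 : (0 : ℝ) < x := by linarith
    exact hx0
  obtain ⟨L₀, hL₀⟩ := isCompact_Icc.exists_bound_of_continuousOn (hcA'.mono hsubK)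
  obtain ⟨L, hL⟩ : ∃ L : ℝ, L = max L₀ 1 := ⟨_, rfl⟩
  have hLpos : 0 < L := by rw [hL]; exact lt_of_lt_of_le one_pos (le_max_right _ _)
  have hLb : ∀ x ∈ Icc (c / 2) b, ‖deriv A x‖ ≤ L := fun x hx => by
    rw [hL]; exact (hL₀ x hx).trans (le_max_left _ _)
  have hcK : c ∈ Icc (c / 2) b := ⟨by linarith, hc.2⟩
  have hLip : ∀ r ∈ Icc (c / 2) b, |A r| ≤ L * |r - c| := by
    intro r hr
    have h3 := Convex.norm_image_sub_le_of_norm_deriv_le (f := A) (s := Icc (c / 2) b)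
      (fun x hx => (s4_hasDerivAt h (hsubK hx)).differentiableAt) hLb (convex_Icc _ _) hcK hr
    rw [h0, sub_zero, Real.norm_eq_abs, Real.norm_eq_abs] at h3
    exact h3
  obtain ⟨η, hη⟩ : ∃ η : ℝ, η = min (η₀ / 2) (min (c / 2) (b - c)) := ⟨_, rfl⟩
  have hηpos : 0 < η := by
    rw [hη]
    exact lt_min (by positivity) (lt_min (by linarith) (by linarith))
  have hηη₀ : η < η₀ := by
    rw [hη]
    exact lt_of_le_of_lt (min_le_left _ _) (by linarith)
  have hηa : η ≤ c / 2 := by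
    rw [hη]
    exact (min_le_right _ _).trans (min_le_left _ _)
  have hηb : η ≤ b - c := by
    rw [hη]
    exact (min_le_right _ _).trans (min_le_right _ _)
  have hε₁ : c - η ∈ Ioo (0 : ℝ) b := ⟨by linarith, by linarith⟩
  have hsub1 : uIcc (c - η) b ⊆ Ioi (0 : ℝ) := by
    intro r hr
    rw [uIcc_of_le (by linarith)] at hr
    have hr1 : c - η ≤ r := hr.1
    have hr0 : (0 : ℝ) < r := by linarith
    exact hr0
  -- the lower bound of the weighted integral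
  have key : ∀ δ, 0 < δ → δ * b ≤ L * η →
      c ^ 3 * d ^ 2 / (2 * b * L)
        ≤ δ * ∫ r in (c - η)..b, (A r - r * deriv A r) ^ 2 * r / (A r ^ 2 + δ ^ 2 * r ^ 2) := by
    intro δ hδ hδη
    have hG := s4_G_cont h hδ
    obtain ⟨ε, hε⟩ : ∃ ε : ℝ, ε = δ * b / L := ⟨_, rfl⟩
    have hεpos : 0 < ε := by rw [hε]; positivity
    have hεη : ε ≤ η := by
      rw [hε, div_le_iff₀ hLpos]
      linarith
    have hLε : L * ε = δ * b := by
      rw [hε]
      field_simp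
    have e1 : c - η ≤ c - ε := by linarith
    have e2 : c + ε ≤ b := by linarith
    have hsub2 : uIcc (c - ε) (c + ε) ⊆ Ioi (0 : ℝ) := by
      intro r hr
      rw [uIcc_of_le (by linarith)] at hr
      have hr1 : c - ε ≤ r := hr.1
      have hr0 : (0 : ℝ) < r := by linarith
      exact hr0
    have hmono : ∫ r in (c - ε)..(c + ε),
          (A r - r * deriv A r) ^ 2 * r / (A r ^ 2 + δ ^ 2 * r ^ 2)
        ≤ ∫ r in (c - η)..b, (A r - r * deriv A r) ^ 2 * r / (A r ^ 2 + δ ^ 2 * r ^ 2) := by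
      apply intervalIntegral.integral_mono_interval e1 (by linarith) e2
      · apply (MeasureTheory.ae_restrict_iff' measurableSet_Ioc).mpr
        apply Filter.Eventually.of_forall
        intro r hr
        have hr1 : c - η < r := hr.1
        have hr0 : 0 < r := by linarith
        simp only [Pi.zero_apply]
        positivity
      · exact (hG.mono hsub1).intervalIntegrable
    have hconst : ∫ _r in (c - ε)..(c + ε), (c ^ 3 * d ^ 2 / (4 * δ ^ 2 * b ^ 2))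
        ≤ ∫ r in (c - ε)..(c + ε),
          (A r - r * deriv A r) ^ 2 * r / (A r ^ 2 + δ ^ 2 * r ^ 2) := by
      apply intervalIntegral.integral_mono_on (by linarith)
        (continuous_const.intervalIntegrable _ _) ((hG.mono hsub2).intervalIntegrable)
      intro r hr
      have hr1 : c - ε ≤ r := hr.1
      have hr2 : r ≤ c + ε := hr.2
      have hra : c / 2 ≤ r := by linarith
      have hrb : r ≤ b := by linarith
      have hr0 : 0 < r := by linarith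
      have hrc : |r - c| ≤ ε := by
        rw [abs_le]
        constructor <;> linarith
      have hAr : |A r| ≤ δ * b := by
        calc |A r| ≤ L * |r - c| := hLip r ⟨hra, hrb⟩
          _ ≤ L * ε := mul_le_mul_of_nonneg_left hrc hLpos.le
          _ = δ * b := hLε
      have hA2 : A r ^ 2 ≤ (δ * b) ^ 2 := by
        rw [← sq_abs (A r)]
        exact pow_le_pow_left₀ (abs_nonneg _) hAr 2
      have hr2b : r ^ 2 ≤ b ^ 2 := pow_le_pow_left₀ hr0.le hrb 2
      have hden : A r ^ 2 + δ ^ 2 * r ^ 2 ≤ 2 * (δ ^ 2 * b ^ 2) := by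
        have h5 : δ ^ 2 * r ^ 2 ≤ δ ^ 2 * b ^ 2 := mul_le_mul_of_nonneg_left hr2b (sq_nonneg δ)
        have e3 : (δ * b) ^ 2 = δ ^ 2 * b ^ 2 := by ring
        linarith
      have hnum : c ^ 3 * d ^ 2 / 2 ≤ (A r - r * deriv A r) ^ 2 * r := by
        have hdist : dist r c < η₀ := by
          rw [Real.dist_eq]
          linarith
        have h4 := hη₀' hdist
        rw [Real.dist_eq, hNval] at h4
        have h5 := (abs_lt.mp h4).1
        linarith
      have e4 : c ^ 3 * d ^ 2 / (4 * δ ^ 2 * b ^ 2) = (c ^ 3 * d ^ 2 / 2) / (2 * (δ ^ 2 * b ^ 2)) := by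
        field_simp
        ring
      rw [e4]
      apply div_le_div₀
      · positivity
      · exact hnum
      · positivity
      · exact hden
    rw [intervalIntegral.integral_const, smul_eq_mul] at hconst
    have e5 : (c + ε - (c - ε)) * (c ^ 3 * d ^ 2 / (4 * δ ^ 2 * b ^ 2))
        = (c ^ 3 * d ^ 2 / (2 * b * L)) / δ := by
      rw [hε]
      field_simp
      ring
    rw [e5] at hconst
    have h7 := hconst.trans hmono
    rw [div_le_iff₀ hδ] at h7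
    linarith
  -- the contradiction for small `δ`
  obtain ⟨K₀, hK₀⟩ : ∃ K₀ : ℝ, K₀ = (1 + κ) * b ^ 2 / 2 := ⟨_, rfl⟩
  have hK₀nn : 0 ≤ K₀ := by rw [hK₀]; positivity
  obtain ⟨c₀, hc₀⟩ : ∃ c₀ : ℝ, c₀ = c ^ 3 * d ^ 2 / (2 * b * L) := ⟨_, rfl⟩
  have hc₀pos : 0 < c₀ := by rw [hc₀]; positivity
  obtain ⟨δ, hδdef⟩ : ∃ δ : ℝ, δ = min (L * η / b) (c₀ / (K₀ + 1)) := ⟨_, rfl⟩
  have hδpos : 0 < δ := by
    rw [hδdef]
    exact lt_min (by positivity) (by positivity)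
  have hδ1 : δ * b ≤ L * η := by
    have h2 : δ ≤ L * η / b := by rw [hδdef]; exact min_le_left _ _
    rwa [le_div_iff₀ hb] at h2
  have hb1 := key δ hδpos hδ1
  have hb2 := s4_bound hb hμ hκ h hQ hδpos hε₁
  rw [← hc₀] at hb1
  rw [← hK₀] at hb2
  have hδle : δ ≤ c₀ / (K₀ + 1) := by rw [hδdef]; exact min_le_right _ _
  have h8 : δ * (K₀ + 1) ≤ c₀ := by rwa [le_div_iff₀ (by positivity)] at hδle
  have h9 := mul_le_mul_of_nonneg_left hb2 hδpos.le
  linarith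

end Vale.Agent.H60.Hot
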