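import Vale.Agent.H60.Hot.Ode

/-!
# A radial solution that minimises the Rayleigh quotient among functions of zero mean is
strictly monotone (TASK H6)

Sketch.  Suppose `A' c = 0` for some `c ∈ (a, b)`.  Then `A c ≠ 0` (else `A = 0` on `[a, b]` by
`RadialSol.unique`).  Let `φ r = A r` for `r ≤ c` and `φ r = A c` for `r ≥ c`; it is `C^1` because
`A' c = 0` (here `φ r = A c + ∫_c^r deriv A (min s c)`).
Put `m = (∫_a^b φ r) / (∫_a^b r)` and `ψ = φ - m`.  By `RadialSol.mean_left`
`∫_a^b φ r = A c (b² - c²) / 2`, and by `RadialSol.energy_left`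
`∫_a^b ψ'² r = ∫_a^c A'² r = μ ∫_a^c A² r`, while
`∫_a^b ψ² r = ∫_a^c A² r + (A c)² (b² - c²) (c² - a²) / (2 (b² - a²))`.
The hypothesis `hQ` for `ψ` gives `μ (A c)² (b² - c²) (c² - a²) ≤ 0`, a contradiction.
So `A'` has no zero in `(a, b)`; being continuous it has a constant sign there
(intermediate value theorem), and `A` is strictly monotone on `[a, b]`
(`strictMonoOn_of_deriv_pos`, `strictAntiOn_of_deriv_neg`).
-/

namespace Vale.Agent.H60.Hot

open Set

variable {a b μ : ℝ} {A : ℝ → ℝ}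

/-- the glued test function: `A` to the left of `c`, the constant `A c` to the right -/
noncomputable def h6_phi (A : ℝ → ℝ) (c : ℝ) (r : ℝ) : ℝ :=
  A c + ∫ s in c..r, deriv A (min s c)

theorem h6_cont (hA : ContDiff ℝ 2 A) (c : ℝ) : Continuous (fun s => deriv A (min s c)) :=
  (hA.continuous_deriv (by norm_num)).comp (continuous_id.min continuous_const)

theorem h6_hasDerivAt (hA : ContDiff ℝ 2 A) (c r : ℝ) :
    HasDerivAt (h6_phi A c) (deriv A (min r c)) r := by
  have h1 := ((h6_cont hA c).integral_hasStrictDerivAt c r).hasDerivAt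
  exact h1.const_add (A c)

theorem h6_deriv (hA : ContDiff ℝ 2 A) (c : ℝ) :
    deriv (h6_phi A c) = fun r => deriv A (min r c) :=
  funext fun r => (h6_hasDerivAt hA c r).deriv

theorem h6_contDiff (hA : ContDiff ℝ 2 A) (c : ℝ) : ContDiff ℝ 1 (h6_phi A c) := by
  rw [contDiff_one_iff_deriv]
  refine ⟨fun r => (h6_hasDerivAt hA c r).differentiableAt, ?_⟩
  rw [h6_deriv hA c]
  exact h6_cont hA c

theorem h6_left (hA : ContDiff ℝ 2 A) {c r : ℝ} (hr : r ≤ c) : h6_phi A c r = A r := by
  unfold h6_phi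
  have h1 : ∫ s in c..r, deriv A (min s c) = ∫ s in c..r, deriv A s := by
    apply intervalIntegral.integral_congr
    intro s hs
    rw [uIcc_of_ge hr] at hs
    simp only [min_eq_left hs.2]
  have h2 : ∫ s in c..r, deriv A s = A r - A c := by
    apply intervalIntegral.integral_deriv_eq_sub
    · intro x _
      exact (hA.differentiable (by norm_num)).differentiableAt
    · exact (hA.continuous_deriv (by norm_num)).intervalIntegrable _ _
  rw [h1, h2]; ring

theorem h6_right {c r : ℝ} (hr : c ≤ r) (hc' : deriv A c = 0) : h6_phi A c r = A c := by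
  unfold h6_phi
  have h1 : ∫ s in c..r, deriv A (min s c) = ∫ s in c..r, (0 : ℝ) := by
    apply intervalIntegral.integral_congr
    intro s hs
    rw [uIcc_of_le hr] at hs
    simp only [min_eq_right hs.1, hc']
  rw [h1]; simp

theorem h6_int_shift1 {φ : ℝ → ℝ} (hφ : Continuous φ) (a b m : ℝ) :
    ∫ r in a..b, (φ r - m) * r = (∫ r in a..b, φ r * r) - m * ((b ^ 2 - a ^ 2) / 2) := by
  have h1 : ∀ r : ℝ, (φ r - m) * r = φ r * r - m * r := fun r => by ring
  simp only [h1]
  have i1 : IntervalIntegrable (fun r => φ r * r) MeasureTheory.volume a b :=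
    (hφ.mul continuous_id).intervalIntegrable a b
  have i2 : IntervalIntegrable (fun r : ℝ => m * r) MeasureTheory.volume a b :=
    (continuous_const.mul continuous_id).intervalIntegrable a b
  rw [intervalIntegral.integral_sub i1 i2, intervalIntegral.integral_const_mul, integral_id]

theorem h6_int_shift2 {φ : ℝ → ℝ} (hφ : Continuous φ) (a b m : ℝ) :
    ∫ r in a..b, (φ r - m) ^ 2 * r
      = (∫ r in a..b, φ r ^ 2 * r) - 2 * m * (∫ r in a..b, φ r * r)
        + m ^ 2 * ((b ^ 2 - a ^ 2) / 2) := by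
  have h1 : ∀ r : ℝ, (φ r - m) ^ 2 * r = φ r ^ 2 * r - (2 * m) * (φ r * r) + m ^ 2 * r :=
    fun r => by ring
  simp only [h1]
  have i1 : IntervalIntegrable (fun r => φ r ^ 2 * r) MeasureTheory.volume a b :=
    ((hφ.pow 2).mul continuous_id).intervalIntegrable a b
  have i2 : IntervalIntegrable (fun r => (2 * m) * (φ r * r)) MeasureTheory.volume a b :=
    (continuous_const.mul (hφ.mul continuous_id)).intervalIntegrable a b
  have i3 : IntervalIntegrable (fun r : ℝ => m ^ 2 * r) MeasureTheory.volume a b :=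
    (continuous_const.mul continuous_id).intervalIntegrable a b
  rw [intervalIntegral.integral_add (i1.sub i2) i3, intervalIntegral.integral_sub i1 i2,
    intervalIntegral.integral_const_mul, intervalIntegral.integral_const_mul, integral_id]

theorem h6_no_crit (ha : 0 < a) (hab : a < b) (hμ : 0 < μ)
    (h : RadialSol a b μ 0 A)
    (hQ : ∀ φ : ℝ → ℝ, ContDiff ℝ 1 φ → (∫ r in a..b, φ r * r) = 0 →
      μ * ∫ r in a..b, φ r ^ 2 * r ≤ ∫ r in a..b, deriv φ r ^ 2 * r)
    (hne : ∃ r ∈ Icc a b, A r ≠ 0) {c : ℝ} (hc : c ∈ Ioo a b) : deriv A c ≠ 0 := by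
  intro hc'
  have hcI : c ∈ Icc a b := ⟨hc.1.le, hc.2.le⟩
  have hAc : A c ≠ 0 := by
    intro h0
    obtain ⟨r, hr, hr0⟩ := hne
    exact hr0 (h.unique ha hab hcI h0 hc' r hr)
  have hA := h.smooth
  have hφC : ContDiff ℝ 1 (h6_phi A c) := h6_contDiff hA c
  have hφc : Continuous (h6_phi A c) := hφC.continuous
  have hφd : deriv (h6_phi A c) = fun r => deriv A (min r c) := h6_deriv hA c
  have hφdc : Continuous (deriv (h6_phi A c)) := by rw [hφd]; exact h6_cont hA c
  -- the pieces of the three integrals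
  have e1 : ∫ r in a..c, h6_phi A c r * r = 0 := by
    rw [← h.mean_left ha hab hμ.ne' hcI hc']
    apply intervalIntegral.integral_congr
    intro x hx
    rw [uIcc_of_le hc.1.le] at hx
    simp only [h6_left hA hx.2]
  have e2 : ∫ r in c..b, h6_phi A c r * r = A c * ((b ^ 2 - c ^ 2) / 2) := by
    rw [← integral_id, ← intervalIntegral.integral_const_mul]
    apply intervalIntegral.integral_congr
    intro x hx
    rw [uIcc_of_le hc.2.le] at hx
    simp only [h6_right hx.1 hc']
  have e3 : ∫ r in a..c, h6_phi A c r ^ 2 * r = ∫ r in a..c, A r ^ 2 * r := by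
    apply intervalIntegral.integral_congr
    intro x hx
    rw [uIcc_of_le hc.1.le] at hx
    simp only [h6_left hA hx.2]
  have e4 : ∫ r in c..b, h6_phi A c r ^ 2 * r = A c ^ 2 * ((b ^ 2 - c ^ 2) / 2) := by
    rw [← integral_id, ← intervalIntegral.integral_const_mul]
    apply intervalIntegral.integral_congr
    intro x hx
    rw [uIcc_of_le hc.2.le] at hx
    simp only [h6_right hx.1 hc']
  have e5 : ∫ r in a..c, deriv (h6_phi A c) r ^ 2 * r = μ * ∫ r in a..c, A r ^ 2 * r := by
    rw [← h.energy_left ha hab hcI hc']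
    apply intervalIntegral.integral_congr
    intro x hx
    rw [uIcc_of_le hc.1.le] at hx
    simp only [hφd, min_eq_left hx.2]
  have e6 : ∫ r in c..b, deriv (h6_phi A c) r ^ 2 * r = 0 := by
    have : ∫ r in c..b, deriv (h6_phi A c) r ^ 2 * r = ∫ r in c..b, (0 : ℝ) := by
      apply intervalIntegral.integral_congr
      intro x hx
      rw [uIcc_of_le hc.2.le] at hx
      simp only [hφd, min_eq_right hx.1, hc']
      ring
    rw [this]; simp
  -- the full integrals
  have i1 : ∀ u v : ℝ, IntervalIntegrable (fun r => h6_phi A c r * r) MeasureTheory.volume u v :=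
    fun u v => (hφc.mul continuous_id).intervalIntegrable u v
  have i2 : ∀ u v : ℝ,
      IntervalIntegrable (fun r => h6_phi A c r ^ 2 * r) MeasureTheory.volume u v :=
    fun u v => ((hφc.pow 2).mul continuous_id).intervalIntegrable u v
  have i3 : ∀ u v : ℝ,
      IntervalIntegrable (fun r => deriv (h6_phi A c) r ^ 2 * r) MeasureTheory.volume u v :=
    fun u v => ((hφdc.pow 2).mul continuous_id).intervalIntegrable u v
  have E1 : ∫ r in a..b, h6_phi A c r * r = A c * ((b ^ 2 - c ^ 2) / 2) := by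
    rw [← intervalIntegral.integral_add_adjacent_intervals (i1 a c) (i1 c b), e1, e2, zero_add]
  have E2 : ∫ r in a..b, h6_phi A c r ^ 2 * r
      = (∫ r in a..c, A r ^ 2 * r) + A c ^ 2 * ((b ^ 2 - c ^ 2) / 2) := by
    rw [← intervalIntegral.integral_add_adjacent_intervals (i2 a c) (i2 c b), e3, e4]
  have E3 : ∫ r in a..b, deriv (h6_phi A c) r ^ 2 * r = μ * ∫ r in a..c, A r ^ 2 * r := by
    rw [← intervalIntegral.integral_add_adjacent_intervals (i3 a c) (i3 c b), e5, e6, add_zero]
  -- the shifted test function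
  have hP : 0 < b ^ 2 - c ^ 2 := by nlinarith [hc.1, hc.2]
  have hR : 0 < c ^ 2 - a ^ 2 := by nlinarith [hc.1, hc.2]
  have hPR : 0 < b ^ 2 - a ^ 2 := by linarith
  set m : ℝ := A c * (b ^ 2 - c ^ 2) / (b ^ 2 - a ^ 2) with hm
  have hψC : ContDiff ℝ 1 (fun r => h6_phi A c r - m) := hφC.sub contDiff_const
  have hψd : deriv (fun r => h6_phi A c r - m) = deriv (h6_phi A c) := by
    funext r
    exact deriv_sub_const (f := h6_phi A c) (x := r) m
  have hψ0 : ∫ r in a..b, (h6_phi A c r - m) * r = 0 := by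
    rw [h6_int_shift1 hφc, E1, hm]
    field_simp
    ring
  have hψ2 : ∫ r in a..b, (h6_phi A c r - m) ^ 2 * r
      = (∫ r in a..c, A r ^ 2 * r)
        + A c ^ 2 * ((b ^ 2 - c ^ 2) * (c ^ 2 - a ^ 2)) / (2 * (b ^ 2 - a ^ 2)) := by
    rw [h6_int_shift2 hφc, E1, E2, hm]
    field_simp
    ring
  have hq0 := hQ (fun r => h6_phi A c r - m) hψC hψ0
  rw [hψd, E3] at hq0
  have hq : μ * ∫ r in a..b, (h6_phi A c r - m) ^ 2 * r ≤ μ * ∫ r in a..c, A r ^ 2 * r := hq0
  rw [hψ2] at hq
  have hpos : 0 < A c ^ 2 * ((b ^ 2 - c ^ 2) * (c ^ 2 - a ^ 2)) / (2 * (b ^ 2 - a ^ 2)) := by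
    have hA2 : 0 < A c ^ 2 := by positivity
    positivity
  have : μ * (A c ^ 2 * ((b ^ 2 - c ^ 2) * (c ^ 2 - a ^ 2)) / (2 * (b ^ 2 - a ^ 2))) ≤ 0 := by
    have := hq
    rw [mul_add] at this
    linarith
  have hpos2 := mul_pos hμ hpos
  linarith

theorem RadialSol.strictMono_or_strictAnti (ha : 0 < a) (hab : a < b) (hμ : 0 < μ)
    (h : RadialSol a b μ 0 A)
    (hQ : ∀ φ : ℝ → ℝ, ContDiff ℝ 1 φ → (∫ r in a..b, φ r * r) = 0 →
      μ * ∫ r in a..b, φ r ^ 2 * r ≤ ∫ r in a..b, deriv φ r ^ 2 * r)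
    (hne : ∃ r ∈ Icc a b, A r ≠ 0) :
    StrictMonoOn A (Icc a b) ∨ StrictAntiOn A (Icc a b) := by
  have hA := h.smooth
  have hdA : Continuous (deriv A) := hA.continuous_deriv (by norm_num)
  have hnc : ∀ c ∈ Ioo a b, deriv A c ≠ 0 := fun c hc => h6_no_crit ha hab hμ h hQ hne hc
  have hc0m : (a + b) / 2 ∈ Ioo a b := ⟨by linarith, by linarith⟩
  have hzero : ∀ x ∈ Ioo a b, ∀ y ∈ Ioo a b, deriv A x ≤ 0 → 0 ≤ deriv A y → False := by
    intro x hx y hy hx0 hy0
    have hivt : (0 : ℝ) ∈ deriv A '' uIcc x y := by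
      apply intermediate_value_uIcc hdA.continuousOn
      rw [mem_uIcc]
      left
      exact ⟨hx0, hy0⟩
    obtain ⟨z, hz, hz0⟩ := hivt
    exact hnc z (ordConnected_Ioo.uIcc_subset hx hy hz) hz0
  rcases lt_or_gt_of_ne (hnc _ hc0m) with hneg | hpos
  · right
    apply strictAntiOn_of_deriv_neg (convex_Icc a b) hA.continuous.continuousOn
    intro x hx
    rw [interior_Icc] at hx
    by_contra hcon
    exact hzero _ hc0m x hx hneg.le (not_lt.mp hcon)
  · left
    apply strictMonoOn_of_deriv_pos (convex_Icc a b) hA.continuous.continuousOn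
    intro x hx
    rw [interior_Icc] at hx
    by_contra hcon
    exact hzero x hx _ hc0m (not_lt.mp hcon) hpos.le

end Vale.Agent.H60.Hot
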