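import Vale.Agent.H60.Hot.Ode0

/-!
# The first radial mode on a circular sector is strictly monotone (TASK S5)

Sketch (compare `Monotone.lean`, helper68).  Suppose `A' c = 0`, `c ∈ (0, b)`.  Then `A c ≠ 0`
(else `A = 0` on `(0, b]` by `RadialSol0.unique`).  Let `φ r = A r` for `r ≤ c`, `φ r = A c` for
`r ≥ c` (it is `C^1` on `(0, ∞)` because `A' c = 0`), `m = A c (b² - c²) / b²`, `ψ = φ - m`.
By `RadialSol0.mean_left`, `∫_0^b ψ r = 0`; `∫_ε^b ψ'² r = ∫_ε^c A'² r ≤ μ ∫_0^c A² r` for `ε < c`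
(`RadialSol0.energy_left_le`) and it vanishes for `ε ≥ c`; and
`∫_0^b ψ² r = ∫_0^c A² r + (A c)² (b² - c²) c² / (2 b²)`.  The hypothesis `hQ` with
`E = μ ∫_0^c A² r` gives `μ (A c)² (b² - c²) c² ≤ 0`, a contradiction.  So `A'` has no zero in
`(0, b)`; it is continuous there, hence of constant sign, and `A` is strictly monotone on `(0, b]`.
-/

namespace Vale.Agent.H60.Hot

open Set

variable {b μ : ℝ} {A : ℝ → ℝ}

/-- the glued test function: `A` to the left of `c`, the constant `A c` to the right -/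
noncomputable def s5_phi (A : ℝ → ℝ) (c : ℝ) (r : ℝ) : ℝ := if r ≤ c then A r else A c

theorem s5_left {c r : ℝ} (hr : r ≤ c) : s5_phi A c r = A r := by
  simp [s5_phi, hr]

theorem s5_right {c r : ℝ} (hr : c ≤ r) : s5_phi A c r = A c := by
  unfold s5_phi
  split_ifs with h
  · rw [le_antisymm h hr]
  · rfl

theorem s5_diffAt (hA : ContDiffOn ℝ 2 A (Ioi 0)) {x : ℝ} (hx : 0 < x) : DifferentiableAt ℝ A x :=
  (hA.differentiableOn (by norm_num)).differentiableAt (Ioi_mem_nhds hx)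

theorem s5_hasDerivAt (hA : ContDiffOn ℝ 2 A (Ioi 0)) {c : ℝ} (hc' : deriv A c = 0)
    {r : ℝ} (hr : 0 < r) : HasDerivAt (s5_phi A c) (deriv A (min r c)) r := by
  rcases lt_trichotomy r c with hlt | heq | hgt
  · rw [min_eq_left hlt.le]
    have h1 : HasDerivAt A (deriv A r) r := (s5_diffAt hA hr).hasDerivAt
    refine h1.congr_of_eventuallyEq ?_
    filter_upwards [Iio_mem_nhds hlt] with x hx
    exact s5_left (le_of_lt hx)
  · subst heq
    rw [min_self, hc']
    have h1 : HasDerivAt A 0 r := by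
      have := (s5_diffAt hA hr).hasDerivAt
      rwa [hc'] at this
    rw [hasDerivAt_iff_isLittleO] at h1 ⊢
    refine Asymptotics.IsBigO.trans_isLittleO ?_ h1
    apply Asymptotics.IsBigO.of_bound 1
    filter_upwards with x
    simp only [smul_zero, sub_zero, one_mul]
    rw [s5_left (le_refl r)]
    by_cases hx : x ≤ r
    · rw [s5_left hx]
    · rw [s5_right (le_of_not_ge hx)]
      simp
  · rw [min_eq_right hgt.le, hc']
    have h1 : HasDerivAt (fun _ : ℝ => A c) 0 r := hasDerivAt_const r (A c)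
    refine h1.congr_of_eventuallyEq ?_
    filter_upwards [Ioi_mem_nhds hgt] with x hx
    exact s5_right (le_of_lt hx)

theorem s5_deriv (hA : ContDiffOn ℝ 2 A (Ioi 0)) {c : ℝ} (hc' : deriv A c = 0)
    {r : ℝ} (hr : 0 < r) : deriv (s5_phi A c) r = deriv A (min r c) :=
  (s5_hasDerivAt hA hc' hr).deriv

theorem s5_contDeriv (hA : ContDiffOn ℝ 2 A (Ioi 0)) {c : ℝ} (hc : 0 < c) :
    ContinuousOn (fun r => deriv A (min r c)) (Ioi 0) := by
  have hdA : ContinuousOn (deriv A) (Ioi 0) :=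
    hA.continuousOn_deriv_of_isOpen isOpen_Ioi (by norm_num)
  exact hdA.comp (continuous_id.min continuous_const).continuousOn (fun r hr => lt_min hr hc)

theorem s5_contDiffOn (hA : ContDiffOn ℝ 2 A (Ioi 0)) {c : ℝ} (hc : 0 < c)
    (hc' : deriv A c = 0) : ContDiffOn ℝ 1 (s5_phi A c) (Ioi 0) := by
  rw [show (1 : WithTop ℕ∞) = 0 + 1 from rfl, contDiffOn_succ_iff_deriv_of_isOpen isOpen_Ioi]
  refine ⟨fun r hr => (s5_hasDerivAt hA hc' hr).differentiableAt.differentiableWithinAt, ?_, ?_⟩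
  · intro h
    simp at h
  · rw [contDiffOn_zero]
    exact (s5_contDeriv hA hc).congr (fun r hr => s5_deriv hA hc' hr)

theorem s5_intervalIntegrable {f : ℝ → ℝ} {u M : ℝ} (hu : 0 ≤ u)
    (hf : ContinuousOn f (Ioc 0 u)) (hM : ∀ r ∈ Ioc (0 : ℝ) u, |f r| ≤ M) :
    IntervalIntegrable f MeasureTheory.volume 0 u := by
  rw [intervalIntegrable_iff, uIoc_of_le hu]
  refine MeasureTheory.IntegrableOn.of_bound measure_Ioc_lt_top
    (hf.aestronglyMeasurable measurableSet_Ioc) M ?_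
  rw [MeasureTheory.ae_restrict_iff' measurableSet_Ioc]
  exact Filter.Eventually.of_forall (fun r hr => by rw [Real.norm_eq_abs]; exact hM r hr)

theorem RadialSol0.no_crit (hb : 0 < b) (hμ : 0 < μ) (h : RadialSol0 b μ 0 A)
    (hQ : ∀ φ : ℝ → ℝ, ContDiffOn ℝ 1 φ (Ioi 0) →
      ∀ M : ℝ, (∀ r ∈ Ioc (0 : ℝ) b, |φ r| ≤ M) →
      (∫ r in (0 : ℝ)..b, φ r * r) = 0 →
      ∀ E : ℝ, (∀ ε ∈ Ioo (0 : ℝ) b, (∫ r in ε..b, deriv φ r ^ 2 * r) ≤ E) →
      μ * ∫ r in (0 : ℝ)..b, φ r ^ 2 * r ≤ E)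
    (hne : ∃ r ∈ Ioc (0 : ℝ) b, A r ≠ 0) {c : ℝ} (hc : c ∈ Ioo (0 : ℝ) b) : deriv A c ≠ 0 := by
  intro hc'
  have hcI : c ∈ Ioc (0 : ℝ) b := ⟨hc.1, hc.2.le⟩
  have hAc : A c ≠ 0 := by
    intro h0
    obtain ⟨r, hr, hr0⟩ := hne
    exact hr0 (h.unique hb hcI h0 hc' r hr)
  have hA := h.smooth
  obtain ⟨MA, hMA⟩ := h.bdd
  have hc0 : 0 < c := hc.1
  have hcb : c < b := hc.2
  have hφC : ContDiffOn ℝ 1 (s5_phi A c) (Ioi 0) := s5_contDiffOn hA hc0 hc'
  have hφcont : ContinuousOn (s5_phi A c) (Ioi 0) := hφC.continuousOn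
  have hφbd : ∀ r ∈ Ioc (0 : ℝ) b, |s5_phi A c r| ≤ MA := by
    intro r hr
    by_cases hrc : r ≤ c
    · rw [s5_left hrc]; exact hMA r hr
    · rw [s5_right (le_of_not_ge hrc)]; exact hMA c hcI
  have hMA0 : 0 ≤ MA := le_trans (abs_nonneg _) (hMA c hcI)
  have hsub : Ioc (0 : ℝ) b ⊆ Ioi 0 := fun r hr => hr.1
  have i1 : IntervalIntegrable (fun r => s5_phi A c r * r) MeasureTheory.volume 0 b := by
    have hcont : ContinuousOn (fun r => s5_phi A c r * r) (Ioc 0 b) :=
      (hφcont.mono hsub).mul continuousOn_id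
    refine s5_intervalIntegrable hb.le hcont (M := MA * b) ?_
    intro r hr
    show |s5_phi A c r * r| ≤ MA * b
    rw [abs_mul, abs_of_pos hr.1]
    exact mul_le_mul (hφbd r hr) hr.2 hr.1.le hMA0
  have i2 : IntervalIntegrable (fun r => s5_phi A c r ^ 2 * r) MeasureTheory.volume 0 b := by
    have hcont : ContinuousOn (fun r => s5_phi A c r ^ 2 * r) (Ioc 0 b) :=
      ((hφcont.mono hsub).pow 2).mul continuousOn_id
    refine s5_intervalIntegrable hb.le hcont (M := MA ^ 2 * b) ?_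
    intro r hr
    show |s5_phi A c r ^ 2 * r| ≤ MA ^ 2 * b
    rw [abs_mul, abs_of_pos hr.1, abs_pow]
    exact mul_le_mul (pow_le_pow_left₀ (abs_nonneg _) (hφbd r hr) 2) hr.2 hr.1.le (by positivity)
  have hu0c : uIcc (0 : ℝ) c ⊆ uIcc 0 b := by
    rw [uIcc_of_le hc0.le, uIcc_of_le hb.le]; exact Icc_subset_Icc_right hcb.le
  have hucb : uIcc c b ⊆ uIcc 0 b := by
    rw [uIcc_of_le hcb.le, uIcc_of_le hb.le]; exact Icc_subset_Icc_left hc0.le
  have e1 : ∫ r in (0 : ℝ)..c, s5_phi A c r * r = 0 := by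
    refine Eq.trans ?_ (h.mean_left hb hμ.ne' hcI hc')
    apply intervalIntegral.integral_congr
    intro x hx
    rw [uIcc_of_le hc0.le] at hx
    simp only [s5_left hx.2]
  have e2 : ∫ r in c..b, s5_phi A c r * r = A c * ((b ^ 2 - c ^ 2) / 2) := by
    rw [← integral_id, ← intervalIntegral.integral_const_mul]
    apply intervalIntegral.integral_congr
    intro x hx
    rw [uIcc_of_le hcb.le] at hx
    simp only [s5_right hx.1]
  have e3 : ∫ r in (0 : ℝ)..c, s5_phi A c r ^ 2 * r = ∫ r in (0 : ℝ)..c, A r ^ 2 * r := by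
    apply intervalIntegral.integral_congr
    intro x hx
    rw [uIcc_of_le hc0.le] at hx
    simp only [s5_left hx.2]
  have e4 : ∫ r in c..b, s5_phi A c r ^ 2 * r = A c ^ 2 * ((b ^ 2 - c ^ 2) / 2) := by
    rw [← integral_id, ← intervalIntegral.integral_const_mul]
    apply intervalIntegral.integral_congr
    intro x hx
    rw [uIcc_of_le hcb.le] at hx
    simp only [s5_right hx.1]
  have E1 : ∫ r in (0 : ℝ)..b, s5_phi A c r * r = A c * ((b ^ 2 - c ^ 2) / 2) := by
    rw [← intervalIntegral.integral_add_adjacent_intervals (i1.mono_set hu0c) (i1.mono_set hucb),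
      e1, e2, zero_add]
  have E2 : ∫ r in (0 : ℝ)..b, s5_phi A c r ^ 2 * r
      = (∫ r in (0 : ℝ)..c, A r ^ 2 * r) + A c ^ 2 * ((b ^ 2 - c ^ 2) / 2) := by
    rw [← intervalIntegral.integral_add_adjacent_intervals (i2.mono_set hu0c) (i2.mono_set hucb),
      e3, e4]
  set m : ℝ := A c * (b ^ 2 - c ^ 2) / b ^ 2 with hm
  have hψC : ContDiffOn ℝ 1 (fun r => s5_phi A c r - m) (Ioi 0) := hφC.sub contDiffOn_const
  have hψbd : ∀ r ∈ Ioc (0 : ℝ) b, |s5_phi A c r - m| ≤ MA + |m| := fun r hr =>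
    (abs_sub _ _).trans (add_le_add (hφbd r hr) le_rfl)
  have i3 : IntervalIntegrable (fun r : ℝ => m * r) MeasureTheory.volume 0 b :=
    (continuous_const.mul continuous_id).intervalIntegrable 0 b
  have hψ0 : ∫ r in (0 : ℝ)..b, (s5_phi A c r - m) * r = 0 := by
    have h1 : ∀ r : ℝ, (s5_phi A c r - m) * r = s5_phi A c r * r - m * r := fun r => by ring
    simp only [h1]
    rw [intervalIntegral.integral_sub i1 i3, intervalIntegral.integral_const_mul, integral_id,
      E1, hm]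
    field_simp
    ring
  have hψ2 : ∫ r in (0 : ℝ)..b, (s5_phi A c r - m) ^ 2 * r
      = (∫ r in (0 : ℝ)..c, A r ^ 2 * r)
        + A c ^ 2 * ((b ^ 2 - c ^ 2) * c ^ 2) / (2 * b ^ 2) := by
    have h1 : ∀ r : ℝ, (s5_phi A c r - m) ^ 2 * r
        = s5_phi A c r ^ 2 * r - (2 * m) * (s5_phi A c r * r) + m ^ 2 * r := fun r => by ring
    simp only [h1]
    have j2 : IntervalIntegrable (fun r => (2 * m) * (s5_phi A c r * r)) MeasureTheory.volume 0 b :=
      i1.const_mul (2 * m)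
    have j3 : IntervalIntegrable (fun r : ℝ => m ^ 2 * r) MeasureTheory.volume 0 b :=
      (continuous_const.mul continuous_id).intervalIntegrable 0 b
    rw [intervalIntegral.integral_add (i2.sub j2) j3, intervalIntegral.integral_sub i2 j2,
      intervalIntegral.integral_const_mul, intervalIntegral.integral_const_mul, integral_id,
      E1, E2, hm]
    field_simp
    ring
  set E : ℝ := μ * ∫ r in (0 : ℝ)..c, A r ^ 2 * r with hE
  have hE0 : 0 ≤ E := by
    apply mul_nonneg hμ.le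
    apply intervalIntegral.integral_nonneg hc0.le
    intro u hu
    exact mul_nonneg (sq_nonneg _) hu.1
  have hψd : ∀ r : ℝ, 0 < r → deriv (fun r => s5_phi A c r - m) r = deriv A (min r c) := by
    intro r hr
    rw [deriv_sub_const]
    exact s5_deriv hA hc' hr
  have hcd : ContinuousOn (fun r => deriv A (min r c) ^ 2 * r) (Ioi 0) :=
    ((s5_contDeriv hA hc0).pow 2).mul continuousOn_id
  have hen : ∀ ε ∈ Ioo (0 : ℝ) b,
      (∫ r in ε..b, deriv (fun r => s5_phi A c r - m) r ^ 2 * r) ≤ E := by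
    intro ε hε
    have hcongr : ∫ r in ε..b, deriv (fun r => s5_phi A c r - m) r ^ 2 * r
        = ∫ r in ε..b, deriv A (min r c) ^ 2 * r := by
      apply intervalIntegral.integral_congr
      intro x hx
      rw [uIcc_of_le hε.2.le] at hx
      simp only [hψd x (lt_of_lt_of_le hε.1 hx.1)]
    rw [hcongr]
    by_cases hεc : ε < c
    · have k1 : IntervalIntegrable (fun r => deriv A (min r c) ^ 2 * r) MeasureTheory.volume ε c := by
        apply ContinuousOn.intervalIntegrable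
        apply hcd.mono
        rw [uIcc_of_le hεc.le]
        intro x hx
        exact lt_of_lt_of_le hε.1 hx.1
      have k2 : IntervalIntegrable (fun r => deriv A (min r c) ^ 2 * r) MeasureTheory.volume c b := by
        apply ContinuousOn.intervalIntegrable
        apply hcd.mono
        rw [uIcc_of_le hcb.le]
        intro x hx
        exact lt_of_lt_of_le hc0 hx.1
      rw [← intervalIntegral.integral_add_adjacent_intervals k1 k2]
      have p1 : ∫ r in ε..c, deriv A (min r c) ^ 2 * r = ∫ r in ε..c, deriv A r ^ 2 * r := by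
        apply intervalIntegral.integral_congr
        intro x hx
        rw [uIcc_of_le hεc.le] at hx
        simp only [min_eq_left hx.2]
      have p2 : ∫ r in c..b, deriv A (min r c) ^ 2 * r = 0 := by
        have : ∫ r in c..b, deriv A (min r c) ^ 2 * r = ∫ r in c..b, (0 : ℝ) := by
          apply intervalIntegral.integral_congr
          intro x hx
          rw [uIcc_of_le hcb.le] at hx
          simp only [min_eq_right hx.1, hc']
          ring
        rw [this]; simp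
      rw [p1, p2, add_zero]
      exact h.energy_left_le hb hμ.le hcI hc' ε ⟨hε.1, hεc⟩
    · have hcε : c ≤ ε := not_lt.mp hεc
      have : ∫ r in ε..b, deriv A (min r c) ^ 2 * r = ∫ r in ε..b, (0 : ℝ) := by
        apply intervalIntegral.integral_congr
        intro x hx
        rw [uIcc_of_le hε.2.le] at hx
        simp only [min_eq_right (hcε.trans hx.1), hc']
        ring
      rw [this]
      simpa using hE0
  have hq := hQ (fun r => s5_phi A c r - m) hψC (MA + |m|) hψbd hψ0 E hen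
  rw [hψ2, hE] at hq
  have hP : 0 < b ^ 2 - c ^ 2 := by nlinarith
  have hpos : 0 < A c ^ 2 * ((b ^ 2 - c ^ 2) * c ^ 2) / (2 * b ^ 2) := by
    have hA2 : 0 < A c ^ 2 := by positivity
    positivity
  have hpos2 := mul_pos hμ hpos
  rw [mul_add] at hq
  linarith

theorem RadialSol0.strictMono_or_strictAnti (hb : 0 < b) (hμ : 0 < μ) (h : RadialSol0 b μ 0 A)
    (hQ : ∀ φ : ℝ → ℝ, ContDiffOn ℝ 1 φ (Ioi 0) →
      ∀ M : ℝ, (∀ r ∈ Ioc (0 : ℝ) b, |φ r| ≤ M) →
      (∫ r in (0 : ℝ)..b, φ r * r) = 0 →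
      ∀ E : ℝ, (∀ ε ∈ Ioo (0 : ℝ) b, (∫ r in ε..b, deriv φ r ^ 2 * r) ≤ E) →
      μ * ∫ r in (0 : ℝ)..b, φ r ^ 2 * r ≤ E)
    (hne : ∃ r ∈ Ioc (0 : ℝ) b, A r ≠ 0) :
    StrictMonoOn A (Ioc (0 : ℝ) b) ∨ StrictAntiOn A (Ioc (0 : ℝ) b) := by
  have hA := h.smooth
  have hdA : ContinuousOn (deriv A) (Ioi 0) :=
    hA.continuousOn_deriv_of_isOpen isOpen_Ioi (by norm_num)
  have hAc : ContinuousOn A (Ioc (0 : ℝ) b) := hA.continuousOn.mono (fun r hr => hr.1)
  have hnc : ∀ c ∈ Ioo (0 : ℝ) b, deriv A c ≠ 0 := fun c hc => h.no_crit hb hμ hQ hne hc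
  have hc0m : b / 2 ∈ Ioo (0 : ℝ) b := ⟨by linarith, by linarith⟩
  have hzero : ∀ x ∈ Ioo (0 : ℝ) b, ∀ y ∈ Ioo (0 : ℝ) b, deriv A x ≤ 0 → 0 ≤ deriv A y → False := by
    intro x hx y hy hx0 hy0
    have hsub : uIcc x y ⊆ Ioo (0 : ℝ) b := ordConnected_Ioo.uIcc_subset hx hy
    have hivt : (0 : ℝ) ∈ deriv A '' uIcc x y := by
      apply intermediate_value_uIcc (hdA.mono (fun z hz => (hsub hz).1))
      rw [mem_uIcc]
      left
      exact ⟨hx0, hy0⟩
    obtain ⟨z, hz, hz0⟩ := hivt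
    exact hnc z (hsub hz) hz0
  rcases lt_or_gt_of_ne (hnc _ hc0m) with hneg | hpos
  · right
    apply strictAntiOn_of_deriv_neg (convex_Ioc 0 b) hAc
    intro x hx
    rw [interior_Ioc] at hx
    by_contra hcon
    exact hzero _ hc0m x hx hneg.le (not_lt.mp hcon)
  · left
    apply strictMonoOn_of_deriv_pos (convex_Ioc 0 b) hAc
    intro x hx
    rw [interior_Ioc] at hx
    by_contra hcon
    exact hzero x hx _ hc0m (not_lt.mp hcon) hpos.le

end Vale.Agent.H60.Hot
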