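import Vale.Agent.H60.Hot.Modes0
import Vale.Agent.H60.Hot.Cosine
import Vale.Agent.H60.Hot.Ground0
import Vale.Agent.H60.Hot.Monotone0

/-!
# The hot spots property for circular sectors
-/

namespace Vale.Agent.H60.Hot

open Set

/-- a first Neumann eigenfunction of a circular sector is
`A₀ (r) / α + (2 / α) A₁ (r) cos (π θ / α)` on `(0, b] × [0, α]` -/
theorem eig_decomp0 {b α μ : ℝ} (hb : 0 < b) (hα : 0 < α) (hμ : 0 ≤ μ) {u : ℝ → ℝ → ℝ}
    (hu : NeumannEig0 b α μ u) (hvar : RayleighBound0 b α μ) :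
    ∀ r ∈ Ioc (0:ℝ) b, ∀ θ ∈ Icc (0:ℝ) α,
      u r θ = (1 / α) * mode α u 0 r + (2 / α) * mode α u 1 r * Real.cos (Real.pi / α * θ) := by
  intro r hr θ hθ
  have cu : ContinuousOn (fun p : ℝ × ℝ => u p.1 p.2) {p : ℝ × ℝ | 0 < p.1} :=
    hu.smooth.continuousOn
  have s0 : Continuous fun θ => u r θ := continuous_slice0 cu hr.1
  have h := cosine_complete hα s0 (fun m hm => mode_eq_zero0 hb hα hμ hu hvar hm r hr) θ hθ
  have e0 : mode α u 0 r = ∫ t in (0:ℝ)..α, u r t := by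
    simp [mode]
  have e1 : mode α u 1 r = ∫ t in (0:ℝ)..α, u r t * Real.cos (Real.pi / α * t) := by
    simp [mode]
  rw [e0, e1]
  exact h

/-- **Hot spots for circular sectors.**  A first Neumann eigenfunction of a circular sector
(polar coordinates) takes at every interior point a value strictly between its values at two
boundary points: the two points of the straight sides at the same radius, or a point of the arc
and a point of a straight side. -/
theorem hot_spots_sector {b α μ : ℝ} (hb : 0 < b) (hα : 0 < α) (hμ : 0 < μ) {u : ℝ → ℝ → ℝ}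
    (hu : NeumannEig0 b α μ u) (hvar : RayleighBound0 b α μ)
    (hne : ∃ r ∈ Ioc (0:ℝ) b, ∃ θ ∈ Icc (0:ℝ) α, u r θ ≠ 0) :
    ∀ r ∈ Ioo (0:ℝ) b, ∀ θ ∈ Ioo (0:ℝ) α,
      (u r α < u r θ ∧ u r θ < u r 0) ∨ (u r 0 < u r θ ∧ u r θ < u r α) ∨
      (∃ s ∈ Ioo (0:ℝ) r, u b θ < u r θ ∧ u r θ < u s 0) ∨
      (∃ s ∈ Ioo (0:ℝ) r, u s 0 < u r θ ∧ u r θ < u b θ) := by
  intro r hr θ hθ
  have hrI : r ∈ Ioc (0:ℝ) b := ⟨hr.1, hr.2.le⟩
  have hθI : θ ∈ Icc (0:ℝ) α := ⟨hθ.1.le, hθ.2.le⟩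
  have hbI : b ∈ Ioc (0:ℝ) b := ⟨hb, le_refl _⟩
  have h0I : (0:ℝ) ∈ Icc (0:ℝ) α := ⟨le_refl _, hα.le⟩
  have hαI : α ∈ Icc (0:ℝ) α := ⟨hα.le, le_refl _⟩
  have hdec := eig_decomp0 hb hα hμ.le hu hvar
  set ν := Real.pi / α with hν
  have hν0 : 0 < ν := div_pos Real.pi_pos hα
  have hνα : ν * α = Real.pi := by
    rw [hν]
    field_simp
  have hA0 : RadialSol0 b μ 0 (mode α u 0) := by
    simpa using mode_radialSol0 hb hα hu 0
  have hA1 : RadialSol0 b μ (ν ^ 2) (mode α u 1) := by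
    simpa using mode_radialSol0 hb hα hu 1
  have hα2 : 0 < 2 / α := by positivity
  have hα1 : 0 < 1 / α := by positivity
  by_cases h1 : ∃ s ∈ Ioc (0:ℝ) b, mode α u 1 s ≠ 0
  · -- the angular mode is present: monotone in the angle
    have hnz := RadialSol0.ne_zero_of_ground hb hμ (sq_nonneg ν) hA1
      (fun φ hφ M hM E hE => rayleigh_angular0 hb hα hμ.le hvar φ hφ M hM E hE) h1 r hrI
    have e := hdec r hrI θ hθI
    have e0 := hdec r hrI 0 h0I
    have eα := hdec r hrI α hαI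
    rw [mul_zero, Real.cos_zero] at e0
    rw [hνα, Real.cos_pi] at eα
    have hc1 : Real.cos (ν * θ) < 1 := by
      have := Real.cos_lt_cos_of_nonneg_of_le_pi (le_refl (0:ℝ))
        (by rw [← hνα]; exact (mul_le_mul_of_nonneg_left hθ.2.le hν0.le))
        (mul_pos hν0 hθ.1)
      rwa [Real.cos_zero] at this
    have hc2 : -1 < Real.cos (ν * θ) := by
      have := Real.cos_lt_cos_of_nonneg_of_le_pi (mul_pos hν0 hθ.1).le (le_refl Real.pi)
        (by rw [← hνα]; exact (mul_lt_mul_of_pos_left hθ.2 hν0))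
      rwa [Real.cos_pi] at this
    rcases lt_or_gt_of_ne hnz with hneg | hpos
    · right; left
      have hp : 0 < (2 / α) * (-(mode α u 1 r)) := mul_pos hα2 (by linarith)
      constructor
      · rw [e, e0]
        nlinarith
      · rw [e, eα]
        nlinarith
    · left
      have hp : 0 < (2 / α) * mode α u 1 r := mul_pos hα2 hpos
      constructor
      · rw [e, eα]
        nlinarith
      · rw [e, e0]
        nlinarith
  · -- purely radial: monotone in the radius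
    right; right
    have h1' : ∀ s ∈ Ioc (0:ℝ) b, mode α u 1 s = 0 := by
      intro s hs
      by_contra hcon
      exact h1 ⟨s, hs, hcon⟩
    have hrad : ∀ s ∈ Ioc (0:ℝ) b, ∀ t ∈ Icc (0:ℝ) α, u s t = (1 / α) * mode α u 0 s := by
      intro s hs t ht
      rw [hdec s hs t ht, h1' s hs]
      ring
    have hne0 : ∃ s ∈ Ioc (0:ℝ) b, mode α u 0 s ≠ 0 := by
      obtain ⟨s, hs, t, ht, hst⟩ := hne
      refine ⟨s, hs, fun h => hst ?_⟩
      rw [hrad s hs t ht, h]
      ring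
    have hmono := RadialSol0.strictMono_or_strictAnti hb hμ hA0
      (fun φ hφ M hM hm E hE => rayleigh_radial0 hb hα hμ.le hvar φ hφ M hM hm E hE) hne0
    have hr2 : r / 2 ∈ Ioo (0:ℝ) r := ⟨by linarith [hr.1], by linarith [hr.1]⟩
    have hr2I : r / 2 ∈ Ioc (0:ℝ) b := ⟨hr2.1, by linarith [hr2.2, hr.2]⟩
    rw [hrad r hrI θ hθI, hrad b hbI θ hθI]
    rcases hmono with hm | hm
    · right
      refine ⟨r / 2, hr2, ?_, ?_⟩
      · rw [hrad (r / 2) hr2I 0 h0I]
        exact mul_lt_mul_of_pos_left (hm hr2I hrI hr2.2) hα1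
      · exact mul_lt_mul_of_pos_left (hm hrI hbI hr.2) hα1
    · left
      refine ⟨r / 2, hr2, ?_, ?_⟩
      · exact mul_lt_mul_of_pos_left (hm hrI hbI hr.2) hα1
      · rw [hrad (r / 2) hr2I 0 h0I]
        exact mul_lt_mul_of_pos_left (hm hr2I hrI hr2.2) hα1

/-- **No interior critical point.**  A first Neumann eigenfunction of a circular sector has no
critical point in the open sector. -/
theorem no_critical_point_sector {b α μ : ℝ} (hb : 0 < b) (hα : 0 < α) (hμ : 0 < μ)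
    {u : ℝ → ℝ → ℝ} (hu : NeumannEig0 b α μ u) (hvar : RayleighBound0 b α μ)
    (hne : ∃ r ∈ Ioc (0:ℝ) b, ∃ θ ∈ Icc (0:ℝ) α, u r θ ≠ 0) :
    ∀ r ∈ Ioo (0:ℝ) b, ∀ θ ∈ Ioo (0:ℝ) α, dR u r θ ≠ 0 ∨ dT u r θ ≠ 0 := by
  intro r hr θ hθ
  have hrI : r ∈ Ioc (0:ℝ) b := ⟨hr.1, hr.2.le⟩
  have hθI : θ ∈ Icc (0:ℝ) α := ⟨hθ.1.le, hθ.2.le⟩
  have hdec := eig_decomp0 hb hα hμ.le hu hvar
  set ν := Real.pi / α with hν
  have hν0 : 0 < ν := div_pos Real.pi_pos hα
  have hνα : ν * α = Real.pi := by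
    rw [hν]
    field_simp
  have hA0 : RadialSol0 b μ 0 (mode α u 0) := by
    simpa using mode_radialSol0 hb hα hu 0
  have hA1 : RadialSol0 b μ (ν ^ 2) (mode α u 1) := by
    simpa using mode_radialSol0 hb hα hu 1
  have hα2 : 0 < 2 / α := by positivity
  have hα1 : 0 < 1 / α := by positivity
  by_cases h1 : ∃ s ∈ Ioc (0:ℝ) b, mode α u 1 s ≠ 0
  · right
    have hnz := RadialSol0.ne_zero_of_ground hb hμ (sq_nonneg ν) hA1
      (fun φ hφ M hM E hE => rayleigh_angular0 hb hα hμ.le hvar φ hφ M hM E hE) h1 r hrI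
    have hev : (fun t => u r t) =ᶠ[nhds θ] (fun t => (1 / α) * mode α u 0 r
        + (2 / α) * mode α u 1 r * Real.cos (ν * t)) := by
      filter_upwards [Ioo_mem_nhds hθ.1 hθ.2] with t ht
      exact hdec r hrI t ⟨ht.1.le, ht.2.le⟩
    have hd : HasDerivAt (fun t => (1 / α) * mode α u 0 r
        + (2 / α) * mode α u 1 r * Real.cos (ν * t))
        ((2 / α) * mode α u 1 r * (-(ν * Real.sin (ν * θ)))) θ :=
      ((md_hasDerivAt_cos ν θ).const_mul ((2 / α) * mode α u 1 r)).const_add _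
    have e : dT u r θ = (2 / α) * mode α u 1 r * (-(ν * Real.sin (ν * θ))) := by
      unfold dT
      rw [hev.deriv_eq]
      exact hd.deriv
    rw [e]
    have hsin : 0 < Real.sin (ν * θ) :=
      Real.sin_pos_of_pos_of_lt_pi (mul_pos hν0 hθ.1)
        (by rw [← hνα]; exact mul_lt_mul_of_pos_left hθ.2 hν0)
    exact mul_ne_zero (mul_ne_zero hα2.ne' hnz) (neg_ne_zero.mpr (mul_ne_zero hν0.ne' hsin.ne'))
  · left
    have h1' : ∀ s ∈ Ioc (0:ℝ) b, mode α u 1 s = 0 := by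
      intro s hs
      by_contra hcon
      exact h1 ⟨s, hs, hcon⟩
    have hrad : ∀ s ∈ Ioc (0:ℝ) b, ∀ t ∈ Icc (0:ℝ) α, u s t = (1 / α) * mode α u 0 s := by
      intro s hs t ht
      rw [hdec s hs t ht, h1' s hs]
      ring
    have hne0 : ∃ s ∈ Ioc (0:ℝ) b, mode α u 0 s ≠ 0 := by
      obtain ⟨s, hs, t, ht, hst⟩ := hne
      refine ⟨s, hs, fun h => hst ?_⟩
      rw [hrad s hs t ht, h]
      ring
    have hcrit := RadialSol0.no_crit hb hμ hA0
      (fun φ hφ M hM hm E hE => rayleigh_radial0 hb hα hμ.le hvar φ hφ M hM hm E hE) hne0 hr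
    have hev : (fun s => u s θ) =ᶠ[nhds r] (fun s => (1 / α) * mode α u 0 s) := by
      filter_upwards [Ioo_mem_nhds hr.1 hr.2] with s hs
      exact hrad s ⟨hs.1, hs.2.le⟩ θ hθI
    have hdiff : DifferentiableAt ℝ (mode α u 0) r :=
      ((hA0.smooth.contDiffAt (Ioi_mem_nhds hr.1)).differentiableAt (by norm_num))
    have e : dR u r θ = (1 / α) * deriv (mode α u 0) r := by
      unfold dR
      rw [hev.deriv_eq]
      exact (hdiff.hasDerivAt.const_mul (1 / α)).deriv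
    rw [e]
    exact mul_ne_zero hα1.ne' hcrit

end Vale.Agent.H60.Hot
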