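import Vale.Agent.H60.Hot.Radial

/-!
# The radial equation: uniqueness and energy identities (TASK H4)

Sketch.  `A` is `C^2` on the whole line, so `deriv A` is `C^1` and all integrands are continuous.
Uniqueness: `E = A² + A'²` satisfies `|E'| ≤ K E` on `[a, b]` (the coefficients `1/r` and
`μ - κ/r²` are bounded there), so `E e^{-K r}` is antitone and `E e^{K r}` is monotone on `[a, b]`;
`E c = 0` forces `E = 0`.  Energy: the derivative of `r A'` is `r A'' + A' = -(μ r - κ / r) A` on
`[a, b]`; the derivative of `r A' A` is therefore `r A'² + κ A² / r - μ r A²`, and its integral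
vanishes because `A' = 0` at the end points.  For `mean_left` integrate the derivative `-μ r A`
of `r A'`.
-/

namespace Vale.Agent.H60.Hot

open Set

variable {a b μ κ : ℝ} {A : ℝ → ℝ}

lemma h4_hasDerivAt (h : RadialSol a b μ κ A) (r : ℝ) : HasDerivAt A (deriv A r) r :=
  (h.smooth.differentiable (by norm_num) r).hasDerivAt

lemma h4_hasDerivAt' (h : RadialSol a b μ κ A) (r : ℝ) :
    HasDerivAt (deriv A) (deriv (deriv A) r) r :=
  (h.smooth.differentiable_deriv_two r).hasDerivAt

lemma h4_cont (h : RadialSol a b μ κ A) : Continuous A := h.smooth.continuous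

lemma h4_cont' (h : RadialSol a b μ κ A) : Continuous (deriv A) :=
  h.smooth.continuous_deriv (by norm_num)

lemma h4_cont'' (h : RadialSol a b μ κ A) : Continuous (deriv (deriv A)) := by
  have h2 : ContDiff ℝ (1 + 1) A := by
    rw [one_add_one_eq_two]; exact h.smooth
  exact h2.deriv'.continuous_deriv_one

/-- the radial equation solved for `r A''` -/
lemma h4_ode (ha : 0 < a) (h : RadialSol a b μ κ A) {r : ℝ} (hr : r ∈ Icc a b) :
    r * deriv (deriv A) r = -(deriv A r) - μ * r * A r + κ * A r / r := by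
  have hr0 : r ≠ 0 := (lt_of_lt_of_le ha hr.1).ne'
  have hode := h.ode r hr
  have hz : deriv (deriv A) r = -(deriv A r / r) - (μ - κ / r ^ 2) * A r := by linarith
  rw [hz]
  field_simp
  ring

/-- the energy identity between two critical points of `A` in `[a, b]` -/
lemma h4_energy_gen (ha : 0 < a) (h : RadialSol a b μ κ A) {c d : ℝ} (hc : c ∈ Icc a b)
    (hd : d ∈ Icc a b) (hcd : c ≤ d) (hc' : deriv A c = 0) (hd' : deriv A d = 0) :
    ∫ r in c..d, (deriv A r ^ 2 * r + κ * A r ^ 2 / r) = μ * ∫ r in c..d, A r ^ 2 * r := by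
  have hA := h4_hasDerivAt h
  have hA' := h4_hasDerivAt' h
  have hcA := h4_cont h
  have hcA' := h4_cont' h
  have hcA'' := h4_cont'' h
  have hsub : uIcc c d ⊆ Icc a b := by
    rw [uIcc_of_le hcd]
    exact Icc_subset_Icc hc.1 hd.2
  have hF : ∀ r ∈ uIcc c d, HasDerivAt (fun r => r * deriv A r * A r)
      ((1 * deriv A r + r * deriv (deriv A) r) * A r + r * deriv A r * deriv A r) r := by
    intro r _
    exact ((hasDerivAt_id' r).mul (hA' r)).mul (hA r)
  have hint : IntervalIntegrable
      (fun r => (1 * deriv A r + r * deriv (deriv A) r) * A r + r * deriv A r * deriv A r)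
      MeasureTheory.volume c d := by
    apply Continuous.intervalIntegrable
    fun_prop
  have key := intervalIntegral.integral_eq_sub_of_hasDerivAt hF hint
  rw [hc', hd'] at key
  have hg1 : IntervalIntegrable (fun r => deriv A r ^ 2 * r + κ * A r ^ 2 / r)
      MeasureTheory.volume c d := by
    apply ContinuousOn.intervalIntegrable
    apply ContinuousOn.add
    · exact ((hcA'.pow 2).mul continuous_id).continuousOn
    · apply ContinuousOn.div
      · exact (continuous_const.mul (hcA.pow 2)).continuousOn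
      · exact continuous_id.continuousOn
      · intro r hr
        exact (lt_of_lt_of_le ha (hsub hr).1).ne'
  have hg2 : IntervalIntegrable (fun r => μ * (A r ^ 2 * r)) MeasureTheory.volume c d := by
    apply Continuous.intervalIntegrable
    fun_prop
  have hcongr : ∫ r in c..d,
      ((1 * deriv A r + r * deriv (deriv A) r) * A r + r * deriv A r * deriv A r)
      = ∫ r in c..d, ((deriv A r ^ 2 * r + κ * A r ^ 2 / r) - μ * (A r ^ 2 * r)) := by
    apply intervalIntegral.integral_congr
    intro r hr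
    have hode := h4_ode ha h (hsub hr)
    have hr0 : r ≠ 0 := (lt_of_lt_of_le ha (hsub hr).1).ne'
    simp only
    have e1 : (1 * deriv A r + r * deriv (deriv A) r) * A r
        = (- μ * r * A r + κ * A r / r) * A r := by rw [hode]; ring
    rw [e1]
    field_simp
    ring
  rw [hcongr, intervalIntegral.integral_sub hg1 hg2, intervalIntegral.integral_const_mul] at key
  linarith

/-- uniqueness: a solution with a double zero in `[a, b]` vanishes on `[a, b]` -/
theorem RadialSol.unique (ha : 0 < a) (hab : a < b) (h : RadialSol a b μ κ A) {c : ℝ}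
    (hc : c ∈ Icc a b) (h0 : A c = 0) (h1 : deriv A c = 0) : ∀ r ∈ Icc a b, A r = 0 := by
  have hA := h4_hasDerivAt h
  have hA' := h4_hasDerivAt' h
  obtain ⟨K, hK⟩ : ∃ K : ℝ, K = 1 + |μ| + |κ| / a ^ 2 + 2 / a := ⟨_, rfl⟩
  have hE : ∀ r, HasDerivAt (fun r => A r ^ 2 + deriv A r ^ 2)
      (2 * A r * deriv A r + 2 * deriv A r * deriv (deriv A) r) r := by
    intro r
    have h2 : HasDerivAt (fun r => A r ^ 2 + deriv A r ^ 2) _ r :=
      ((hA r).pow 2).add ((hA' r).pow 2)
    exact h2.congr_deriv (by norm_num)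
  have hbound : ∀ r ∈ Icc a b,
      |2 * A r * deriv A r + 2 * deriv A r * deriv (deriv A) r|
        ≤ K * (A r ^ 2 + deriv A r ^ 2) := by
    intro r hr
    have hr0 : 0 < r := lt_of_lt_of_le ha hr.1
    have hode := h.ode r hr
    generalize A r = x at hode ⊢
    generalize deriv A r = y at hode ⊢
    generalize deriv (deriv A) r = z at hode ⊢
    have h2xy : |2 * x * y| ≤ x ^ 2 + y ^ 2 := by
      rw [abs_le]
      constructor <;> nlinarith [sq_nonneg (x + y), sq_nonneg (x - y)]
    have hq : |1 - μ + κ / r ^ 2| ≤ 1 + |μ| + |κ| / a ^ 2 := by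
      have hk : |κ / r ^ 2| ≤ |κ| / a ^ 2 := by
        rw [abs_div, abs_of_pos (by positivity : (0 : ℝ) < r ^ 2)]
        apply div_le_div_of_nonneg_left (abs_nonneg κ) (by positivity)
        nlinarith [hr.1]
      have hm : |1 - μ| ≤ 1 + |μ| := by
        have := abs_sub (1 : ℝ) μ
        simpa using this
      calc |1 - μ + κ / r ^ 2| ≤ |1 - μ| + |κ / r ^ 2| := abs_add_le _ _
        _ ≤ 1 + |μ| + |κ| / a ^ 2 := by linarith
    have hyr : 2 * y ^ 2 / r ≤ 2 / a * y ^ 2 := by
      rw [div_mul_eq_mul_div]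
      exact div_le_div_of_nonneg_left (by positivity) ha hr.1
    have hE' : 2 * x * y + 2 * y * z = (2 * x * y) * (1 - μ + κ / r ^ 2) - 2 * y ^ 2 / r := by
      have hz : z = -(y / r) - (μ - κ / r ^ 2) * x := by linarith
      rw [hz]
      field_simp
      ring
    rw [hE']
    have hqn : 0 ≤ 1 + |μ| + |κ| / a ^ 2 := by positivity
    have h2a : (0 : ℝ) ≤ 2 / a := by positivity
    calc |(2 * x * y) * (1 - μ + κ / r ^ 2) - 2 * y ^ 2 / r|
        ≤ |(2 * x * y) * (1 - μ + κ / r ^ 2)| + |2 * y ^ 2 / r| := abs_sub _ _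
      _ = |2 * x * y| * |1 - μ + κ / r ^ 2| + 2 * y ^ 2 / r := by
          rw [abs_mul, abs_of_nonneg (by positivity : (0 : ℝ) ≤ 2 * y ^ 2 / r)]
      _ ≤ (x ^ 2 + y ^ 2) * (1 + |μ| + |κ| / a ^ 2) + 2 / a * y ^ 2 := by
          have := mul_le_mul h2xy hq (abs_nonneg _) (by positivity)
          linarith
      _ ≤ K * (x ^ 2 + y ^ 2) := by
          rw [hK]
          nlinarith [sq_nonneg x, sq_nonneg y, mul_nonneg h2a (sq_nonneg x)]
  have hEnn : ∀ r, 0 ≤ A r ^ 2 + deriv A r ^ 2 := fun r => by positivity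
  have hEc : A c ^ 2 + deriv A c ^ 2 = 0 := by rw [h0, h1]; ring
  -- right of `c`
  have hGd : ∀ x, HasDerivAt (fun r => (A r ^ 2 + deriv A r ^ 2) * Real.exp (-K * r))
      ((2 * A x * deriv A x + 2 * deriv A x * deriv (deriv A) x) * Real.exp (-K * x)
        + (A x ^ 2 + deriv A x ^ 2) * (Real.exp (-K * x) * (-K * 1))) x := by
    intro x
    exact (hE x).mul (((hasDerivAt_id' x).const_mul (-K)).exp)
  have hHd : ∀ x, HasDerivAt (fun r => (A r ^ 2 + deriv A r ^ 2) * Real.exp (K * r))
      ((2 * A x * deriv A x + 2 * deriv A x * deriv (deriv A) x) * Real.exp (K * x)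
        + (A x ^ 2 + deriv A x ^ 2) * (Real.exp (K * x) * (K * 1))) x := by
    intro x
    exact (hE x).mul (((hasDerivAt_id' x).const_mul K).exp)
  have hG : AntitoneOn (fun r => (A r ^ 2 + deriv A r ^ 2) * Real.exp (-K * r)) (Icc c b) := by
    apply antitoneOn_of_deriv_nonpos (convex_Icc c b)
    · exact fun x _ => (hGd x).continuousAt.continuousWithinAt
    · exact fun x _ => (hGd x).differentiableAt.differentiableWithinAt
    · intro x hx
      rw [interior_Icc] at hx
      have hx' : x ∈ Icc a b := ⟨hc.1.trans hx.1.le, hx.2.le⟩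
      rw [(hGd x).deriv]
      have hb := (abs_le.mp (hbound x hx')).2
      have hexp := Real.exp_pos (-K * x)
      nlinarith
  have hH : MonotoneOn (fun r => (A r ^ 2 + deriv A r ^ 2) * Real.exp (K * r)) (Icc a c) := by
    apply monotoneOn_of_deriv_nonneg (convex_Icc a c)
    · exact fun x _ => (hHd x).continuousAt.continuousWithinAt
    · exact fun x _ => (hHd x).differentiableAt.differentiableWithinAt
    · intro x hx
      rw [interior_Icc] at hx
      have hx' : x ∈ Icc a b := ⟨hx.1.le, hx.2.le.trans hc.2⟩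
      rw [(hHd x).deriv]
      have hb := (abs_le.mp (hbound x hx')).1
      have hexp := Real.exp_pos (K * x)
      nlinarith
  intro r hr
  have hE0 : A r ^ 2 + deriv A r ^ 2 ≤ 0 := by
    rcases le_total c r with hcr | hrc
    · have := hG (left_mem_Icc.mpr hc.2) ⟨hcr, hr.2⟩ hcr
      simp only at this
      rw [hEc, zero_mul] at this
      have hexp := Real.exp_pos (-K * r)
      by_contra hpos
      have hpos' := not_le.mp hpos
      nlinarith
    · have := hH ⟨hr.1, hrc⟩ (right_mem_Icc.mpr hc.1) hrc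
      simp only at this
      rw [hEc, zero_mul] at this
      have hexp := Real.exp_pos (K * r)
      by_contra hpos
      have hpos' := not_le.mp hpos
      nlinarith
  have h3 : A r ^ 2 ≤ 0 := by nlinarith [sq_nonneg (deriv A r)]
  have h4 : A r ^ 2 = 0 := le_antisymm h3 (sq_nonneg _)
  exact pow_eq_zero_iff (by norm_num) |>.mp h4

/-- the energy identity on `[a, b]` -/
theorem RadialSol.energy (ha : 0 < a) (hab : a < b) (h : RadialSol a b μ κ A) :
    ∫ r in a..b, (deriv A r ^ 2 * r + κ * A r ^ 2 / r) = μ * ∫ r in a..b, A r ^ 2 * r :=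
  h4_energy_gen ha h (left_mem_Icc.mpr hab.le) (right_mem_Icc.mpr hab.le) hab.le h.bc.1 h.bc.2

/-- the energy identity on `[a, c]` when `A' (c) = 0`, for `κ = 0` -/
theorem RadialSol.energy_left (ha : 0 < a) (hab : a < b) (h : RadialSol a b μ 0 A) {c : ℝ}
    (hc : c ∈ Icc a b) (hc' : deriv A c = 0) :
    ∫ r in a..c, deriv A r ^ 2 * r = μ * ∫ r in a..c, A r ^ 2 * r := by
  have := h4_energy_gen ha h (left_mem_Icc.mpr hab.le) hc hc.1 h.bc.1 hc'
  simpa using this

/-- the mean over `[a, c]` vanishes when `A' (c) = 0`, for `κ = 0` -/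
theorem RadialSol.mean_left (ha : 0 < a) (hab : a < b) (hμ : μ ≠ 0) (h : RadialSol a b μ 0 A)
    {c : ℝ} (hc : c ∈ Icc a b) (hc' : deriv A c = 0) : ∫ r in a..c, A r * r = 0 := by
  have hA' := h4_hasDerivAt' h
  have hcA := h4_cont h
  have hcA' := h4_cont' h
  have hcA'' := h4_cont'' h
  have hsub : uIcc a c ⊆ Icc a b := by
    rw [uIcc_of_le hc.1]
    exact Icc_subset_Icc le_rfl hc.2
  have hF : ∀ r ∈ uIcc a c, HasDerivAt (fun r => r * deriv A r)
      (1 * deriv A r + r * deriv (deriv A) r) r := by
    intro r _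
    exact (hasDerivAt_id' r).mul (hA' r)
  have hint : IntervalIntegrable (fun r => 1 * deriv A r + r * deriv (deriv A) r)
      MeasureTheory.volume a c := by
    apply Continuous.intervalIntegrable
    fun_prop
  have key := intervalIntegral.integral_eq_sub_of_hasDerivAt hF hint
  rw [hc', h.bc.1] at key
  have hcongr : ∫ r in a..c, (1 * deriv A r + r * deriv (deriv A) r)
      = ∫ r in a..c, (-μ) * (A r * r) := by
    apply intervalIntegral.integral_congr
    intro r hr
    have hode := h4_ode ha h (hsub hr)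
    simp only
    rw [hode]
    simp
    ring
  rw [hcongr, intervalIntegral.integral_const_mul] at key
  have : μ * ∫ r in a..c, A r * r = 0 := by linarith
  rcases mul_eq_zero.mp this with h' | h'
  · exact absurd h' hμ
  · exact h'

end Vale.Agent.H60.Hot
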