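import Vale.Agent.H60.Hot.Defs

/-!
# One-dimensional consequences of the Rayleigh bound (TASK H3)

Sketch.  Apply `RayleighBound` to `v r θ = φ r * cos (ν θ)`, `ν = π / α` (it is `C^1`, its mean
vanishes because `∫_0^α cos (ν θ) dθ = 0`, `dR v r θ = deriv φ r * cos (ν θ)`,
`dT v r θ = -(φ r * ν * sin (ν θ))`, and `∫_0^α cos² (ν θ) dθ = ∫_0^α sin² (ν θ) dθ = α / 2`), and to
`v r θ = φ r` (`dT v = 0`, inner integrals are `α` times the integrand).  Pull the constants out of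
the inner integrals (`intervalIntegral.integral_const_mul`, `integral_mul_const`) and divide by
`α / 2` resp. `α`.
-/

namespace Vale.Agent.H60.Hot

open Set

theorem h3_nu_mul {α : ℝ} (hα : 0 < α) : Real.pi / α * α = Real.pi := by
  field_simp

theorem h3_int_cos {α : ℝ} (hα : 0 < α) :
    ∫ θ in (0:ℝ)..α, Real.cos (Real.pi / α * θ) = 0 := by
  have hν : Real.pi / α ≠ 0 := div_ne_zero Real.pi_ne_zero hα.ne'
  rw [intervalIntegral.integral_comp_mul_left (fun x => Real.cos x) hν]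
  simp [h3_nu_mul hα]

theorem h3_int_cos_sq {α : ℝ} (hα : 0 < α) :
    ∫ θ in (0:ℝ)..α, Real.cos (Real.pi / α * θ) ^ 2 = α / 2 := by
  have hν : Real.pi / α ≠ 0 := div_ne_zero Real.pi_ne_zero hα.ne'
  rw [intervalIntegral.integral_comp_mul_left (fun x => Real.cos x ^ 2) hν]
  rw [h3_nu_mul hα, mul_zero, integral_cos_sq]
  simp
  field_simp

theorem h3_int_sin_sq {α : ℝ} (hα : 0 < α) :
    ∫ θ in (0:ℝ)..α, Real.sin (Real.pi / α * θ) ^ 2 = α / 2 := by
  have hν : Real.pi / α ≠ 0 := div_ne_zero Real.pi_ne_zero hα.ne'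
  rw [intervalIntegral.integral_comp_mul_left (fun x => Real.sin x ^ 2) hν]
  rw [h3_nu_mul hα, mul_zero, integral_sin_sq]
  simp
  field_simp

theorem h3_dR (φ : ℝ → ℝ) (ν r θ : ℝ) :
    dR (fun r θ => φ r * Real.cos (ν * θ)) r θ = deriv φ r * Real.cos (ν * θ) := by
  unfold dR
  exact deriv_mul_const_field _

theorem h3_dT (φ : ℝ → ℝ) (ν r θ : ℝ) :
    dT (fun r θ => φ r * Real.cos (ν * θ)) r θ = -(φ r * ν * Real.sin (ν * θ)) := by
  unfold dT
  have h : HasDerivAt (fun t : ℝ => φ r * Real.cos (ν * t)) (φ r * (-Real.sin (ν * θ) * ν)) θ := by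
    have h1 : HasDerivAt (fun t : ℝ => ν * t) ν θ := by
      simpa using (hasDerivAt_id θ).const_mul ν
    exact ((Real.hasDerivAt_cos (ν * θ)).comp θ h1).const_mul (φ r)
  rw [h.deriv]; ring

/-- the Rayleigh bound for functions `φ (r) cos (π θ / α)` -/
theorem rayleigh_angular {a b α μ : ℝ} (ha : 0 < a) (hab : a < b) (hα : 0 < α)
    (hvar : RayleighBound a b α μ) (φ : ℝ → ℝ) (hφ : ContDiff ℝ 1 φ) :
    μ * ∫ r in a..b, φ r ^ 2 * r
      ≤ ∫ r in a..b, (deriv φ r ^ 2 * r + (Real.pi / α) ^ 2 * φ r ^ 2 / r) := by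
  set ν : ℝ := Real.pi / α with hν
  have hsm : ContDiff ℝ 1 (fun p : ℝ × ℝ => (fun r θ => φ r * Real.cos (ν * θ)) p.1 p.2) :=
    (hφ.comp contDiff_fst).mul (Real.contDiff_cos.comp (contDiff_const.mul contDiff_snd))
  have hmean : (∫ r in a..b, ∫ θ in (0 : ℝ)..α, (fun r θ => φ r * Real.cos (ν * θ)) r θ * r) = 0 := by
    have : ∀ r : ℝ, (∫ θ in (0 : ℝ)..α, φ r * Real.cos (ν * θ) * r) = 0 := by
      intro r
      have e : (fun θ : ℝ => φ r * Real.cos (ν * θ) * r) = fun θ => (φ r * r) * Real.cos (ν * θ) := by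
        funext θ; ring
      rw [e, intervalIntegral.integral_const_mul, h3_int_cos hα, mul_zero]
    simp only [this]
    simp
  have key := hvar (fun r θ => φ r * Real.cos (ν * θ)) hsm hmean
  have hL : (∫ r in a..b, ∫ θ in (0 : ℝ)..α, (fun r θ => φ r * Real.cos (ν * θ)) r θ ^ 2 * r)
      = (α / 2) * ∫ r in a..b, φ r ^ 2 * r := by
    rw [← intervalIntegral.integral_const_mul]
    refine intervalIntegral.integral_congr (fun r _ => ?_)
    have e : (fun θ : ℝ => (φ r * Real.cos (ν * θ)) ^ 2 * r) = fun θ => (φ r ^ 2 * r) * Real.cos (ν * θ) ^ 2 := by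
      funext θ; ring
    show (∫ θ in (0 : ℝ)..α, (φ r * Real.cos (ν * θ)) ^ 2 * r) = _
    rw [e, intervalIntegral.integral_const_mul, h3_int_cos_sq hα]; ring
  have hR : (∫ r in a..b, ∫ θ in (0 : ℝ)..α,
        (dR (fun r θ => φ r * Real.cos (ν * θ)) r θ ^ 2
          + dT (fun r θ => φ r * Real.cos (ν * θ)) r θ ^ 2 / r ^ 2) * r)
      = (α / 2) * ∫ r in a..b, (deriv φ r ^ 2 * r + ν ^ 2 * φ r ^ 2 / r) := by
    rw [← intervalIntegral.integral_const_mul]
    refine intervalIntegral.integral_congr (fun r hr => ?_)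
    have hr0 : 0 < r := by
      rw [uIcc_of_le hab.le] at hr
      exact lt_of_lt_of_le ha hr.1
    have e : (fun θ : ℝ => (dR (fun r θ => φ r * Real.cos (ν * θ)) r θ ^ 2
          + dT (fun r θ => φ r * Real.cos (ν * θ)) r θ ^ 2 / r ^ 2) * r)
        = fun θ => (deriv φ r ^ 2 * r) * Real.cos (ν * θ) ^ 2
            + (ν ^ 2 * φ r ^ 2 / r) * Real.sin (ν * θ) ^ 2 := by
      funext θ
      rw [h3_dR, h3_dT]
      field_simp
    show (∫ θ in (0 : ℝ)..α, (dR (fun r θ => φ r * Real.cos (ν * θ)) r θ ^ 2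
          + dT (fun r θ => φ r * Real.cos (ν * θ)) r θ ^ 2 / r ^ 2) * r) = _
    rw [e, intervalIntegral.integral_add, intervalIntegral.integral_const_mul,
      intervalIntegral.integral_const_mul, h3_int_cos_sq hα, h3_int_sin_sq hα]
    · ring
    · exact (Continuous.intervalIntegrable (by fun_prop) _ _)
    · exact (Continuous.intervalIntegrable (by fun_prop) _ _)
  rw [hL, hR] at key
  have hα2 : 0 < α / 2 := by positivity
  have key' : (α / 2) * (μ * ∫ r in a..b, φ r ^ 2 * r)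
      ≤ (α / 2) * ∫ r in a..b, (deriv φ r ^ 2 * r + ν ^ 2 * φ r ^ 2 / r) := by
    calc (α / 2) * (μ * ∫ r in a..b, φ r ^ 2 * r) = μ * ((α / 2) * ∫ r in a..b, φ r ^ 2 * r) := by ring
      _ ≤ _ := key
  exact le_of_mul_le_mul_left key' hα2

/-- the Rayleigh bound for radial functions of zero mean -/
theorem rayleigh_radial {a b α μ : ℝ} (ha : 0 < a) (hab : a < b) (hα : 0 < α)
    (hvar : RayleighBound a b α μ) (φ : ℝ → ℝ) (hφ : ContDiff ℝ 1 φ)
    (hmean : ∫ r in a..b, φ r * r = 0) :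
    μ * ∫ r in a..b, φ r ^ 2 * r ≤ ∫ r in a..b, deriv φ r ^ 2 * r := by
  have hsm : ContDiff ℝ 1 (fun p : ℝ × ℝ => (fun r (_ : ℝ) => φ r) p.1 p.2) :=
    hφ.comp contDiff_fst
  have hmean' : (∫ r in a..b, ∫ θ in (0 : ℝ)..α, (fun r (_ : ℝ) => φ r) r θ * r) = 0 := by
    simp only [intervalIntegral.integral_const, sub_zero, smul_eq_mul]
    rw [intervalIntegral.integral_const_mul, hmean, mul_zero]
  have key := hvar (fun r _ => φ r) hsm hmean'
  have hdR : ∀ r θ : ℝ, dR (fun r (_ : ℝ) => φ r) r θ = deriv φ r := fun r θ => rfl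
  have hdT : ∀ r θ : ℝ, dT (fun r (_ : ℝ) => φ r) r θ = 0 := by
    intro r θ; unfold dT; simp
  simp only [hdR, hdT, intervalIntegral.integral_const, sub_zero, smul_eq_mul] at key
  simp only [ne_eq, OfNat.ofNat_ne_zero, not_false_eq_true, zero_pow, zero_div, add_zero] at key
  rw [intervalIntegral.integral_const_mul, intervalIntegral.integral_const_mul] at key
  have key' : α * (μ * ∫ r in a..b, φ r ^ 2 * r) ≤ α * ∫ r in a..b, deriv φ r ^ 2 * r := by
    calc α * (μ * ∫ r in a..b, φ r ^ 2 * r) = μ * (α * ∫ r in a..b, φ r ^ 2 * r) := by ring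
      _ ≤ _ := key
  exact le_of_mul_le_mul_left key' hα

end Vale.Agent.H60.Hot
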