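import Vale.Agent.H60.Hot.Calc
import Vale.Agent.H60.Hot.Rayleigh
import Vale.Agent.H60.Hot.Ode

/-!
# The angular cosine modes of a Neumann eigenfunction of an annular sector

The `m`-th cosine mode solves the radial equation with `κ = (m π / α)²`, and the modes with
`m ≥ 2` vanish when the eigenvalue is a lower bound of the Rayleigh quotient.
-/

namespace Vale.Agent.H60.Hot

open Set MeasureTheory

theorem md_contDiff_two {g g' g'' : ℝ → ℝ} (h1 : ∀ x, HasDerivAt g (g' x) x)
    (h2 : ∀ x, HasDerivAt g' (g'' x) x) (h3 : Continuous g'') : ContDiff ℝ 2 g := by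
  have e1 : deriv g = g' := funext fun x => (h1 x).deriv
  have e2 : deriv g' = g'' := funext fun x => (h2 x).deriv
  have hg' : ContDiff ℝ 1 g' := by
    rw [contDiff_one_iff_deriv, e2]
    exact ⟨fun x => (h2 x).differentiableAt, h3⟩
  rw [← one_add_one_eq_two, contDiff_succ_iff_deriv, e1]
  exact ⟨fun x => (h1 x).differentiableAt, fun h => by simp at h, hg'⟩

theorem md_hasDerivAt_cos (k θ : ℝ) :
    HasDerivAt (fun t => Real.cos (k * t)) (-(k * Real.sin (k * θ))) θ := by
  have h := ((hasDerivAt_id θ).const_mul k).cos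
  simp only [id, mul_one] at h
  convert h using 1
  ring

theorem md_hasDerivAt_sin (k θ : ℝ) :
    HasDerivAt (fun t => Real.sin (k * t)) (k * Real.cos (k * θ)) θ := by
  have h := ((hasDerivAt_id θ).const_mul k).sin
  simp only [id, mul_one] at h
  convert h using 1
  ring

/-- a nonnegative continuous function with vanishing integral vanishes on the interval -/
theorem md_eq_zero_of_integral_zero {φ : ℝ → ℝ} (hφ : Continuous φ) (h0 : ∀ x, 0 ≤ φ x)
    {a b : ℝ} (hab : a < b) (h : ∫ x in a..b, φ x = 0) : ∀ x ∈ Icc a b, φ x = 0 := by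
  have h1 := (intervalIntegral.integral_eq_zero_iff_of_le_of_nonneg_ae hab.le
    (Filter.Eventually.of_forall h0) (hφ.intervalIntegrable _ _)).mp h
  have h1' : φ =ᵐ[volume.restrict (Icc a b)] 0 := by
    rwa [← Measure.restrict_congr_set (Ioc_ae_eq_Icc (μ := volume) (a := a) (b := b))]
  have h2 : EqOn φ (fun _ => (0:ℝ)) (Icc a b) :=
    Measure.eqOn_Icc_of_ae_eq (μ := volume) hab.ne h1' hφ.continuousOn continuousOn_const
  intro x hx
  exact h2 hx

/-- the `m`-th cosine mode of a Neumann eigenfunction solves the radial equation -/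
theorem mode_radialSol {a b α μ : ℝ} (ha : 0 < a) (hα : 0 < α) {u : ℝ → ℝ → ℝ}
    (hu : NeumannEig a b α μ u) (m : ℕ) :
    RadialSol a b μ ((m * (Real.pi / α)) ^ 2) (mode α u m) := by
  set k : ℝ := m * (Real.pi / α) with hk
  have hu1 : ContDiff ℝ 1 (fun p : ℝ × ℝ => u p.1 p.2) := hu.smooth.of_le (by norm_num)
  have hur1 : ContDiff ℝ 1 (fun p : ℝ × ℝ => dR u p.1 p.2) := contDiff_dR hu.smooth
  have hut1 : ContDiff ℝ 1 (fun p : ℝ × ℝ => dT u p.1 p.2) := contDiff_dT hu.smooth
  have cu : Continuous (fun p : ℝ × ℝ => u p.1 p.2) := hu.smooth.continuous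
  have cur : Continuous (fun p : ℝ × ℝ => dR u p.1 p.2) := continuous_dR hu1
  have curr : Continuous (fun p : ℝ × ℝ => dR (dR u) p.1 p.2) := continuous_dR hur1
  have cut : Continuous (fun p : ℝ × ℝ => dT u p.1 p.2) := continuous_dT hu1
  have cutt : Continuous (fun p : ℝ × ℝ => dT (dT u) p.1 p.2) := continuous_dT hut1
  have ccos : Continuous (fun p : ℝ × ℝ => Real.cos (k * p.2)) := by fun_prop
  have ccos1 : Continuous (fun θ : ℝ => Real.cos (k * θ)) := by fun_prop
  have csin1 : Continuous (fun θ : ℝ => Real.sin (k * θ)) := by fun_prop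
  let Γ' : ℝ → ℝ := fun r => ∫ θ in (0:ℝ)..α, dR u r θ * Real.cos (k * θ)
  let Γ'' : ℝ → ℝ := fun r => ∫ θ in (0:ℝ)..α, dR (dR u) r θ * Real.cos (k * θ)
  have h1 : ∀ r, HasDerivAt (mode α u m) (Γ' r) r := fun r =>
    hasDerivAt_param_integral (Ψ := fun r θ => u r θ * Real.cos (k * θ))
      (Ψ' := fun r θ => dR u r θ * Real.cos (k * θ)) (cu.mul ccos) (cur.mul ccos)
      (fun r θ => (hasDerivAt_dR hu1 r θ).mul_const _) 0 α r
  have h2 : ∀ r, HasDerivAt Γ' (Γ'' r) r := fun r =>
    hasDerivAt_param_integral (Ψ := fun r θ => dR u r θ * Real.cos (k * θ))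
      (Ψ' := fun r θ => dR (dR u) r θ * Real.cos (k * θ)) (cur.mul ccos) (curr.mul ccos)
      (fun r θ => (hasDerivAt_dR hur1 r θ).mul_const _) 0 α r
  have h3 : Continuous Γ'' :=
    continuous_param_integral (Ψ := fun r θ => dR (dR u) r θ * Real.cos (k * θ))
      (curr.mul ccos) 0 α
  have e1 : deriv (mode α u m) = Γ' := funext fun x => (h1 x).deriv
  have e2 : deriv Γ' = Γ'' := funext fun x => (h2 x).deriv
  refine ⟨md_contDiff_two h1 h2 h3, ?_, ?_⟩
  · intro r hr
    have hr0 : 0 < r := lt_of_lt_of_le ha hr.1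
    rw [e1, e2]
    have s0 : Continuous fun θ => u r θ := cu.comp (continuous_const.prodMk continuous_id)
    have s1 : Continuous fun θ => dR u r θ := cur.comp (continuous_const.prodMk continuous_id)
    have s2 : Continuous fun θ => dR (dR u) r θ :=
      curr.comp (continuous_const.prodMk continuous_id)
    have t1 : Continuous fun θ => dT u r θ := cut.comp (continuous_const.prodMk continuous_id)
    have t2 : Continuous fun θ => dT (dT u) r θ :=
      cutt.comp (continuous_const.prodMk continuous_id)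
    -- integration by parts in θ
    have A1 := intervalIntegral.integral_mul_deriv_eq_deriv_mul (a := 0) (b := α)
      (u := fun θ => Real.cos (k * θ)) (v := fun θ => dT u r θ)
      (u' := fun θ => -(k * Real.sin (k * θ))) (v' := fun θ => dT (dT u) r θ)
      (fun θ _ => md_hasDerivAt_cos k θ)
      (fun θ _ => hasDerivAt_dT hut1 r θ)
      ((continuous_const.mul csin1).neg.intervalIntegrable 0 α)
      (t2.intervalIntegrable 0 α)
    have A2 := intervalIntegral.integral_mul_deriv_eq_deriv_mul (a := 0) (b := α)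
      (u := fun θ => Real.sin (k * θ)) (v := fun θ => u r θ)
      (u' := fun θ => k * Real.cos (k * θ)) (v' := fun θ => dT u r θ)
      (fun θ _ => md_hasDerivAt_sin k θ)
      (fun θ _ => hasDerivAt_dT hu1 r θ)
      ((continuous_const.mul ccos1).intervalIntegrable 0 α)
      (t1.intervalIntegrable 0 α)
    have hsin : Real.sin (k * α) = 0 := by
      have : k * α = m * Real.pi := by
        rw [hk]
        field_simp
      rw [this]
      exact Real.sin_nat_mul_pi m
    have b0 := (hu.bc_t r hr).1
    have bα := (hu.bc_t r hr).2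
    have I1 : ∫ θ in (0:ℝ)..α, dT (dT u) r θ * Real.cos (k * θ)
        = -k ^ 2 * mode α u m r := by
      have e3 : ∫ θ in (0:ℝ)..α, dT (dT u) r θ * Real.cos (k * θ)
          = ∫ θ in (0:ℝ)..α, Real.cos (k * θ) * dT (dT u) r θ :=
        intervalIntegral.integral_congr (fun t _ => mul_comm _ _)
      have e4 : ∫ θ in (0:ℝ)..α, -(k * Real.sin (k * θ)) * dT u r θ
          = -k * ∫ θ in (0:ℝ)..α, Real.sin (k * θ) * dT u r θ := by
        rw [← intervalIntegral.integral_const_mul]
        exact intervalIntegral.integral_congr (fun t _ => by ring)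
      have e5 : ∫ θ in (0:ℝ)..α, k * Real.cos (k * θ) * u r θ = k * mode α u m r := by
        rw [mode, ← intervalIntegral.integral_const_mul]
        exact intervalIntegral.integral_congr (fun t _ => by ring)
      rw [e3, A1, e4, A2, e5]
      simp only [b0, bα, hsin, mul_zero, Real.sin_zero]
      ring
    have e6 : ∫ θ in (0:ℝ)..α, (dR (dR u) r θ * Real.cos (k * θ)
        + (1 / r) * (dR u r θ * Real.cos (k * θ)) + μ * (u r θ * Real.cos (k * θ)))
        = Γ'' r + (1 / r) * Γ' r + μ * mode α u m r := by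
      rw [intervalIntegral.integral_add, intervalIntegral.integral_add,
        intervalIntegral.integral_const_mul, intervalIntegral.integral_const_mul]
      · rfl
      · exact (s2.mul ccos1).intervalIntegrable 0 α
      · exact (continuous_const.mul (s1.mul ccos1)).intervalIntegrable 0 α
      · exact ((s2.mul ccos1).add (continuous_const.mul (s1.mul ccos1))).intervalIntegrable 0 α
      · exact (continuous_const.mul (s0.mul ccos1)).intervalIntegrable 0 α
    have e7 : ∫ θ in (0:ℝ)..α, (dR (dR u) r θ * Real.cos (k * θ)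
        + (1 / r) * (dR u r θ * Real.cos (k * θ)) + μ * (u r θ * Real.cos (k * θ)))
        = -(1 / r ^ 2) * ∫ θ in (0:ℝ)..α, dT (dT u) r θ * Real.cos (k * θ) := by
      rw [← intervalIntegral.integral_const_mul]
      apply intervalIntegral.integral_congr
      intro θ hθ
      rw [uIcc_of_le hα.le] at hθ
      have := hu.pde r hr θ hθ
      simp only
      have hr' : r ≠ 0 := hr0.ne'
      field_simp
      field_simp at this
      linear_combination (Real.cos (k * θ)) * this
    rw [e6, I1] at e7
    have hr' : r ≠ 0 := hr0.ne'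
    field_simp
    field_simp at e7
    linear_combination e7
  · rw [e1]
    constructor
    · show ∫ θ in (0:ℝ)..α, dR u a θ * Real.cos (k * θ) = 0
      have : ∫ θ in (0:ℝ)..α, dR u a θ * Real.cos (k * θ) = ∫ θ in (0:ℝ)..α, (0:ℝ) := by
        apply intervalIntegral.integral_congr
        intro θ hθ
        rw [uIcc_of_le hα.le] at hθ
        simp [(hu.bc_r θ hθ).1]
      rw [this]
      simp
    · show ∫ θ in (0:ℝ)..α, dR u b θ * Real.cos (k * θ) = 0
      have : ∫ θ in (0:ℝ)..α, dR u b θ * Real.cos (k * θ) = ∫ θ in (0:ℝ)..α, (0:ℝ) := by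
        apply intervalIntegral.integral_congr
        intro θ hθ
        rw [uIcc_of_le hα.le] at hθ
        simp [(hu.bc_r θ hθ).2]
      rw [this]
      simp

/-- the cosine modes of order `m ≥ 2` of a first Neumann eigenfunction vanish -/
theorem mode_eq_zero {a b α μ : ℝ} (ha : 0 < a) (hab : a < b) (hα : 0 < α) {u : ℝ → ℝ → ℝ}
    (hu : NeumannEig a b α μ u) (hvar : RayleighBound a b α μ) {m : ℕ} (hm : 2 ≤ m) :
    ∀ r ∈ Icc a b, mode α u m r = 0 := by
  have hA := mode_radialSol ha hα hu m
  set A := mode α u m with hAdef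
  set ν := Real.pi / α with hν
  have hν0 : 0 < ν := div_pos Real.pi_pos hα
  have hb : 0 < b := ha.trans hab
  have hen := hA.energy ha hab
  have hray := rayleigh_angular ha hab hα hvar A (hA.smooth.of_le (by norm_num))
  have hcA : Continuous A := hA.smooth.continuous
  have hdA : Continuous (deriv A) := hA.smooth.continuous_deriv (by norm_num)
  have hc : ∀ K : ℝ, ContinuousOn (fun r => deriv A r ^ 2 * r + K * A r ^ 2 / r) (Icc a b) := by
    intro K
    apply ContinuousOn.add
    · exact ((hdA.pow 2).mul continuous_id).continuousOn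
    · apply ContinuousOn.div
      · exact (continuous_const.mul (hcA.pow 2)).continuousOn
      · exact continuous_id.continuousOn
      · intro x hx
        exact (lt_of_lt_of_le ha hx.1).ne'
  have hi : ∀ K : ℝ, IntervalIntegrable (fun r => deriv A r ^ 2 * r + K * A r ^ 2 / r)
      volume a b := fun K => (hc K).intervalIntegrable_of_Icc hab.le
  have hle : ∫ r in a..b, (deriv A r ^ 2 * r + (m * ν) ^ 2 * A r ^ 2 / r)
      ≤ ∫ r in a..b, (deriv A r ^ 2 * r + ν ^ 2 * A r ^ 2 / r) := by
    rw [hen]
    exact hray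
  have hm1 : (2:ℝ) ≤ m := by exact_mod_cast hm
  set c : ℝ := ((m * ν) ^ 2 - ν ^ 2) / b with hcdef
  have hnum : 0 < (m * ν) ^ 2 - ν ^ 2 := by
    have : (m * ν) ^ 2 - ν ^ 2 = (m ^ 2 - 1) * ν ^ 2 := by ring
    rw [this]
    have : (0:ℝ) < m ^ 2 - 1 := by nlinarith
    positivity
  have hc0 : 0 < c := div_pos hnum hb
  have hcA2 : Continuous fun r => c * A r ^ 2 := continuous_const.mul (hcA.pow 2)
  have h1 : ∫ r in a..b, c * A r ^ 2
      ≤ ∫ r in a..b, ((deriv A r ^ 2 * r + (m * ν) ^ 2 * A r ^ 2 / r)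
        - (deriv A r ^ 2 * r + ν ^ 2 * A r ^ 2 / r)) := by
    apply intervalIntegral.integral_mono_on hab.le (hcA2.intervalIntegrable a b)
      ((hi _).sub (hi _))
    intro x hx
    have hx0 : 0 < x := lt_of_lt_of_le ha hx.1
    have e : (deriv A x ^ 2 * x + (m * ν) ^ 2 * A x ^ 2 / x)
        - (deriv A x ^ 2 * x + ν ^ 2 * A x ^ 2 / x) = ((m * ν) ^ 2 - ν ^ 2) * A x ^ 2 / x := by
      field_simp
      ring
    rw [e, hcdef]
    have e' : ((m * ν) ^ 2 - ν ^ 2) / b * A x ^ 2 = ((m * ν) ^ 2 - ν ^ 2) * A x ^ 2 / b := by ring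
    rw [e']
    exact div_le_div_of_nonneg_left (mul_nonneg hnum.le (sq_nonneg _)) hx0 hx.2
  rw [intervalIntegral.integral_sub (hi _) (hi _)] at h1
  have h2 : ∫ r in a..b, c * A r ^ 2 = 0 :=
    le_antisymm (by linarith)
      (intervalIntegral.integral_nonneg hab.le (fun x _ => mul_nonneg hc0.le (sq_nonneg _)))
  intro r hr
  have h3 := md_eq_zero_of_integral_zero hcA2 (fun x => mul_nonneg hc0.le (sq_nonneg _)) hab h2
    r hr
  rcases mul_eq_zero.mp h3 with h | h
  · exact absurd h hc0.ne'
  · exact pow_eq_zero_iff two_ne_zero |>.mp h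

end Vale.Agent.H60.Hot
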