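import Vale.Agent.H60.Hot.Radial0

/-!
# The radial equation on `(0, b]` with a singular end point (TASK S3)

`A` is `C^2` on `(0, ∞)`, solves `A'' + A'/r + (μ - κ/r²) A = 0` on `(0, b]`, `A' (b) = 0`, `A` is
bounded on `(0, b]` and `∫_ε^b (A'² r + κ A²/r) ≤ E₀` for all `ε` (finite energy).

Sketch.  Uniqueness: as in `Ode.lean` (helper36) on `[ε, b]` for `ε < c`
(`E = A² + A'²`, `|E'| ≤ K E`).  Identity on `[ε, c]` for `c ∈ (0, b]` with `A' (c) = 0`
(integrate `(r A')' A = -(μ r - κ/r) A²` by parts):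
`∫_ε^c (A'² r + κ A²/r) = μ ∫_ε^c A² r - ε A' (ε) A (ε)`.  Key fact (finite energy, `κ ≥ 0`): for
every `δ > 0` and `ε₀ > 0` there is `ε ∈ (0, ε₀)` with `|ε A' (ε)| < δ`; otherwise
`A'² r ≥ δ² / r` on `(0, ε₀)` and `∫_ε^{ε₀} A'² r ≥ δ² log (ε₀ / ε)` is unbounded.  Since the
integrand is nonnegative, `∫_ε^c ≤ ∫_{ε'}^c` for `ε' ≤ ε`; choose `ε'` by the key fact, use
`|A| ≤ M` and `∫_{ε'}^c A² r ≤ ∫_0^c A² r`, and let `δ → 0`.  For `mean_left`:
`-ε A' (ε) = -μ ∫_ε^c A r` (integrate `(r A')' = -μ r A`), `|∫_0^ε A r| ≤ M ε² / 2`, and the key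
fact.  (`A² r` and `A r` are interval integrable on `[0, c]`: bounded, continuous on `(0, c]`.)
-/

namespace Vale.Agent.H60.Hot

open Set

variable {b μ κ : ℝ} {A : ℝ → ℝ}

lemma s3_hasDerivAt (h : RadialSol0 b μ κ A) {r : ℝ} (hr : 0 < r) :
    HasDerivAt A (deriv A r) r :=
  ((h.smooth.contDiffAt (Ioi_mem_nhds hr)).differentiableAt (by norm_num)).hasDerivAt

lemma s3_smooth' (h : RadialSol0 b μ κ A) : ContDiffOn ℝ 1 (deriv A) (Ioi 0) :=
  h.smooth.deriv_of_isOpen isOpen_Ioi (by norm_num)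

lemma s3_hasDerivAt' (h : RadialSol0 b μ κ A) {r : ℝ} (hr : 0 < r) :
    HasDerivAt (deriv A) (deriv (deriv A) r) r :=
  (((s3_smooth' h).contDiffAt (Ioi_mem_nhds hr)).differentiableAt (by norm_num)).hasDerivAt

lemma s3_cont (h : RadialSol0 b μ κ A) : ContinuousOn A (Ioi 0) := h.smooth.continuousOn

lemma s3_cont' (h : RadialSol0 b μ κ A) : ContinuousOn (deriv A) (Ioi 0) :=
  (s3_smooth' h).continuousOn

lemma s3_cont'' (h : RadialSol0 b μ κ A) : ContinuousOn (deriv (deriv A)) (Ioi 0) :=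
  ((s3_smooth' h).deriv_of_isOpen (m := 0) isOpen_Ioi (by norm_num)).continuousOn

/-- uniqueness on `[a, b]` for `0 < a` -/
lemma s3_unique_aux (h : RadialSol0 b μ κ A) {a c : ℝ} (ha : 0 < a) (hc : c ∈ Icc a b)
    (h0 : A c = 0) (h1 : deriv A c = 0) : ∀ r ∈ Icc a b, A r = 0 := by
  have hA := fun {r : ℝ} (hr : 0 < r) => s3_hasDerivAt h hr
  have hA' := fun {r : ℝ} (hr : 0 < r) => s3_hasDerivAt' h hr
  obtain ⟨K, hK⟩ : ∃ K : ℝ, K = 1 + |μ| + |κ| / a ^ 2 + 2 / a := ⟨_, rfl⟩
  have hE : ∀ r, 0 < r → HasDerivAt (fun r => A r ^ 2 + deriv A r ^ 2)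
      (2 * A r * deriv A r + 2 * deriv A r * deriv (deriv A) r) r := by
    intro r hr
    have h2 : HasDerivAt (fun r => A r ^ 2 + deriv A r ^ 2) _ r :=
      ((hA hr).pow 2).add ((hA' hr).pow 2)
    exact h2.congr_deriv (by norm_num)
  have hbound : ∀ r ∈ Icc a b,
      |2 * A r * deriv A r + 2 * deriv A r * deriv (deriv A) r|
        ≤ K * (A r ^ 2 + deriv A r ^ 2) := by
    intro r hr
    have hr0 : 0 < r := lt_of_lt_of_le ha hr.1
    have hode := h.ode r ⟨hr0, hr.2⟩
    generalize A r = x at hode ⊢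
    generalize deriv A r = y at hode ⊢
    generalize deriv (deriv A) r = z at hode ⊢
    have h2xy : |2 * x * y| ≤ x ^ 2 + y ^ 2 := by
      rw [abs_le]
      constructor <;> nlinarith [sq_nonneg (x + y), sq_nonneg (x - y)]
    have hq : |1 - μ + κ / r ^ 2| ≤ 1 + |μ| + |κ| / a ^ 2 := by
      have hk : |κ / r ^ 2| ≤ |κ| / a ^ 2 := by
        rw [abs_div, abs_of_pos (by positivity : (0 : ℝ) < r ^ 2)]
        apply div_le_div_of_nonneg_left (abs_nonneg κ) (by positivity)
        nlinarith [hr.1]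
      have hm : |1 - μ| ≤ 1 + |μ| := by
        have := abs_sub (1 : ℝ) μ
        simpa using this
      calc |1 - μ + κ / r ^ 2| ≤ |1 - μ| + |κ / r ^ 2| := abs_add_le _ _
        _ ≤ 1 + |μ| + |κ| / a ^ 2 := by linarith
    have hyr : 2 * y ^ 2 / r ≤ 2 / a * y ^ 2 := by
      rw [div_mul_eq_mul_div]
      exact div_le_div_of_nonneg_left (by positivity) ha hr.1
    have hE' : 2 * x * y + 2 * y * z = (2 * x * y) * (1 - μ + κ / r ^ 2) - 2 * y ^ 2 / r := by
      have hz : z = -(y / r) - (μ - κ / r ^ 2) * x := by linarith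
      rw [hz]
      field_simp
      ring
    rw [hE']
    have hqn : 0 ≤ 1 + |μ| + |κ| / a ^ 2 := by positivity
    have h2a : (0 : ℝ) ≤ 2 / a := by positivity
    calc |(2 * x * y) * (1 - μ + κ / r ^ 2) - 2 * y ^ 2 / r|
        ≤ |(2 * x * y) * (1 - μ + κ / r ^ 2)| + |2 * y ^ 2 / r| := abs_sub _ _
      _ = |2 * x * y| * |1 - μ + κ / r ^ 2| + 2 * y ^ 2 / r := by
          rw [abs_mul, abs_of_nonneg (by positivity : (0 : ℝ) ≤ 2 * y ^ 2 / r)]
      _ ≤ (x ^ 2 + y ^ 2) * (1 + |μ| + |κ| / a ^ 2) + 2 / a * y ^ 2 := by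
          have := mul_le_mul h2xy hq (abs_nonneg _) (by positivity)
          linarith
      _ ≤ K * (x ^ 2 + y ^ 2) := by
          rw [hK]
          nlinarith [sq_nonneg x, sq_nonneg y, mul_nonneg h2a (sq_nonneg x)]
  have hEc : A c ^ 2 + deriv A c ^ 2 = 0 := by rw [h0, h1]; ring
  have hc0 : 0 < c := lt_of_lt_of_le ha hc.1
  -- right of `c`
  have hGd : ∀ x, 0 < x → HasDerivAt (fun r => (A r ^ 2 + deriv A r ^ 2) * Real.exp (-K * r))
      ((2 * A x * deriv A x + 2 * deriv A x * deriv (deriv A) x) * Real.exp (-K * x)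
        + (A x ^ 2 + deriv A x ^ 2) * (Real.exp (-K * x) * (-K * 1))) x := by
    intro x hx
    exact (hE x hx).mul (((hasDerivAt_id' x).const_mul (-K)).exp)
  have hHd : ∀ x, 0 < x → HasDerivAt (fun r => (A r ^ 2 + deriv A r ^ 2) * Real.exp (K * r))
      ((2 * A x * deriv A x + 2 * deriv A x * deriv (deriv A) x) * Real.exp (K * x)
        + (A x ^ 2 + deriv A x ^ 2) * (Real.exp (K * x) * (K * 1))) x := by
    intro x hx
    exact (hE x hx).mul (((hasDerivAt_id' x).const_mul K).exp)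
  have hG : AntitoneOn (fun r => (A r ^ 2 + deriv A r ^ 2) * Real.exp (-K * r)) (Icc c b) := by
    apply antitoneOn_of_deriv_nonpos (convex_Icc c b)
    · exact fun x hx => (hGd x (lt_of_lt_of_le hc0 hx.1)).continuousAt.continuousWithinAt
    · intro x hx
      have hx2 := interior_subset hx
      exact (hGd x (lt_of_lt_of_le hc0 hx2.1)).differentiableAt.differentiableWithinAt
    · intro x hx
      rw [interior_Icc] at hx
      have hx' : x ∈ Icc a b := ⟨hc.1.trans hx.1.le, hx.2.le⟩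
      rw [(hGd x (lt_of_lt_of_le ha hx'.1)).deriv]
      have hb := (abs_le.mp (hbound x hx')).2
      have hexp := Real.exp_pos (-K * x)
      nlinarith
  have hH : MonotoneOn (fun r => (A r ^ 2 + deriv A r ^ 2) * Real.exp (K * r)) (Icc a c) := by
    apply monotoneOn_of_deriv_nonneg (convex_Icc a c)
    · exact fun x hx => (hHd x (lt_of_lt_of_le ha hx.1)).continuousAt.continuousWithinAt
    · intro x hx
      have hx2 := interior_subset hx
      exact (hHd x (lt_of_lt_of_le ha hx2.1)).differentiableAt.differentiableWithinAt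
    · intro x hx
      rw [interior_Icc] at hx
      have hx' : x ∈ Icc a b := ⟨hx.1.le, hx.2.le.trans hc.2⟩
      rw [(hHd x (lt_of_lt_of_le ha hx'.1)).deriv]
      have hb := (abs_le.mp (hbound x hx')).1
      have hexp := Real.exp_pos (K * x)
      nlinarith
  intro r hr
  have hE0 : A r ^ 2 + deriv A r ^ 2 ≤ 0 := by
    rcases le_total c r with hcr | hrc
    · have := hG (left_mem_Icc.mpr hc.2) ⟨hcr, hr.2⟩ hcr
      simp only at this
      rw [hEc, zero_mul] at this
      have hexp := Real.exp_pos (-K * r)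
      by_contra hpos
      have hpos' := not_le.mp hpos
      nlinarith
    · have := hH ⟨hr.1, hrc⟩ (right_mem_Icc.mpr hc.1) hrc
      simp only at this
      rw [hEc, zero_mul] at this
      have hexp := Real.exp_pos (K * r)
      by_contra hpos
      have hpos' := not_le.mp hpos
      nlinarith
  have h3 : A r ^ 2 ≤ 0 := by nlinarith [sq_nonneg (deriv A r)]
  have h4 : A r ^ 2 = 0 := le_antisymm h3 (sq_nonneg _)
  exact pow_eq_zero_iff (by norm_num) |>.mp h4

/-- uniqueness: a solution with a double zero in `(0, b]` vanishes on `(0, b]` -/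
theorem RadialSol0.unique (hb : 0 < b) (h : RadialSol0 b μ κ A) {c : ℝ}
    (hc : c ∈ Ioc (0 : ℝ) b) (h0 : A c = 0) (h1 : deriv A c = 0) :
    ∀ r ∈ Ioc (0 : ℝ) b, A r = 0 := by
  intro r hr
  have ha : 0 < min r c := lt_min hr.1 hc.1
  exact s3_unique_aux h ha ⟨min_le_right _ _, hc.2⟩ h0 h1 r ⟨min_le_left _ _, hr.2⟩

/-- the radial equation solved for `r A''` -/
lemma s3_ode (h : RadialSol0 b μ κ A) {r : ℝ} (hr : r ∈ Ioc (0 : ℝ) b) :
    r * deriv (deriv A) r = -(deriv A r) - μ * r * A r + κ * A r / r := by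
  have hr0 : r ≠ 0 := hr.1.ne'
  have hode := h.ode r hr
  have hz : deriv (deriv A) r = -(deriv A r / r) - (μ - κ / r ^ 2) * A r := by linarith
  rw [hz]
  field_simp
  ring

lemma s3_uIcc_pos {e c : ℝ} (he : 0 < e) (hc : 0 < c) : uIcc e c ⊆ Ioi (0 : ℝ) := by
  intro x hx
  rcases le_total e c with hec | hce
  · rw [uIcc_of_le hec] at hx
    exact lt_of_lt_of_le he hx.1
  · rw [uIcc_of_ge hce] at hx
    exact lt_of_lt_of_le hc hx.1

/-- the energy integrand is interval integrable away from `0` -/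
lemma s3_intG (h : RadialSol0 b μ κ A) {e c : ℝ} (he : 0 < e) (hc : 0 < c) :
    IntervalIntegrable (fun r => deriv A r ^ 2 * r + κ * A r ^ 2 / r)
      MeasureTheory.volume e c := by
  have hsub := s3_uIcc_pos he hc
  apply ContinuousOn.intervalIntegrable
  apply ContinuousOn.add
  · exact (((s3_cont' h).mono hsub).pow 2).mul continuousOn_id
  · apply ContinuousOn.div
    · exact continuousOn_const.mul (((s3_cont h).mono hsub).pow 2)
    · exact continuousOn_id
    · intro r hr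
      exact (hsub hr).ne'

lemma s3_intA2 (h : RadialSol0 b μ κ A) {e c : ℝ} (he : 0 < e) (hc : 0 < c) :
    IntervalIntegrable (fun r => A r ^ 2 * r) MeasureTheory.volume e c := by
  have hsub := s3_uIcc_pos he hc
  apply ContinuousOn.intervalIntegrable
  exact (((s3_cont h).mono hsub).pow 2).mul continuousOn_id

lemma s3_intA1 (h : RadialSol0 b μ κ A) {e c : ℝ} (he : 0 < e) (hc : 0 < c) :
    IntervalIntegrable (fun r => A r * r) MeasureTheory.volume e c := by
  have hsub := s3_uIcc_pos he hc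
  apply ContinuousOn.intervalIntegrable
  exact ((s3_cont h).mono hsub).mul continuousOn_id

/-- `A² r` is interval integrable on `[0, c]` -/
lemma s3_intA2_zero (h : RadialSol0 b μ κ A) {c : ℝ} (hc : c ∈ Ioc (0 : ℝ) b) :
    IntervalIntegrable (fun r => A r ^ 2 * r) MeasureTheory.volume 0 c := by
  obtain ⟨M, hM⟩ := h.bdd
  rw [intervalIntegrable_iff_integrableOn_Ioc_of_le hc.1.le]
  have hsub : Ioc (0 : ℝ) c ⊆ Ioi 0 := fun x hx => hx.1
  have hcts : ContinuousOn (fun r => A r ^ 2 * r) (Ioc (0 : ℝ) c) :=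
    (((s3_cont h).mono hsub).pow 2).mul continuousOn_id
  refine MeasureTheory.IntegrableOn.of_bound measure_Ioc_lt_top
    (hcts.aestronglyMeasurable measurableSet_Ioc) (M ^ 2 * c) ?_
  · rw [MeasureTheory.ae_restrict_iff' measurableSet_Ioc]
    refine Filter.Eventually.of_forall (fun x hx => ?_)
    have h1 : |A x| ≤ M := hM x ⟨hx.1, hx.2.trans hc.2⟩
    have h2 : A x ^ 2 ≤ M ^ 2 := by
      have := abs_nonneg (A x)
      nlinarith [sq_abs (A x)]
    rw [Real.norm_eq_abs, abs_of_nonneg (mul_nonneg (sq_nonneg _) hx.1.le)]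
    exact mul_le_mul h2 hx.2 hx.1.le (sq_nonneg M)

/-- `A r` is interval integrable on `[0, c]` -/
lemma s3_intA1_zero (h : RadialSol0 b μ κ A) {c : ℝ} (hc : c ∈ Ioc (0 : ℝ) b) :
    IntervalIntegrable (fun r => A r * r) MeasureTheory.volume 0 c := by
  obtain ⟨M, hM⟩ := h.bdd
  rw [intervalIntegrable_iff_integrableOn_Ioc_of_le hc.1.le]
  have hsub : Ioc (0 : ℝ) c ⊆ Ioi 0 := fun x hx => hx.1
  have hcts : ContinuousOn (fun r => A r * r) (Ioc (0 : ℝ) c) :=
    ((s3_cont h).mono hsub).mul continuousOn_id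
  refine MeasureTheory.IntegrableOn.of_bound measure_Ioc_lt_top
    (hcts.aestronglyMeasurable measurableSet_Ioc) (M * c) ?_
  · rw [MeasureTheory.ae_restrict_iff' measurableSet_Ioc]
    refine Filter.Eventually.of_forall (fun x hx => ?_)
    have h1 : |A x| ≤ M := hM x ⟨hx.1, hx.2.trans hc.2⟩
    rw [Real.norm_eq_abs, abs_mul, abs_of_pos hx.1]
    exact mul_le_mul h1 hx.2 hx.1.le ((abs_nonneg _).trans h1)

/-- the energy identity on `[e, c]` with its boundary term at `e` -/
lemma s3_identity (h : RadialSol0 b μ κ A) {e c : ℝ} (he : 0 < e) (hec : e ≤ c) (hcb : c ≤ b)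
    (hc' : deriv A c = 0) :
    ∫ r in e..c, (deriv A r ^ 2 * r + κ * A r ^ 2 / r)
      = μ * (∫ r in e..c, A r ^ 2 * r) - e * deriv A e * A e := by
  have hc0 : 0 < c := lt_of_lt_of_le he hec
  have hsub := s3_uIcc_pos he hc0
  have hsub2 : uIcc e c ⊆ Ioc (0 : ℝ) b := by
    intro x hx
    refine ⟨hsub hx, ?_⟩
    rw [uIcc_of_le hec] at hx
    exact hx.2.trans hcb
  have hcA := (s3_cont h).mono hsub
  have hcA' := (s3_cont' h).mono hsub
  have hcA'' := (s3_cont'' h).mono hsub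
  have hF : ∀ r ∈ uIcc e c, HasDerivAt (fun r => r * deriv A r * A r)
      ((1 * deriv A r + r * deriv (deriv A) r) * A r + r * deriv A r * deriv A r) r := by
    intro r hr
    exact ((hasDerivAt_id' r).mul (s3_hasDerivAt' h (hsub hr))).mul (s3_hasDerivAt h (hsub hr))
  have hint : IntervalIntegrable
      (fun r => (1 * deriv A r + r * deriv (deriv A) r) * A r + r * deriv A r * deriv A r)
      MeasureTheory.volume e c := by
    apply ContinuousOn.intervalIntegrable
    exact (((continuousOn_const.mul hcA').add (continuousOn_id.mul hcA'')).mul hcA).add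
      ((continuousOn_id.mul hcA').mul hcA')
  have key := intervalIntegral.integral_eq_sub_of_hasDerivAt hF hint
  rw [hc'] at key
  have hg1 := s3_intG (κ := κ) h he hc0
  have hg2 : IntervalIntegrable (fun r => μ * (A r ^ 2 * r)) MeasureTheory.volume e c :=
    (s3_intA2 h he hc0).const_mul μ
  have hcongr : ∫ r in e..c,
      ((1 * deriv A r + r * deriv (deriv A) r) * A r + r * deriv A r * deriv A r)
      = ∫ r in e..c, ((deriv A r ^ 2 * r + κ * A r ^ 2 / r) - μ * (A r ^ 2 * r)) := by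
    apply intervalIntegral.integral_congr
    intro r hr
    have hode := s3_ode h (hsub2 hr)
    have hr0 : r ≠ 0 := (hsub hr).ne'
    simp only
    have e1 : (1 * deriv A r + r * deriv (deriv A) r) * A r
        = (- μ * r * A r + κ * A r / r) * A r := by rw [hode]; ring
    rw [e1]
    field_simp
    ring
  rw [hcongr, intervalIntegral.integral_sub hg1 hg2, intervalIntegral.integral_const_mul] at key
  linarith

/-- the key fact: finite energy forces `ε A' (ε)` to be small along a sequence `ε → 0` -/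
lemma s3_key (hκ : 0 ≤ κ) (h : RadialSol0 b μ κ A) {δ e0 : ℝ} (hδ : 0 < δ) (he0 : 0 < e0)
    (he0b : e0 ≤ b) : ∃ e ∈ Ioo (0 : ℝ) e0, |e * deriv A e| < δ := by
  by_contra hcon
  have hall : ∀ e ∈ Ioo (0 : ℝ) e0, δ ≤ |e * deriv A e| := by
    intro e he
    by_contra hlt
    exact hcon ⟨e, he, not_le.mp hlt⟩
  obtain ⟨E0, hE0⟩ := h.energy
  obtain ⟨e1, he1⟩ : ∃ e1 : ℝ, e1 = e0 / 2 := ⟨_, rfl⟩
  have he1pos : 0 < e1 := by rw [he1]; positivity
  have he1lt : e1 < e0 := by rw [he1]; linarith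
  obtain ⟨L, hL⟩ : ∃ L : ℝ, L = (|E0| + 1) / δ ^ 2 := ⟨_, rfl⟩
  have hLpos : 0 < L := by rw [hL]; positivity
  obtain ⟨e, hedef⟩ : ∃ e : ℝ, e = e1 * Real.exp (-L) := ⟨_, rfl⟩
  have hepos : 0 < e := by rw [hedef]; positivity
  have hexp1 : Real.exp (-L) < 1 := by
    rw [Real.exp_lt_one_iff]; linarith
  have hee1 : e < e1 := by
    rw [hedef]
    calc e1 * Real.exp (-L) < e1 * 1 := mul_lt_mul_of_pos_left hexp1 he1pos
      _ = e1 := mul_one e1
  have heb : e ∈ Ioo (0 : ℝ) b := ⟨hepos, by linarith⟩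
  have hb0 : 0 < b := lt_of_lt_of_le he0 he0b
  -- the integral of `δ² / r`
  have hlog : ∫ r in e..e1, δ ^ 2 * r⁻¹ = |E0| + 1 := by
    rw [intervalIntegral.integral_const_mul, integral_inv_of_pos hepos he1pos]
    have : e1 / e = Real.exp L := by
      rw [hedef, Real.exp_neg]
      field_simp
    rw [this, Real.log_exp, hL]
    field_simp
  have hi1 : IntervalIntegrable (fun r : ℝ => δ ^ 2 * r⁻¹) MeasureTheory.volume e e1 := by
    apply ContinuousOn.intervalIntegrable
    apply ContinuousOn.mul continuousOn_const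
    apply ContinuousOn.inv₀ continuousOn_id
    intro r hr
    exact (s3_uIcc_pos hepos he1pos hr).ne'
  have hmono : ∫ r in e..e1, δ ^ 2 * r⁻¹
      ≤ ∫ r in e..e1, (deriv A r ^ 2 * r + κ * A r ^ 2 / r) := by
    apply intervalIntegral.integral_mono_on hee1.le hi1 (s3_intG h hepos he1pos)
    intro r hr
    have hr0 : 0 < r := lt_of_lt_of_le hepos hr.1
    have hd := hall r ⟨hr0, lt_of_le_of_lt hr.2 he1lt⟩
    have hsq : δ ^ 2 ≤ (r * deriv A r) ^ 2 := by
      have := abs_nonneg (r * deriv A r)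
      nlinarith [sq_abs (r * deriv A r)]
    have h1 : δ ^ 2 * r⁻¹ ≤ deriv A r ^ 2 * r := by
      rw [← div_eq_mul_inv, div_le_iff₀ hr0]
      nlinarith
    have h2 : 0 ≤ κ * A r ^ 2 / r := by positivity
    linarith
  have hadj := intervalIntegral.integral_add_adjacent_intervals
    (s3_intG (κ := κ) h hepos he1pos) (s3_intG (κ := κ) h he1pos hb0)
  have hnn : 0 ≤ ∫ r in e1..b, (deriv A r ^ 2 * r + κ * A r ^ 2 / r) := by
    apply intervalIntegral.integral_nonneg (by linarith)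
    intro r hr
    have hr0 : 0 < r := lt_of_lt_of_le he1pos hr.1
    have h2 : 0 ≤ κ * A r ^ 2 / r := by positivity
    have h3 : 0 ≤ deriv A r ^ 2 * r := by positivity
    linarith
  have hfin := hE0 e heb
  have habs := le_abs_self E0
  linarith

/-- the energy on `[ε, c]` is bounded by `μ ∫_0^c A² r` when `A' (c) = 0` -/
lemma s3_energy_gen_le (hμ : 0 ≤ μ) (hκ : 0 ≤ κ) (h : RadialSol0 b μ κ A) {c : ℝ}
    (hc : c ∈ Ioc (0 : ℝ) b) (hc' : deriv A c = 0) :
    ∀ ε ∈ Ioo (0 : ℝ) c,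
      (∫ r in ε..c, (deriv A r ^ 2 * r + κ * A r ^ 2 / r))
        ≤ μ * ∫ r in (0 : ℝ)..c, A r ^ 2 * r := by
  intro ε hε
  obtain ⟨M, hM⟩ := h.bdd
  have hM0 : 0 ≤ M := (abs_nonneg _).trans (hM c hc)
  apply le_of_forall_pos_le_add
  intro η hη
  obtain ⟨e, he, hsmall⟩ := s3_key hκ h (δ := η / (M + 1)) (by positivity) hε.1
    (hε.2.le.trans hc.2)
  have hec : e ≤ c := (he.2.trans hε.2).le
  -- enlarge the interval
  have hadj := intervalIntegral.integral_add_adjacent_intervals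
    (s3_intG (κ := κ) h he.1 hε.1) (s3_intG (κ := κ) h hε.1 hc.1)
  have hnn : 0 ≤ ∫ r in e..ε, (deriv A r ^ 2 * r + κ * A r ^ 2 / r) := by
    apply intervalIntegral.integral_nonneg he.2.le
    intro r hr
    have hr0 : 0 < r := lt_of_lt_of_le he.1 hr.1
    have h2 : 0 ≤ κ * A r ^ 2 / r := by positivity
    have h3 : 0 ≤ deriv A r ^ 2 * r := by positivity
    linarith
  have hid := s3_identity (κ := κ) h he.1 hec hc.2 hc'
  -- the weighted mass
  have hadj2 := intervalIntegral.integral_add_adjacent_intervals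
    (s3_intA2_zero h (c := e) ⟨he.1, hec.trans hc.2⟩) (s3_intA2 h he.1 hc.1)
  have hnn2 : 0 ≤ ∫ r in (0 : ℝ)..e, A r ^ 2 * r := by
    apply intervalIntegral.integral_nonneg he.1.le
    intro r hr
    exact mul_nonneg (sq_nonneg _) hr.1
  have hmass : μ * (∫ r in e..c, A r ^ 2 * r) ≤ μ * ∫ r in (0 : ℝ)..c, A r ^ 2 * r := by
    apply mul_le_mul_of_nonneg_left _ hμ
    linarith
  -- the boundary term
  have hbt : -(e * deriv A e * A e) ≤ η := by
    have h1 : |A e| ≤ M := hM e ⟨he.1, hec.trans hc.2⟩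
    have h2 : |e * deriv A e * A e| ≤ η / (M + 1) * M := by
      rw [abs_mul]
      exact mul_le_mul hsmall.le h1 (abs_nonneg _) (by positivity)
    have h3 : η / (M + 1) * M ≤ η := by
      rw [div_mul_eq_mul_div, div_le_iff₀ (by linarith)]
      nlinarith
    have h4 := neg_abs_le (e * deriv A e * A e)
    linarith
  linarith

/-- the energy on `[ε, b]` is bounded by `μ ∫_0^b A² r` -/
theorem RadialSol0.energy_le (hb : 0 < b) (hμ : 0 ≤ μ) (hκ : 0 ≤ κ) (h : RadialSol0 b μ κ A) :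
    ∀ ε ∈ Ioo (0 : ℝ) b,
      (∫ r in ε..b, (deriv A r ^ 2 * r + κ * A r ^ 2 / r)) ≤ μ * ∫ r in (0 : ℝ)..b, A r ^ 2 * r :=
  s3_energy_gen_le hμ hκ h ⟨hb, le_rfl⟩ h.bc

/-- the energy on `[ε, c]` when `A' (c) = 0`, for `κ = 0` -/
theorem RadialSol0.energy_left_le (hb : 0 < b) (hμ : 0 ≤ μ) (h : RadialSol0 b μ 0 A) {c : ℝ}
    (hc : c ∈ Ioc (0 : ℝ) b) (hc' : deriv A c = 0) :
    ∀ ε ∈ Ioo (0 : ℝ) c,
      (∫ r in ε..c, deriv A r ^ 2 * r) ≤ μ * ∫ r in (0 : ℝ)..c, A r ^ 2 * r := by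
  intro ε hε
  have := s3_energy_gen_le hμ le_rfl h hc hc' ε hε
  simpa using this

/-- the mean over `(0, c]` vanishes when `A' (c) = 0`, for `κ = 0` -/
theorem RadialSol0.mean_left (hb : 0 < b) (hμ : μ ≠ 0) (h : RadialSol0 b μ 0 A) {c : ℝ}
    (hc : c ∈ Ioc (0 : ℝ) b) (hc' : deriv A c = 0) : ∫ r in (0 : ℝ)..c, A r * r = 0 := by
  obtain ⟨M, hM⟩ := h.bdd
  have hM0 : 0 ≤ M := (abs_nonneg _).trans (hM c hc)
  -- the identity `μ ∫_e^c A r = e A' (e)`
  have hid : ∀ e : ℝ, 0 < e → e ≤ c → μ * (∫ r in e..c, A r * r) = e * deriv A e := by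
    intro e he hec
    have hsub := s3_uIcc_pos he hc.1
    have hsub2 : uIcc e c ⊆ Ioc (0 : ℝ) b := by
      intro x hx
      refine ⟨hsub hx, ?_⟩
      rw [uIcc_of_le hec] at hx
      exact hx.2.trans hc.2
    have hcA' := (s3_cont' h).mono hsub
    have hcA'' := (s3_cont'' h).mono hsub
    have hF : ∀ r ∈ uIcc e c, HasDerivAt (fun r => r * deriv A r)
        (1 * deriv A r + r * deriv (deriv A) r) r := by
      intro r hr
      exact (hasDerivAt_id' r).mul (s3_hasDerivAt' h (hsub hr))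
    have hint : IntervalIntegrable (fun r => 1 * deriv A r + r * deriv (deriv A) r)
        MeasureTheory.volume e c := by
      apply ContinuousOn.intervalIntegrable
      exact (continuousOn_const.mul hcA').add (continuousOn_id.mul hcA'')
    have key := intervalIntegral.integral_eq_sub_of_hasDerivAt hF hint
    rw [hc'] at key
    have hcongr : ∫ r in e..c, (1 * deriv A r + r * deriv (deriv A) r)
        = ∫ r in e..c, (-μ) * (A r * r) := by
      apply intervalIntegral.integral_congr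
      intro r hr
      have hode := s3_ode h (hsub2 hr)
      simp only
      rw [hode]
      simp
      ring
    rw [hcongr, intervalIntegral.integral_const_mul] at key
    linarith
  have hzero : μ * (∫ r in (0 : ℝ)..c, A r * r) = 0 := by
    rw [← abs_eq_zero]
    apply le_antisymm _ (abs_nonneg _)
    apply le_of_forall_pos_le_add
    intro η hη
    obtain ⟨e0, he0def⟩ : ∃ e0 : ℝ, e0 = min c (min 1 (η / (2 * (|μ| * M + 1)))) := ⟨_, rfl⟩
    have hden : 0 < 2 * (|μ| * M + 1) := by positivity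
    have he0pos : 0 < e0 := by
      rw [he0def]
      exact lt_min hc.1 (lt_min one_pos (by positivity))
    have he0c : e0 ≤ c := by rw [he0def]; exact min_le_left _ _
    have he01 : e0 ≤ 1 := by
      rw [he0def]; exact (min_le_right _ _).trans (min_le_left _ _)
    have he0η : e0 ≤ η / (2 * (|μ| * M + 1)) := by
      rw [he0def]; exact (min_le_right _ _).trans (min_le_right _ _)
    obtain ⟨e, he, hsmall⟩ := s3_key le_rfl h (δ := η / 2) (by positivity) he0pos
      (he0c.trans hc.2)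
    have hec : e ≤ c := he.2.le.trans he0c
    have hadj := intervalIntegral.integral_add_adjacent_intervals
      (s3_intA1_zero h (c := e) ⟨he.1, hec.trans hc.2⟩) (s3_intA1 h he.1 hc.1)
    have hbd : ‖∫ r in (0 : ℝ)..e, A r * r‖ ≤ M * e * |e - 0| := by
      apply intervalIntegral.norm_integral_le_of_norm_le_const
      intro x hx
      rw [uIoc_of_le he.1.le] at hx
      have h1 : |A x| ≤ M := hM x ⟨hx.1, hx.2.trans (hec.trans hc.2)⟩
      rw [Real.norm_eq_abs, abs_mul, abs_of_pos hx.1]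
      exact mul_le_mul h1 hx.2 hx.1.le hM0
    rw [sub_zero, abs_of_pos he.1, Real.norm_eq_abs] at hbd
    have hsplit : μ * (∫ r in (0 : ℝ)..c, A r * r)
        = μ * (∫ r in (0 : ℝ)..e, A r * r) + e * deriv A e := by
      rw [← hid e he.1 hec, ← hadj]
      ring
    rw [hsplit]
    have h1 : |μ * (∫ r in (0 : ℝ)..e, A r * r)| ≤ η / 2 := by
      rw [abs_mul]
      have hee : e * e ≤ e0 := by
        have : e ≤ e0 := he.2.le
        nlinarith [he.1]
      have h5 : |μ| * (M * e * e) ≤ |μ| * M * e0 := by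
        have : 0 ≤ |μ| * M := mul_nonneg (abs_nonneg _) hM0
        nlinarith
      have h6 : |μ| * M * e0 ≤ |μ| * M * (η / (2 * (|μ| * M + 1))) :=
        mul_le_mul_of_nonneg_left he0η (mul_nonneg (abs_nonneg _) hM0)
      have h7 : |μ| * M * (η / (2 * (|μ| * M + 1))) ≤ η / 2 := by
        rw [mul_div_assoc', div_le_div_iff₀ hden (by norm_num)]
        have : 0 ≤ |μ| * M := mul_nonneg (abs_nonneg _) hM0
        nlinarith
      have h8 : |μ| * |∫ r in (0 : ℝ)..e, A r * r| ≤ |μ| * (M * e * e) :=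
        mul_le_mul_of_nonneg_left hbd (abs_nonneg _)
      linarith
    have h2 := abs_add_le (μ * (∫ r in (0 : ℝ)..e, A r * r)) (e * deriv A e)
    linarith
  rcases mul_eq_zero.mp hzero with h' | h'
  · exact absurd h' hμ
  · exact h'

end Vale.Agent.H60.Hot
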