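import Vale.Agent.H60.Hot.Cutoff0
import Vale.Agent.H60.Hot.Calc
import Vale.Agent.H60.Hot.Rayleigh

/-!
# One-dimensional consequences of the Rayleigh bound on a circular sector (TASK S2b)

`RayleighBound0` only tests functions that vanish near the vertex `r = 0`.  By the capacity
argument it extends to bounded radial profiles `φ` of finite energy (smooth on `r > 0` only).
The energy is expressed through its truncations: `E` is any bound of `∫_ε^b ...` for all `ε`.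

Sketch (angular).  Let `ν = π / α`, `|φ| ≤ M` on `(0, b]`.  For `η > 0` take `χ`, `δ` from
`exists_cutoff` and `ψ = χ * φ` (it is `C^1` on the whole line: `C^1` on `Ioi 0` as a product and
`0` on a neighbourhood of `(-∞, 0]`).  Apply `RayleighBound0` to `v r θ = ψ r * cos (ν θ)` exactly
as in `rayleigh_angular` (`Rayleigh.lean`, helper99; its helpers `h3_int_cos`, `h3_int_cos_sq`,
`h3_int_sin_sq`, `h3_dR`, `h3_dT` apply to `ψ`), to get
`μ ∫_0^b ψ² r ≤ ∫_0^b (ψ'² r + ν² ψ² / r)`.  Now `ψ' = χ' φ + χ φ'`, so for `t > 0`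
`ψ'² ≤ (1 + t) χ² φ'² + (1 + 1/t) χ'² φ²`, hence the right side is at most
`(1 + t) E + (1 + 1/t) M² η` (the integrand vanishes for `r ≤ ε_χ`, and `χ ≤ 1`), while the left
side is at least `μ (∫_0^b φ² r - M² δ² / 2)` since `χ = 1` on `[δ, b]`.  Let `η → 0`
(so `δ → 0`), then `t → 0`.

Sketch (radial).  Same with `v r θ = χ r * φ r - c * η₀ r`, where `η₀` is a fixed `C^1` bump with
support in `[b/3, 2b/3]` and `∫_0^b η₀ r = 1`, and `c = ∫_0^b χ φ r`; `|c| ≤ M δ² / 2` because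
`∫_0^b φ r = 0`, so the extra terms tend to `0`.
-/

namespace Vale.Agent.H60.Hot

open Set

theorem s2b_core_angular {b α μ : ℝ} (hα : 0 < α) (hvar : RayleighBound0 b α μ)
    (ψ : ℝ → ℝ) (hψ : ContDiff ℝ 1 ψ) (hψ0 : ∃ ε : ℝ, 0 < ε ∧ ∀ r : ℝ, r ≤ ε → ψ r = 0) :
    μ * ∫ r in (0 : ℝ)..b, ψ r ^ 2 * r
      ≤ ∫ r in (0 : ℝ)..b, (deriv ψ r ^ 2 * r + (Real.pi / α) ^ 2 * ψ r ^ 2 / r) := by
  set ν : ℝ := Real.pi / α with hν
  have hsm : ContDiff ℝ 1 (fun p : ℝ × ℝ => (fun r θ => ψ r * Real.cos (ν * θ)) p.1 p.2) :=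
    (hψ.comp contDiff_fst).mul (Real.contDiff_cos.comp (contDiff_const.mul contDiff_snd))
  have hvan : ∃ ε : ℝ, 0 < ε ∧ ∀ r : ℝ, r ≤ ε → ∀ θ : ℝ,
      (fun r θ => ψ r * Real.cos (ν * θ)) r θ = 0 := by
    obtain ⟨ε, hε, h⟩ := hψ0
    exact ⟨ε, hε, fun r hr θ => by simp [h r hr]⟩
  have hmean : (∫ r in (0 : ℝ)..b, ∫ θ in (0 : ℝ)..α,
      (fun r θ => ψ r * Real.cos (ν * θ)) r θ * r) = 0 := by
    have : ∀ r : ℝ, (∫ θ in (0 : ℝ)..α, ψ r * Real.cos (ν * θ) * r) = 0 := by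
      intro r
      have e : (fun θ : ℝ => ψ r * Real.cos (ν * θ) * r)
          = fun θ => (ψ r * r) * Real.cos (ν * θ) := by
        funext θ; ring
      rw [e, intervalIntegral.integral_const_mul, h3_int_cos hα, mul_zero]
    simp only [this]
    simp
  have key := hvar (fun r θ => ψ r * Real.cos (ν * θ)) hsm hvan hmean
  have hL : (∫ r in (0 : ℝ)..b, ∫ θ in (0 : ℝ)..α,
      (fun r θ => ψ r * Real.cos (ν * θ)) r θ ^ 2 * r)
      = (α / 2) * ∫ r in (0 : ℝ)..b, ψ r ^ 2 * r := by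
    rw [← intervalIntegral.integral_const_mul]
    refine intervalIntegral.integral_congr (fun r _ => ?_)
    have e : (fun θ : ℝ => (ψ r * Real.cos (ν * θ)) ^ 2 * r)
        = fun θ => (ψ r ^ 2 * r) * Real.cos (ν * θ) ^ 2 := by
      funext θ; ring
    show (∫ θ in (0 : ℝ)..α, (ψ r * Real.cos (ν * θ)) ^ 2 * r) = _
    rw [e, intervalIntegral.integral_const_mul, h3_int_cos_sq hα]; ring
  have hR : (∫ r in (0 : ℝ)..b, ∫ θ in (0 : ℝ)..α,
        (dR (fun r θ => ψ r * Real.cos (ν * θ)) r θ ^ 2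
          + dT (fun r θ => ψ r * Real.cos (ν * θ)) r θ ^ 2 / r ^ 2) * r)
      = (α / 2) * ∫ r in (0 : ℝ)..b, (deriv ψ r ^ 2 * r + ν ^ 2 * ψ r ^ 2 / r) := by
    rw [← intervalIntegral.integral_const_mul]
    refine intervalIntegral.integral_congr (fun r _ => ?_)
    show (∫ θ in (0 : ℝ)..α, (dR (fun r θ => ψ r * Real.cos (ν * θ)) r θ ^ 2
          + dT (fun r θ => ψ r * Real.cos (ν * θ)) r θ ^ 2 / r ^ 2) * r)
        = α / 2 * (deriv ψ r ^ 2 * r + ν ^ 2 * ψ r ^ 2 / r)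
    by_cases hr0 : r = 0
    · subst hr0
      simp
    · have e : (fun θ : ℝ => (dR (fun r θ => ψ r * Real.cos (ν * θ)) r θ ^ 2
            + dT (fun r θ => ψ r * Real.cos (ν * θ)) r θ ^ 2 / r ^ 2) * r)
          = fun θ => (deriv ψ r ^ 2 * r) * Real.cos (ν * θ) ^ 2
              + (ν ^ 2 * ψ r ^ 2 / r) * Real.sin (ν * θ) ^ 2 := by
        funext θ
        rw [h3_dR, h3_dT]
        field_simp
      rw [e, intervalIntegral.integral_add, intervalIntegral.integral_const_mul,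
        intervalIntegral.integral_const_mul, h3_int_cos_sq hα, h3_int_sin_sq hα]
      · ring
      · exact (Continuous.intervalIntegrable (by fun_prop) _ _)
      · exact (Continuous.intervalIntegrable (by fun_prop) _ _)
  rw [hL, hR] at key
  have hα2 : 0 < α / 2 := by positivity
  have key' : (α / 2) * (μ * ∫ r in (0 : ℝ)..b, ψ r ^ 2 * r)
      ≤ (α / 2) * ∫ r in (0 : ℝ)..b, (deriv ψ r ^ 2 * r + ν ^ 2 * ψ r ^ 2 / r) := by
    calc (α / 2) * (μ * ∫ r in (0 : ℝ)..b, ψ r ^ 2 * r)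
        = μ * ((α / 2) * ∫ r in (0 : ℝ)..b, ψ r ^ 2 * r) := by ring
      _ ≤ _ := key
  exact le_of_mul_le_mul_left key' hα2

theorem s2b_core_radial {b α μ : ℝ} (hα : 0 < α) (hvar : RayleighBound0 b α μ)
    (ψ : ℝ → ℝ) (hψ : ContDiff ℝ 1 ψ) (hψ0 : ∃ ε : ℝ, 0 < ε ∧ ∀ r : ℝ, r ≤ ε → ψ r = 0)
    (hmean : ∫ r in (0 : ℝ)..b, ψ r * r = 0) :
    μ * ∫ r in (0 : ℝ)..b, ψ r ^ 2 * r ≤ ∫ r in (0 : ℝ)..b, deriv ψ r ^ 2 * r := by
  have hsm : ContDiff ℝ 1 (fun p : ℝ × ℝ => (fun r (_ : ℝ) => ψ r) p.1 p.2) :=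
    hψ.comp contDiff_fst
  have hvan : ∃ ε : ℝ, 0 < ε ∧ ∀ r : ℝ, r ≤ ε → ∀ θ : ℝ, (fun r (_ : ℝ) => ψ r) r θ = 0 := by
    obtain ⟨ε, hε, h⟩ := hψ0
    exact ⟨ε, hε, fun r hr _ => h r hr⟩
  have hmean' : (∫ r in (0 : ℝ)..b, ∫ θ in (0 : ℝ)..α, (fun r (_ : ℝ) => ψ r) r θ * r) = 0 := by
    simp only [intervalIntegral.integral_const, sub_zero, smul_eq_mul]
    rw [intervalIntegral.integral_const_mul, hmean, mul_zero]
  have key := hvar (fun r _ => ψ r) hsm hvan hmean'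
  have hdR : ∀ r θ : ℝ, dR (fun r (_ : ℝ) => ψ r) r θ = deriv ψ r := fun r θ => rfl
  have hdT : ∀ r θ : ℝ, dT (fun r (_ : ℝ) => ψ r) r θ = 0 := by
    intro r θ; unfold dT; simp
  simp only [hdR, hdT, intervalIntegral.integral_const, sub_zero, smul_eq_mul] at key
  simp only [ne_eq, OfNat.ofNat_ne_zero, not_false_eq_true, zero_pow, zero_div, add_zero] at key
  rw [intervalIntegral.integral_const_mul, intervalIntegral.integral_const_mul] at key
  have key' : α * (μ * ∫ r in (0 : ℝ)..b, ψ r ^ 2 * r)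
      ≤ α * ∫ r in (0 : ℝ)..b, deriv ψ r ^ 2 * r := by
    calc α * (μ * ∫ r in (0 : ℝ)..b, ψ r ^ 2 * r)
        = μ * (α * ∫ r in (0 : ℝ)..b, ψ r ^ 2 * r) := by ring
      _ ≤ _ := key
  exact le_of_mul_le_mul_left key' hα

theorem s2b_mul_contDiff {χ g : ℝ → ℝ} (hχ : ContDiff ℝ 1 χ) (hg : ContDiffOn ℝ 1 g (Ioi 0))
    {ε0 : ℝ} (hε0 : 0 < ε0) (hχ0 : ∀ r : ℝ, r ≤ ε0 → χ r = 0) :
    ContDiff ℝ 1 (fun r => χ r * g r) := by
  rw [contDiff_iff_contDiffAt]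
  intro r
  by_cases hr : 0 < r
  · exact hχ.contDiffAt.mul (hg.contDiffAt (Ioi_mem_nhds hr))
  · have hr' : r < ε0 := lt_of_le_of_lt (not_lt.mp hr) hε0
    have hev : (fun r => χ r * g r) =ᶠ[nhds r] fun _ => (0 : ℝ) := by
      filter_upwards [Iio_mem_nhds hr'] with y hy
      rw [hχ0 y (le_of_lt hy), zero_mul]
    exact contDiffAt_const.congr_of_eventuallyEq hev

theorem s2b_deriv_mul {χ g : ℝ → ℝ} (hχ : ContDiff ℝ 1 χ) (hg : ContDiffOn ℝ 1 g (Ioi 0))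
    {r : ℝ} (hr : 0 < r) :
    deriv (fun r => χ r * g r) r = deriv χ r * g r + χ r * deriv g r := by
  have h1 : DifferentiableAt ℝ χ r := (hχ.differentiable (by norm_num)).differentiableAt
  have h2 : DifferentiableAt ℝ g r :=
    (hg.differentiableOn (by norm_num)).differentiableAt (Ioi_mem_nhds hr)
  exact deriv_fun_mul h1 h2

theorem s2b_deriv_zero {χ g : ℝ → ℝ} {ε0 : ℝ} (hχ0 : ∀ r : ℝ, r ≤ ε0 → χ r = 0) {r : ℝ}
    (hr : r < ε0) : deriv (fun r => χ r * g r) r = 0 := by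
  have hev : (fun r => χ r * g r) =ᶠ[nhds r] fun _ => (0 : ℝ) := by
    filter_upwards [Iio_mem_nhds hr] with y hy
    rw [hχ0 y (le_of_lt hy), zero_mul]
  rw [hev.deriv_eq]; simp

theorem s2b_integrable_of_bdd {b : ℝ} (hb : 0 < b) {F : ℝ → ℝ} (hF : ContinuousOn F (Ioi 0))
    {C : ℝ} (hC : ∀ r ∈ Ioc (0 : ℝ) b, |F r| ≤ C) :
    IntervalIntegrable F MeasureTheory.volume 0 b := by
  rw [intervalIntegrable_iff_integrableOn_Ioc_of_le hb.le]
  refine ⟨(hF.mono Ioc_subset_Ioi_self).aestronglyMeasurable measurableSet_Ioc, ?_⟩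
  refine MeasureTheory.HasFiniteIntegral.restrict_of_bounded (C := C) (by simp) ?_
  rw [MeasureTheory.ae_restrict_iff' measurableSet_Ioc]
  exact Filter.Eventually.of_forall (fun r hr => by rw [Real.norm_eq_abs]; exact hC r hr)

theorem s2b_young (A B t : ℝ) (ht : 0 < t) :
    (B + A) ^ 2 ≤ (1 + t) * A ^ 2 + (1 + 1 / t) * B ^ 2 := by
  have h1 : 0 ≤ (t * A - B) ^ 2 / t := div_nonneg (sq_nonneg _) ht.le
  have h2 : (t * A - B) ^ 2 / t = t * A ^ 2 - 2 * A * B + 1 / t * B ^ 2 := by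
    field_simp; ring
  nlinarith

/-- upper bound for the energy of the cut-off profile `χ * g` -/
theorem s2b_upper {b : ℝ} (hb : 0 < b) (g : ℝ → ℝ) (hg : ContDiffOn ℝ 1 g (Ioi 0)) (M : ℝ)
    (hM : ∀ r ∈ Ioc (0 : ℝ) b, |g r| ≤ M) (c : ℝ) (hc : 0 ≤ c) (E : ℝ)
    (hE : ∀ ε ∈ Ioo (0 : ℝ) b, (∫ r in ε..b, (deriv g r ^ 2 * r + c * g r ^ 2 / r)) ≤ E)
    (χ : ℝ → ℝ) (hχ : ContDiff ℝ 1 χ) (hχ01 : ∀ r : ℝ, 0 ≤ χ r ∧ χ r ≤ 1)
    (ε0 : ℝ) (hε0 : 0 < ε0) (hχ0 : ∀ r : ℝ, r ≤ ε0 → χ r = 0)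
    (η : ℝ) (hχE : (∫ r in (0 : ℝ)..b, deriv χ r ^ 2 * r) ≤ η) (t : ℝ) (ht : 0 < t) :
    (∫ r in (0 : ℝ)..b, (deriv (fun r => χ r * g r) r ^ 2 * r + c * (χ r * g r) ^ 2 / r))
      ≤ (1 + t) * E + (1 + 1 / t) * M ^ 2 * η := by
  have hψ : ContDiff ℝ 1 (fun r => χ r * g r) := s2b_mul_contDiff hχ hg hε0 hχ0
  have hmin : 0 < min ε0 b := lt_min hε0 hb
  have hε1pos : 0 < min ε0 b / 2 := by positivity
  have hε1lt : min ε0 b / 2 < ε0 := by
    have := min_le_left ε0 b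
    linarith
  have hε1b : min ε0 b / 2 < b := by
    have := min_le_right ε0 b
    linarith
  generalize min ε0 b / 2 = ε1 at hε1pos hε1lt hε1b
  have hsub : Icc ε1 b ⊆ Ioi (0 : ℝ) := fun r hr => lt_of_lt_of_le hε1pos hr.1
  have hF0 : ∀ r ∈ uIcc (0 : ℝ) ε1,
      deriv (fun r => χ r * g r) r ^ 2 * r + c * (χ r * g r) ^ 2 / r = 0 := by
    intro r hr
    rw [uIcc_of_le hε1pos.le] at hr
    have hr' : r < ε0 := lt_of_le_of_lt hr.2 hε1lt
    rw [s2b_deriv_zero hχ0 hr', hχ0 r hr'.le]; simp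
  have hint0 : IntervalIntegrable
      (fun r => deriv (fun r => χ r * g r) r ^ 2 * r + c * (χ r * g r) ^ 2 / r)
      MeasureTheory.volume 0 ε1 := by
    exact (intervalIntegrable_congr (f := fun _ => (0 : ℝ))
      (fun r hr => (hF0 r (uIoc_subset_uIcc hr)).symm)).mp intervalIntegrable_const
  have hintF : IntervalIntegrable
      (fun r => deriv (fun r => χ r * g r) r ^ 2 * r + c * (χ r * g r) ^ 2 / r)
      MeasureTheory.volume ε1 b := by
    apply ContinuousOn.intervalIntegrable_of_Icc hε1b.le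
    apply ContinuousOn.add
    · exact (((hψ.continuous_deriv (le_refl 1)).pow 2).mul continuous_id).continuousOn
    · apply ContinuousOn.div
      · exact (continuous_const.mul (hψ.continuous.pow 2)).continuousOn
      · exact continuousOn_id
      · intro r hr
        exact ne_of_gt (hsub hr)
  have hgc : ContinuousOn g (Icc ε1 b) := hg.continuousOn.mono hsub
  have hg'c : ContinuousOn (deriv g) (Icc ε1 b) :=
    (hg.continuousOn_deriv_of_isOpen isOpen_Ioi (le_refl 1)).mono hsub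
  have hintG1 : IntervalIntegrable (fun r => deriv g r ^ 2 * r + c * g r ^ 2 / r)
      MeasureTheory.volume ε1 b := by
    apply ContinuousOn.intervalIntegrable_of_Icc hε1b.le
    apply ContinuousOn.add
    · exact (hg'c.pow 2).mul continuousOn_id
    · apply ContinuousOn.div
      · exact continuousOn_const.mul (hgc.pow 2)
      · exact continuousOn_id
      · intro r hr
        exact ne_of_gt (hsub hr)
  have hχ'c : Continuous (fun r => deriv χ r ^ 2 * r) :=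
    ((hχ.continuous_deriv (le_refl 1)).pow 2).mul continuous_id
  have hintG2 : IntervalIntegrable (fun r => deriv χ r ^ 2 * r) MeasureTheory.volume ε1 b :=
    hχ'c.intervalIntegrable _ _
  have hM0 : 0 ≤ M := (abs_nonneg _).trans (hM b ⟨hb, le_refl b⟩)
  have hFG : ∀ r ∈ Icc ε1 b,
      deriv (fun r => χ r * g r) r ^ 2 * r + c * (χ r * g r) ^ 2 / r
        ≤ (1 + t) * (deriv g r ^ 2 * r + c * g r ^ 2 / r)
          + (1 + 1 / t) * M ^ 2 * (deriv χ r ^ 2 * r) := by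
    intro r hr
    have hr0 : 0 < r := hsub hr
    rw [s2b_deriv_mul hχ hg hr0]
    obtain ⟨hχa, hχb⟩ := hχ01 r
    have hgM : g r ^ 2 ≤ M ^ 2 := by
      have := hM r ⟨hr0, hr.2⟩
      exact sq_le_sq' (by linarith [neg_abs_le (g r)]) (le_trans (le_abs_self _) this)
    have hχsq : χ r ^ 2 ≤ 1 := by nlinarith
    have hX : 0 ≤ deriv g r ^ 2 * r := by positivity
    have hY : 0 ≤ c * g r ^ 2 / r := by positivity
    have hZ : 0 ≤ deriv χ r ^ 2 * r := by positivity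
    have h1 := s2b_young (χ r * deriv g r) (deriv χ r * g r) t ht
    have h2 : (χ r * deriv g r) ^ 2 * r ≤ deriv g r ^ 2 * r := by
      have e : (χ r * deriv g r) ^ 2 * r = χ r ^ 2 * (deriv g r ^ 2 * r) := by ring
      rw [e]; nlinarith
    have h3 : (deriv χ r * g r) ^ 2 * r ≤ M ^ 2 * (deriv χ r ^ 2 * r) := by
      have e : (deriv χ r * g r) ^ 2 * r = g r ^ 2 * (deriv χ r ^ 2 * r) := by ring
      rw [e]; exact mul_le_mul_of_nonneg_right hgM hZ
    have h4 : c * (χ r * g r) ^ 2 / r ≤ c * g r ^ 2 / r := by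
      have e : c * (χ r * g r) ^ 2 / r = χ r ^ 2 * (c * g r ^ 2 / r) := by ring
      rw [e]; nlinarith
    have h5 : (deriv χ r * g r + χ r * deriv g r) ^ 2 * r
        ≤ ((1 + t) * (χ r * deriv g r) ^ 2 + (1 + 1 / t) * (deriv χ r * g r) ^ 2) * r :=
      mul_le_mul_of_nonneg_right h1 hr0.le
    have h6 : (1 + t) * ((χ r * deriv g r) ^ 2 * r) ≤ (1 + t) * (deriv g r ^ 2 * r) :=
      mul_le_mul_of_nonneg_left h2 (by linarith)
    have h7 : (1 + 1 / t) * ((deriv χ r * g r) ^ 2 * r)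
        ≤ (1 + 1 / t) * (M ^ 2 * (deriv χ r ^ 2 * r)) :=
      mul_le_mul_of_nonneg_left h3 (by positivity)
    have h8 : 0 ≤ t * (c * g r ^ 2 / r) := mul_nonneg ht.le hY
    nlinarith
  have hsplit := intervalIntegral.integral_add_adjacent_intervals hint0 hintF
  have hzero : (∫ r in (0 : ℝ)..ε1,
      (deriv (fun r => χ r * g r) r ^ 2 * r + c * (χ r * g r) ^ 2 / r)) = 0 := by
    rw [intervalIntegral.integral_congr hF0]; simp
  have hmono := intervalIntegral.integral_mono_on hε1b.le hintF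
    ((hintG1.const_mul (1 + t)).add (hintG2.const_mul ((1 + 1 / t) * M ^ 2))) hFG
  rw [intervalIntegral.integral_add (hintG1.const_mul (1 + t))
    (hintG2.const_mul ((1 + 1 / t) * M ^ 2)), intervalIntegral.integral_const_mul,
    intervalIntegral.integral_const_mul] at hmono
  have hE1 := hE ε1 ⟨hε1pos, hε1b⟩
  have hχ2 : (∫ r in ε1..b, deriv χ r ^ 2 * r) ≤ η := by
    have h0 : 0 ≤ ∫ r in (0 : ℝ)..ε1, deriv χ r ^ 2 * r := by
      apply intervalIntegral.integral_nonneg hε1pos.le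
      intro r hr
      have : 0 ≤ r := hr.1
      positivity
    have hs := intervalIntegral.integral_add_adjacent_intervals
      (hχ'c.intervalIntegrable (μ := MeasureTheory.volume) 0 ε1)
      (hχ'c.intervalIntegrable (μ := MeasureTheory.volume) ε1 b)
    linarith
  have hc1 : (1 + t) * (∫ r in ε1..b, (deriv g r ^ 2 * r + c * g r ^ 2 / r)) ≤ (1 + t) * E :=
    mul_le_mul_of_nonneg_left hE1 (by linarith)
  have hc2 : (1 + 1 / t) * M ^ 2 * (∫ r in ε1..b, deriv χ r ^ 2 * r)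
      ≤ (1 + 1 / t) * M ^ 2 * η :=
    mul_le_mul_of_nonneg_left hχ2 (by positivity)
  linarith

/-- lower bound for the `L^2` norm of the cut-off profile `χ * g` -/
theorem s2b_lower {b : ℝ} (hb : 0 < b) (g : ℝ → ℝ) (hg : ContinuousOn g (Ioi 0)) (M : ℝ)
    (hM : ∀ r ∈ Ioc (0 : ℝ) b, |g r| ≤ M) (χ : ℝ → ℝ) (hχ : Continuous χ)
    (hχ01 : ∀ r : ℝ, 0 ≤ χ r ∧ χ r ≤ 1) (δ : ℝ) (hδ0 : 0 < δ) (hδb : δ < b)
    (hχ1 : ∀ r : ℝ, δ ≤ r → χ r = 1) :
    (∫ r in (0 : ℝ)..b, g r ^ 2 * r) - M ^ 2 * δ ^ 2 / 2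
      ≤ ∫ r in (0 : ℝ)..b, (χ r * g r) ^ 2 * r := by
  have hM0 : 0 ≤ M := (abs_nonneg _).trans (hM b ⟨hb, le_refl b⟩)
  have hgM : ∀ r ∈ Ioc (0 : ℝ) b, g r ^ 2 ≤ M ^ 2 := by
    intro r hr
    have := hM r hr
    exact sq_le_sq' (by linarith [neg_abs_le (g r)]) (le_trans (le_abs_self _) this)
  have hD : ContinuousOn (fun r => g r ^ 2 * r - (χ r * g r) ^ 2 * r) (Ioi 0) :=
    ((hg.pow 2).mul continuousOn_id).sub (((hχ.continuousOn.mul hg).pow 2).mul continuousOn_id)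
  have hDle : ∀ r ∈ Ioc (0 : ℝ) b, g r ^ 2 * r - (χ r * g r) ^ 2 * r ≤ M ^ 2 * r ∧
      0 ≤ g r ^ 2 * r - (χ r * g r) ^ 2 * r := by
    intro r hr
    obtain ⟨hχa, hχb⟩ := hχ01 r
    have h1 := hgM r hr
    have hχsq : χ r ^ 2 ≤ 1 := by nlinarith
    have e : g r ^ 2 * r - (χ r * g r) ^ 2 * r = (1 - χ r ^ 2) * (g r ^ 2 * r) := by ring
    have h2 : 0 ≤ g r ^ 2 * r := mul_nonneg (sq_nonneg _) hr.1.le
    have h3 : g r ^ 2 * r ≤ M ^ 2 * r := mul_le_mul_of_nonneg_right h1 hr.1.le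
    rw [e]
    constructor
    · nlinarith [sq_nonneg (χ r)]
    · exact mul_nonneg (by linarith) h2
  have hcg : ContinuousOn (fun r => g r ^ 2 * r) (Ioi 0) := (hg.pow 2).mul continuousOn_id
  have hcψ : ContinuousOn (fun r => (χ r * g r) ^ 2 * r) (Ioi 0) :=
    ((hχ.continuousOn.mul hg).pow 2).mul continuousOn_id
  have hintg : IntervalIntegrable (fun r => g r ^ 2 * r) MeasureTheory.volume 0 b := by
    apply s2b_integrable_of_bdd hb hcg (C := M ^ 2 * b)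
    intro r hr
    rw [abs_of_nonneg (mul_nonneg (sq_nonneg _) hr.1.le)]
    exact mul_le_mul (hgM r hr) hr.2 hr.1.le (sq_nonneg _)
  have hintψ : IntervalIntegrable (fun r => (χ r * g r) ^ 2 * r) MeasureTheory.volume 0 b := by
    apply s2b_integrable_of_bdd hb hcψ (C := M ^ 2 * b)
    intro r hr
    rw [abs_of_nonneg (mul_nonneg (sq_nonneg _) hr.1.le)]
    have h1 := (hDle r hr).2
    have h2 := hgM r hr
    have h3 : g r ^ 2 * r ≤ M ^ 2 * b := mul_le_mul h2 hr.2 hr.1.le (sq_nonneg _)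
    linarith
  have hintD1 : IntervalIntegrable (fun r => g r ^ 2 * r - (χ r * g r) ^ 2 * r)
      MeasureTheory.volume 0 δ := by
    apply s2b_integrable_of_bdd hδ0 hD (C := M ^ 2 * b)
    intro r hr
    have hr' : r ∈ Ioc (0 : ℝ) b := ⟨hr.1, hr.2.trans hδb.le⟩
    obtain ⟨h1, h2⟩ := hDle r hr'
    rw [abs_of_nonneg h2]
    have : M ^ 2 * r ≤ M ^ 2 * b := mul_le_mul_of_nonneg_left hr'.2 (sq_nonneg _)
    linarith
  have hD0 : ∀ r ∈ uIcc δ b, g r ^ 2 * r - (χ r * g r) ^ 2 * r = 0 := by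
    intro r hr
    rw [uIcc_of_le hδb.le] at hr
    rw [hχ1 r hr.1]; ring
  have hintD2 : IntervalIntegrable (fun r => g r ^ 2 * r - (χ r * g r) ^ 2 * r)
      MeasureTheory.volume δ b := by
    exact (intervalIntegrable_congr (f := fun _ => (0 : ℝ))
      (fun r hr => (hD0 r (uIoc_subset_uIcc hr)).symm)).mp intervalIntegrable_const
  have hsplit := intervalIntegral.integral_add_adjacent_intervals hintD1 hintD2
  have hzero : (∫ r in δ..b, (g r ^ 2 * r - (χ r * g r) ^ 2 * r)) = 0 := by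
    rw [intervalIntegral.integral_congr hD0]; simp
  have hsub := intervalIntegral.integral_sub hintg hintψ
  have hmono : (∫ r in (0 : ℝ)..δ, (g r ^ 2 * r - (χ r * g r) ^ 2 * r))
      ≤ ∫ r in (0 : ℝ)..δ, M ^ 2 * r := by
    apply intervalIntegral.integral_mono_on hδ0.le hintD1
      ((continuous_const.mul continuous_id).intervalIntegrable _ _)
    intro r hr
    rcases hr.1.eq_or_lt with h0 | h0
    · rw [← h0]; simp
    · exact (hDle r ⟨h0, hr.2.trans hδb.le⟩).1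
  have hval : (∫ r in (0 : ℝ)..δ, M ^ 2 * r) = M ^ 2 * δ ^ 2 / 2 := by
    rw [intervalIntegral.integral_const_mul, integral_id]; ring
  linarith

theorem s2b_limit (I E μ C1 C2 : ℝ) (hμ : 0 ≤ μ) (hC1 : 0 ≤ C1) (hC2 : 0 ≤ C2)
    (h : ∀ η : ℝ, 0 < η → ∀ t : ℝ, 0 < t → ∃ δ : ℝ, 0 < δ ∧ δ < η ∧
      μ * (I - C1 * δ ^ 2) ≤ (1 + t) * E + (1 + 1 / t) * C2 * η) : μ * I ≤ E := by
  apply le_of_forall_pos_le_add
  intro ε' hε'
  have hden : 0 < 2 * (|E| + 1) := by positivity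
  have htpos : 0 < ε' / (2 * (|E| + 1)) := by positivity
  have htE : ε' / (2 * (|E| + 1)) * E ≤ ε' / 2 := by
    have h1 : ε' / (2 * (|E| + 1)) * E ≤ ε' / (2 * (|E| + 1)) * |E| :=
      mul_le_mul_of_nonneg_left (le_abs_self E) htpos.le
    have h2 : ε' / (2 * (|E| + 1)) * |E| ≤ ε' / (2 * (|E| + 1)) * (|E| + 1) :=
      mul_le_mul_of_nonneg_left (by linarith) htpos.le
    have h3 : ε' / (2 * (|E| + 1)) * (|E| + 1) = ε' / 2 := by field_simp
    linarith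
  generalize ε' / (2 * (|E| + 1)) = t at htpos htE
  have hApos : 0 ≤ (1 + 1 / t) * C2 + μ * C1 := by positivity
  have hAη : ∀ η : ℝ, η ≤ ε' / (2 * ((1 + 1 / t) * C2 + μ * C1 + 1)) →
      ((1 + 1 / t) * C2 + μ * C1) * η ≤ ε' / 2 := by
    intro η hη
    generalize (1 + 1 / t) * C2 + μ * C1 = A at hApos hη ⊢
    have h1 : A * η ≤ A * (ε' / (2 * (A + 1))) := mul_le_mul_of_nonneg_left hη hApos
    have h2 : A * (ε' / (2 * (A + 1))) = ε' / 2 * (A / (A + 1)) := by field_simp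
    have h3 : A / (A + 1) ≤ 1 := (div_le_one (by linarith)).mpr (by linarith)
    have h4 : ε' / 2 * (A / (A + 1)) ≤ ε' / 2 * 1 := mul_le_mul_of_nonneg_left h3 (by positivity)
    linarith
  have hηpos : 0 < min 1 (ε' / (2 * ((1 + 1 / t) * C2 + μ * C1 + 1))) :=
    lt_min one_pos (by positivity)
  obtain ⟨δ, hδ0, hδη, hδ⟩ := h _ hηpos t htpos
  have hA2 := hAη _ (min_le_right 1 (ε' / (2 * ((1 + 1 / t) * C2 + μ * C1 + 1))))
  have hη1 := min_le_left 1 (ε' / (2 * ((1 + 1 / t) * C2 + μ * C1 + 1)))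
  generalize min 1 (ε' / (2 * ((1 + 1 / t) * C2 + μ * C1 + 1))) = η at hηpos hδη hδ hA2 hη1
  have hδsq : δ ^ 2 ≤ η := by nlinarith
  have h5 : μ * C1 * δ ^ 2 ≤ μ * C1 * η := mul_le_mul_of_nonneg_left hδsq (by positivity)
  nlinarith

/-- the Rayleigh bound for profiles `φ (r) cos (π θ / α)` on a circular sector -/
theorem rayleigh_angular0 {b α μ : ℝ} (hb : 0 < b) (hα : 0 < α) (hμ : 0 ≤ μ)
    (hvar : RayleighBound0 b α μ) (φ : ℝ → ℝ) (hφ : ContDiffOn ℝ 1 φ (Ioi 0))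
    (M : ℝ) (hM : ∀ r ∈ Ioc (0 : ℝ) b, |φ r| ≤ M)
    (E : ℝ) (hE : ∀ ε ∈ Ioo (0 : ℝ) b,
      (∫ r in ε..b, (deriv φ r ^ 2 * r + (Real.pi / α) ^ 2 * φ r ^ 2 / r)) ≤ E) :
    μ * ∫ r in (0 : ℝ)..b, φ r ^ 2 * r ≤ E := by
  have hM0 : 0 ≤ M := (abs_nonneg _).trans (hM b ⟨hb, le_refl b⟩)
  apply s2b_limit (∫ r in (0 : ℝ)..b, φ r ^ 2 * r) E μ (M ^ 2 / 2) (M ^ 2) hμ (by positivity)
    (by positivity)
  intro η hη t ht
  obtain ⟨χ, δ, hδ0, hδb, hδη, hχ, hχ01, ⟨ε0, hε0, hχ0⟩, hχ1, hχE⟩ := exists_cutoff hb hη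
  refine ⟨δ, hδ0, hδη, ?_⟩
  have hψ : ContDiff ℝ 1 (fun r => χ r * φ r) := s2b_mul_contDiff hχ hφ hε0 hχ0
  have hcore := s2b_core_angular (b := b) hα hvar (fun r => χ r * φ r) hψ
    ⟨ε0, hε0, fun r hr => by simp [hχ0 r hr]⟩
  beta_reduce at hcore
  have hup := s2b_upper hb φ hφ M hM ((Real.pi / α) ^ 2) (sq_nonneg _) E hE χ hχ hχ01 ε0 hε0
    hχ0 η hχE t ht
  have hlow := s2b_lower hb φ hφ.continuousOn M hM χ hχ.continuous hχ01 δ hδ0 hδb hχ1
  have h1 : μ * ((∫ r in (0 : ℝ)..b, φ r ^ 2 * r) - M ^ 2 * δ ^ 2 / 2)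
      ≤ μ * ∫ r in (0 : ℝ)..b, (χ r * φ r) ^ 2 * r := mul_le_mul_of_nonneg_left hlow hμ
  calc μ * ((∫ r in (0 : ℝ)..b, φ r ^ 2 * r) - M ^ 2 / 2 * δ ^ 2)
      = μ * ((∫ r in (0 : ℝ)..b, φ r ^ 2 * r) - M ^ 2 * δ ^ 2 / 2) := by ring
    _ ≤ μ * ∫ r in (0 : ℝ)..b, (χ r * φ r) ^ 2 * r := h1
    _ ≤ _ := hcore
    _ ≤ (1 + t) * E + (1 + 1 / t) * M ^ 2 * η := hup

/-- the Rayleigh bound for radial profiles of zero mean on a circular sector -/
theorem rayleigh_radial0 {b α μ : ℝ} (hb : 0 < b) (hα : 0 < α) (hμ : 0 ≤ μ)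
    (hvar : RayleighBound0 b α μ) (φ : ℝ → ℝ) (hφ : ContDiffOn ℝ 1 φ (Ioi 0))
    (M : ℝ) (hM : ∀ r ∈ Ioc (0 : ℝ) b, |φ r| ≤ M)
    (hmean : ∫ r in (0 : ℝ)..b, φ r * r = 0)
    (E : ℝ) (hE : ∀ ε ∈ Ioo (0 : ℝ) b, (∫ r in ε..b, deriv φ r ^ 2 * r) ≤ E) :
    μ * ∫ r in (0 : ℝ)..b, φ r ^ 2 * r ≤ E := by
  have hM0 : 0 ≤ M := (abs_nonneg _).trans (hM b ⟨hb, le_refl b⟩)
  apply s2b_limit (∫ r in (0 : ℝ)..b, φ r ^ 2 * r) E μ (2 * M ^ 2) (4 * M ^ 2) hμ
    (by positivity) (by positivity)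
  intro η hη t ht
  obtain ⟨χ, δ, hδ0, hδb, hδη, hχ, hχ01, ⟨ε0, hε0, hχ0⟩, hχ1, hχE⟩ := exists_cutoff hb hη
  refine ⟨δ, hδ0, hδη, ?_⟩
  have hχr_c : Continuous (fun r => χ r * r) := hχ.continuous.mul continuous_id
  have hK : 0 < ∫ r in (0 : ℝ)..b, χ r * r := by
    have hs := intervalIntegral.integral_add_adjacent_intervals
      (hχr_c.intervalIntegrable (μ := MeasureTheory.volume) 0 δ)
      (hχr_c.intervalIntegrable (μ := MeasureTheory.volume) δ b)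
    have h0 : 0 ≤ ∫ r in (0 : ℝ)..δ, χ r * r :=
      intervalIntegral.integral_nonneg hδ0.le (fun r hr => mul_nonneg (hχ01 r).1 hr.1)
    have h1 : (∫ r in δ..b, χ r * r) = (b ^ 2 - δ ^ 2) / 2 := by
      rw [intervalIntegral.integral_congr (g := fun r => r) (fun r hr => by
        rw [uIcc_of_le hδb.le] at hr
        simp [hχ1 r hr.1]), integral_id]
    have h2 : 0 < (b ^ 2 - δ ^ 2) / 2 := by nlinarith
    linarith
  have hχφ_c : ContinuousOn (fun r => χ r * φ r * r) (Ioi 0) :=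
    (hχ.continuous.continuousOn.mul hφ.continuousOn).mul continuousOn_id
  have hle : ∀ r ∈ Icc (0 : ℝ) b, χ r * φ r * r ≤ M * (χ r * r) ∧
      -(M * (χ r * r)) ≤ χ r * φ r * r := by
    intro r hr
    rcases hr.1.eq_or_lt with h0 | h0
    · rw [← h0]; simp
    · have hab := abs_le.mp (hM r ⟨h0, hr.2⟩)
      have hχr : 0 ≤ χ r * r := mul_nonneg (hχ01 r).1 h0.le
      have e : χ r * φ r * r = φ r * (χ r * r) := by ring
      rw [e]
      constructor
      · exact mul_le_mul_of_nonneg_right hab.2 hχr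
      · have := mul_le_mul_of_nonneg_right hab.1 hχr
        linarith
  have hχφ_int : IntervalIntegrable (fun r => χ r * φ r * r) MeasureTheory.volume 0 b := by
    apply s2b_integrable_of_bdd hb hχφ_c (C := M * b)
    intro r hr
    obtain ⟨h1, h2⟩ := hle r ⟨hr.1.le, hr.2⟩
    have h3 : M * (χ r * r) ≤ M * b := by
      apply mul_le_mul_of_nonneg_left _ hM0
      calc χ r * r ≤ 1 * r := mul_le_mul_of_nonneg_right (hχ01 r).2 hr.1.le
        _ ≤ b := by linarith [hr.2]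
    rw [abs_le]
    constructor <;> linarith
  have hMint : IntervalIntegrable (fun r => M * (χ r * r)) MeasureTheory.volume 0 b :=
    (continuous_const.mul hχr_c).intervalIntegrable _ _
  have hκM : |(∫ r in (0 : ℝ)..b, χ r * φ r * r) / (∫ r in (0 : ℝ)..b, χ r * r)| ≤ M := by
    have hup := intervalIntegral.integral_mono_on hb.le hχφ_int hMint (fun r hr => (hle r hr).1)
    have hMint' : IntervalIntegrable (fun r => -(M * (χ r * r))) MeasureTheory.volume 0 b :=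
      (continuous_const.mul hχr_c).neg.intervalIntegrable _ _
    have hlo := intervalIntegral.integral_mono_on hb.le hMint' hχφ_int
      (fun r hr => (hle r hr).2)
    rw [intervalIntegral.integral_const_mul] at hup
    rw [intervalIntegral.integral_neg, intervalIntegral.integral_const_mul] at hlo
    rw [abs_div, abs_of_pos hK, div_le_iff₀ hK, abs_le]
    constructor <;> linarith
  have hκK : (∫ r in (0 : ℝ)..b, χ r * φ r * r) / (∫ r in (0 : ℝ)..b, χ r * r)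
      * (∫ r in (0 : ℝ)..b, χ r * r) = ∫ r in (0 : ℝ)..b, χ r * φ r * r :=
    div_mul_cancel₀ _ hK.ne'
  generalize (∫ r in (0 : ℝ)..b, χ r * φ r * r) / (∫ r in (0 : ℝ)..b, χ r * r) = κ
    at hκM hκK
  have hgC : ContDiffOn ℝ 1 (fun r => φ r - κ) (Ioi 0) := hφ.sub contDiffOn_const
  have hgM : ∀ r ∈ Ioc (0 : ℝ) b, |φ r - κ| ≤ 2 * M := by
    intro r hr
    have h1 := hM r hr
    have h2 : |φ r - κ| ≤ |φ r| + |κ| := abs_sub _ _
    linarith
  have hgderiv : ∀ r : ℝ, deriv (fun r => φ r - κ) r = deriv φ r := fun r => by simp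
  have hgE : ∀ ε ∈ Ioo (0 : ℝ) b,
      (∫ r in ε..b, (deriv (fun r => φ r - κ) r ^ 2 * r + 0 * (φ r - κ) ^ 2 / r)) ≤ E := by
    intro ε hε
    simp only [hgderiv, zero_mul, zero_div, add_zero]
    exact hE ε hε
  have hψ : ContDiff ℝ 1 (fun r => χ r * (φ r - κ)) := s2b_mul_contDiff hχ hgC hε0 hχ0
  have hmeanψ : ∫ r in (0 : ℝ)..b, (fun r => χ r * (φ r - κ)) r * r = 0 := by
    have e : (fun r => (fun r => χ r * (φ r - κ)) r * r)
        = fun r => χ r * φ r * r - κ * (χ r * r) := by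
      funext r; ring
    have hκint : IntervalIntegrable (fun r => κ * (χ r * r)) MeasureTheory.volume 0 b :=
      (continuous_const.mul hχr_c).intervalIntegrable _ _
    rw [e, intervalIntegral.integral_sub hχφ_int hκint,
      intervalIntegral.integral_const_mul, hκK, sub_self]
  have hcore := s2b_core_radial (b := b) hα hvar (fun r => χ r * (φ r - κ)) hψ
    ⟨ε0, hε0, fun r hr => by simp [hχ0 r hr]⟩ hmeanψ
  beta_reduce at hcore
  have hup := s2b_upper hb (fun r => φ r - κ) hgC (2 * M) hgM 0 (le_refl 0) E hgE χ hχ hχ01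
    ε0 hε0 hχ0 η hχE t ht
  simp only [zero_mul, zero_div, add_zero] at hup
  have hlow := s2b_lower hb (fun r => φ r - κ) hgC.continuousOn (2 * M) hgM χ hχ.continuous
    hχ01 δ hδ0 hδb hχ1
  beta_reduce at hlow
  have hφM2 : ∀ r ∈ Ioc (0 : ℝ) b, φ r ^ 2 ≤ M ^ 2 := by
    intro r hr
    have := hM r hr
    exact sq_le_sq' (by linarith [neg_abs_le (φ r)]) (le_trans (le_abs_self _) this)
  have hφ2_c : ContinuousOn (fun r => φ r ^ 2 * r) (Ioi 0) :=
    (hφ.continuousOn.pow 2).mul continuousOn_id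
  have hφ1_c : ContinuousOn (fun r => φ r * r) (Ioi 0) := hφ.continuousOn.mul continuousOn_id
  have hφ2_int : IntervalIntegrable (fun r => φ r ^ 2 * r) MeasureTheory.volume 0 b := by
    apply s2b_integrable_of_bdd hb hφ2_c (C := M ^ 2 * b)
    intro r hr
    rw [abs_of_nonneg (mul_nonneg (sq_nonneg _) hr.1.le)]
    exact mul_le_mul (hφM2 r hr) hr.2 hr.1.le (sq_nonneg _)
  have hφ1_int : IntervalIntegrable (fun r => φ r * r) MeasureTheory.volume 0 b := by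
    apply s2b_integrable_of_bdd hb hφ1_c (C := M * b)
    intro r hr
    rw [abs_mul, abs_of_pos hr.1]
    exact mul_le_mul (hM r hr) hr.2 hr.1.le hM0
  have hg2 : (∫ r in (0 : ℝ)..b, φ r ^ 2 * r) ≤ ∫ r in (0 : ℝ)..b, (φ r - κ) ^ 2 * r := by
    have e : (fun r => (φ r - κ) ^ 2 * r)
        = fun r => φ r ^ 2 * r - (2 * κ) * (φ r * r) + κ ^ 2 * r := by
      funext r; ring
    have hint3 : IntervalIntegrable (fun r : ℝ => κ ^ 2 * r) MeasureTheory.volume 0 b :=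
      (continuous_const.mul continuous_id).intervalIntegrable _ _
    have hint4 : IntervalIntegrable (fun r => 2 * κ * (φ r * r)) MeasureTheory.volume 0 b :=
      hφ1_int.const_mul _
    have hint5 : IntervalIntegrable (fun r => φ r ^ 2 * r - 2 * κ * (φ r * r))
        MeasureTheory.volume 0 b := hφ2_int.sub hint4
    rw [e, intervalIntegral.integral_add hint5 hint3,
      intervalIntegral.integral_sub hφ2_int hint4,
      intervalIntegral.integral_const_mul, hmean, intervalIntegral.integral_const_mul,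
      integral_id]
    have h0 : 0 ≤ κ ^ 2 * ((b ^ 2 - 0 ^ 2) / 2) := by
      have hb2 : (b ^ 2 - 0 ^ 2) / 2 = b ^ 2 / 2 := by ring
      rw [hb2]; positivity
    linarith
  have h1 : μ * ((∫ r in (0 : ℝ)..b, φ r ^ 2 * r) - 2 * M ^ 2 * δ ^ 2)
      ≤ μ * ∫ r in (0 : ℝ)..b, (χ r * (φ r - κ)) ^ 2 * r := by
    apply mul_le_mul_of_nonneg_left _ hμ
    have e2 : (2 * M) ^ 2 * δ ^ 2 / 2 = 2 * M ^ 2 * δ ^ 2 := by ring
    linarith
  calc μ * ((∫ r in (0 : ℝ)..b, φ r ^ 2 * r) - 2 * M ^ 2 * δ ^ 2)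
      ≤ μ * ∫ r in (0 : ℝ)..b, (χ r * (φ r - κ)) ^ 2 * r := h1
    _ ≤ _ := hcore
    _ ≤ (1 + t) * E + (1 + 1 / t) * (2 * M) ^ 2 * η := hup
    _ = (1 + t) * E + (1 + 1 / t) * (4 * M ^ 2) * η := by ring

end Vale.Agent.H60.Hot
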