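import Vale.Agent.H60.Hot.Calc0
import Vale.Agent.H60.Hot.Rayleigh0
import Vale.Agent.H60.Hot.Ode0
import Vale.Agent.H60.Hot.Modes

/-!
# The angular cosine modes of a Neumann eigenfunction of a circular sector

The `m`-th cosine mode is a bounded solution of finite energy of the radial equation on `(0, b]`
with `κ = (m π / α)²`, and the modes with `m ≥ 2` vanish when the eigenvalue is a lower bound of
the Rayleigh quotient.
-/

namespace Vale.Agent.H60.Hot

open Set MeasureTheory

/-- a nonnegative function, continuous on `[a, b]`, with vanishing integral vanishes there -/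
theorem md0_eq_zero_of_integral_zero {φ : ℝ → ℝ} {a b : ℝ} (hab : a < b)
    (hφ : ContinuousOn φ (Icc a b)) (h0 : ∀ x ∈ Icc a b, 0 ≤ φ x)
    (h : ∫ x in a..b, φ x = 0) : ∀ x ∈ Icc a b, φ x = 0 := by
  have hnn : 0 ≤ᵐ[volume.restrict (Ioc a b)] φ := by
    rw [Filter.EventuallyLE, ae_restrict_iff' measurableSet_Ioc]
    exact Filter.Eventually.of_forall (fun x hx => h0 x ⟨hx.1.le, hx.2⟩)
  have h1 := (intervalIntegral.integral_eq_zero_iff_of_le_of_nonneg_ae hab.le hnn
    (hφ.intervalIntegrable_of_Icc hab.le)).mp h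
  have h1' : φ =ᵐ[volume.restrict (Icc a b)] 0 := by
    rwa [← Measure.restrict_congr_set (Ioc_ae_eq_Icc (μ := volume) (a := a) (b := b))]
  have h2 : EqOn φ (fun _ => (0:ℝ)) (Icc a b) :=
    Measure.eqOn_Icc_of_ae_eq (μ := volume) hab.ne h1' hφ continuousOn_const
  intro x hx
  exact h2 hx

/-- the `m`-th cosine mode of a Neumann eigenfunction of a circular sector solves the radial
equation on `(0, b]`, is bounded and has finite energy -/
theorem mode_radialSol0 {b α μ : ℝ} (hb : 0 < b) (hα : 0 < α) {u : ℝ → ℝ → ℝ}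
    (hu : NeumannEig0 b α μ u) (m : ℕ) :
    RadialSol0 b μ ((m * (Real.pi / α)) ^ 2) (mode α u m) := by
  set k : ℝ := m * (Real.pi / α) with hk
  have hu1 : ContDiffOn ℝ 1 (fun p : ℝ × ℝ => u p.1 p.2) {p : ℝ × ℝ | 0 < p.1} :=
    hu.smooth.of_le (by norm_num)
  have hur1 : ContDiffOn ℝ 1 (fun p : ℝ × ℝ => dR u p.1 p.2) {p : ℝ × ℝ | 0 < p.1} :=
    contDiffOn_dR0 hu.smooth
  have hut1 : ContDiffOn ℝ 1 (fun p : ℝ × ℝ => dT u p.1 p.2) {p : ℝ × ℝ | 0 < p.1} :=
    contDiffOn_dT0 hu.smooth
  have cu : ContinuousOn (fun p : ℝ × ℝ => u p.1 p.2) {p : ℝ × ℝ | 0 < p.1} :=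
    hu.smooth.continuousOn
  have cur : ContinuousOn (fun p : ℝ × ℝ => dR u p.1 p.2) {p : ℝ × ℝ | 0 < p.1} :=
    continuousOn_dR0 hu1
  have curr : ContinuousOn (fun p : ℝ × ℝ => dR (dR u) p.1 p.2) {p : ℝ × ℝ | 0 < p.1} :=
    continuousOn_dR0 hur1
  have cut : ContinuousOn (fun p : ℝ × ℝ => dT u p.1 p.2) {p : ℝ × ℝ | 0 < p.1} :=
    continuousOn_dT0 hu1
  have cutt : ContinuousOn (fun p : ℝ × ℝ => dT (dT u) p.1 p.2) {p : ℝ × ℝ | 0 < p.1} :=
    continuousOn_dT0 hut1
  have ccos : Continuous (fun p : ℝ × ℝ => Real.cos (k * p.2)) := by fun_prop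
  have ccos1 : Continuous (fun θ : ℝ => Real.cos (k * θ)) := by fun_prop
  have csin1 : Continuous (fun θ : ℝ => Real.sin (k * θ)) := by fun_prop
  let Γ' : ℝ → ℝ := fun r => ∫ θ in (0:ℝ)..α, dR u r θ * Real.cos (k * θ)
  let Γ'' : ℝ → ℝ := fun r => ∫ θ in (0:ℝ)..α, dR (dR u) r θ * Real.cos (k * θ)
  have h1 : ∀ r : ℝ, 0 < r → HasDerivAt (mode α u m) (Γ' r) r := fun r hr =>
    hasDerivAt_param_integral0 (Ψ := fun r θ => u r θ * Real.cos (k * θ))
      (Ψ' := fun r θ => dR u r θ * Real.cos (k * θ)) (cu.mul ccos.continuousOn)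
      (cur.mul ccos.continuousOn) (fun r hr θ => (hasDerivAt_dR0 hu1 hr θ).mul_const _) 0 α hr
  have h2 : ∀ r : ℝ, 0 < r → HasDerivAt Γ' (Γ'' r) r := fun r hr =>
    hasDerivAt_param_integral0 (Ψ := fun r θ => dR u r θ * Real.cos (k * θ))
      (Ψ' := fun r θ => dR (dR u) r θ * Real.cos (k * θ)) (cur.mul ccos.continuousOn)
      (curr.mul ccos.continuousOn) (fun r hr θ => (hasDerivAt_dR0 hur1 hr θ).mul_const _) 0 α hr
  have h3 : ContinuousOn Γ'' (Ioi 0) :=
    continuousOn_param_integral0 (Ψ := fun r θ => dR (dR u) r θ * Real.cos (k * θ))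
      (curr.mul ccos.continuousOn) 0 α
  have e1 : ∀ r : ℝ, 0 < r → deriv (mode α u m) r = Γ' r := fun r hr => (h1 r hr).deriv
  have e2 : ∀ r : ℝ, 0 < r → deriv (deriv (mode α u m)) r = Γ'' r := by
    intro r hr
    have hev : deriv (mode α u m) =ᶠ[nhds r] Γ' := by
      filter_upwards [Ioi_mem_nhds hr] with s hs
      exact e1 s hs
    rw [hev.deriv_eq]
    exact (h2 r hr).deriv
  have hsmooth : ContDiffOn ℝ 2 (mode α u m) (Ioi 0) := contDiffOn_two_of_hasDerivAt h1 h2 h3
  have hsin : Real.sin (k * α) = 0 := by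
    have : k * α = m * Real.pi := by
      rw [hk]
      field_simp
    rw [this]
    exact Real.sin_nat_mul_pi m
  -- the two integrations by parts in θ at a radius r ∈ (0, b]
  have key : ∀ r ∈ Ioc (0:ℝ) b,
      (∫ θ in (0:ℝ)..α, Real.sin (k * θ) * dT u r θ) = -(k * mode α u m r) ∧
      (∫ θ in (0:ℝ)..α, dT (dT u) r θ * Real.cos (k * θ)) = -k ^ 2 * mode α u m r := by
    intro r hr
    have hr0 : 0 < r := hr.1
    have t1 : Continuous fun θ => dT u r θ := continuous_slice0 cut hr0
    have t2 : Continuous fun θ => dT (dT u) r θ := continuous_slice0 cutt hr0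
    have A1 := intervalIntegral.integral_mul_deriv_eq_deriv_mul (a := 0) (b := α)
      (u := fun θ => Real.cos (k * θ)) (v := fun θ => dT u r θ)
      (u' := fun θ => -(k * Real.sin (k * θ))) (v' := fun θ => dT (dT u) r θ)
      (fun θ _ => md_hasDerivAt_cos k θ)
      (fun θ _ => hasDerivAt_dT0 hut1 hr0 θ)
      ((continuous_const.mul csin1).neg.intervalIntegrable 0 α)
      (t2.intervalIntegrable 0 α)
    have A2 := intervalIntegral.integral_mul_deriv_eq_deriv_mul (a := 0) (b := α)
      (u := fun θ => Real.sin (k * θ)) (v := fun θ => u r θ)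
      (u' := fun θ => k * Real.cos (k * θ)) (v' := fun θ => dT u r θ)
      (fun θ _ => md_hasDerivAt_sin k θ)
      (fun θ _ => hasDerivAt_dT0 hu1 hr0 θ)
      ((continuous_const.mul ccos1).intervalIntegrable 0 α)
      (t1.intervalIntegrable 0 α)
    have b0 := (hu.bc_t r hr).1
    have bα := (hu.bc_t r hr).2
    have e5 : ∫ θ in (0:ℝ)..α, k * Real.cos (k * θ) * u r θ = k * mode α u m r := by
      rw [mode, ← intervalIntegral.integral_const_mul]
      exact intervalIntegral.integral_congr (fun t _ => by ring)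
    have B2 : (∫ θ in (0:ℝ)..α, Real.sin (k * θ) * dT u r θ) = -(k * mode α u m r) := by
      rw [A2, e5]
      simp only [hsin, mul_zero, Real.sin_zero]
      ring
    refine ⟨B2, ?_⟩
    have e3 : ∫ θ in (0:ℝ)..α, dT (dT u) r θ * Real.cos (k * θ)
        = ∫ θ in (0:ℝ)..α, Real.cos (k * θ) * dT (dT u) r θ :=
      intervalIntegral.integral_congr (fun t _ => mul_comm _ _)
    have e4 : ∫ θ in (0:ℝ)..α, -(k * Real.sin (k * θ)) * dT u r θ
        = -k * ∫ θ in (0:ℝ)..α, Real.sin (k * θ) * dT u r θ := by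
      rw [← intervalIntegral.integral_const_mul]
      exact intervalIntegral.integral_congr (fun t _ => by ring)
    rw [e3, A1, e4, B2]
    simp only [b0, bα, mul_zero]
    ring
  refine ⟨hsmooth, ?_, ?_, ?_, ?_⟩
  · -- the radial equation
    intro r hr
    have hr0 : 0 < r := hr.1
    rw [e1 r hr0, e2 r hr0]
    have s0 : Continuous fun θ => u r θ := continuous_slice0 cu hr0
    have s1 : Continuous fun θ => dR u r θ := continuous_slice0 cur hr0
    have s2 : Continuous fun θ => dR (dR u) r θ := continuous_slice0 curr hr0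
    have I1 := (key r hr).2
    have e6 : ∫ θ in (0:ℝ)..α, (dR (dR u) r θ * Real.cos (k * θ)
        + (1 / r) * (dR u r θ * Real.cos (k * θ)) + μ * (u r θ * Real.cos (k * θ)))
        = Γ'' r + (1 / r) * Γ' r + μ * mode α u m r := by
      rw [intervalIntegral.integral_add, intervalIntegral.integral_add,
        intervalIntegral.integral_const_mul, intervalIntegral.integral_const_mul]
      · rfl
      · exact (s2.mul ccos1).intervalIntegrable 0 α
      · exact (continuous_const.mul (s1.mul ccos1)).intervalIntegrable 0 α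
      · exact ((s2.mul ccos1).add (continuous_const.mul (s1.mul ccos1))).intervalIntegrable 0 α
      · exact (continuous_const.mul (s0.mul ccos1)).intervalIntegrable 0 α
    have e7 : ∫ θ in (0:ℝ)..α, (dR (dR u) r θ * Real.cos (k * θ)
        + (1 / r) * (dR u r θ * Real.cos (k * θ)) + μ * (u r θ * Real.cos (k * θ)))
        = -(1 / r ^ 2) * ∫ θ in (0:ℝ)..α, dT (dT u) r θ * Real.cos (k * θ) := by
      rw [← intervalIntegral.integral_const_mul]
      apply intervalIntegral.integral_congr
      intro θ hθ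
      rw [uIcc_of_le hα.le] at hθ
      have := hu.pde r hr θ hθ
      simp only
      have hr' : r ≠ 0 := hr0.ne'
      field_simp
      field_simp at this
      linear_combination (Real.cos (k * θ)) * this
    rw [e6, I1] at e7
    have hr' : r ≠ 0 := hr0.ne'
    field_simp
    field_simp at e7
    linear_combination e7
  · -- the boundary condition at r = b
    rw [e1 b hb]
    show ∫ θ in (0:ℝ)..α, dR u b θ * Real.cos (k * θ) = 0
    have : ∫ θ in (0:ℝ)..α, dR u b θ * Real.cos (k * θ) = ∫ θ in (0:ℝ)..α, (0:ℝ) := by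
      apply intervalIntegral.integral_congr
      intro θ hθ
      rw [uIcc_of_le hα.le] at hθ
      simp [hu.bc_r θ hθ]
    rw [this]
    simp
  · -- boundedness
    obtain ⟨M, hM⟩ := hu.bdd
    refine ⟨M * |α - 0|, ?_⟩
    intro r hr
    have := intervalIntegral.norm_integral_le_of_norm_le_const (a := (0:ℝ)) (b := α)
      (f := fun θ => u r θ * Real.cos (k * θ)) (C := M) (by
        intro θ hθ
        rw [uIoc_of_le hα.le] at hθ
        rw [Real.norm_eq_abs, abs_mul]
        have h1 := hM r hr θ ⟨hθ.1.le, hθ.2⟩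
        have h2 := Real.abs_cos_le_one (k * θ)
        calc |u r θ| * |Real.cos (k * θ)| ≤ M * 1 :=
              mul_le_mul h1 h2 (abs_nonneg _) ((abs_nonneg _).trans h1)
          _ = M := mul_one M)
    simpa [mode, Real.norm_eq_abs] using this
  · -- finite energy
    obtain ⟨E, hE⟩ := hu.energy
    refine ⟨α * E, ?_⟩
    intro ε hε
    -- the angular energy density
    let G : ℝ → ℝ := fun r => ∫ θ in (0:ℝ)..α, (dR u r θ ^ 2 + dT u r θ ^ 2 / r ^ 2) * r
    have hGc : ContinuousOn G (Ioi 0) := by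
      apply continuousOn_param_integral0
        (Ψ := fun r θ => (dR u r θ ^ 2 + dT u r θ ^ 2 / r ^ 2) * r)
      apply ContinuousOn.mul
      · apply ContinuousOn.add (cur.pow 2)
        apply ContinuousOn.div (cut.pow 2) (continuous_fst.continuousOn.pow 2)
        intro p hp
        exact pow_ne_zero 2 (ne_of_gt hp)
      · exact continuous_fst.continuousOn
    have hsub : Icc ε b ⊆ Ioi (0:ℝ) := fun x hx => lt_of_lt_of_le hε.1 hx.1
    have hAc : ContinuousOn (mode α u m) (Ioi 0) := hsmooth.continuousOn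
    have hdAc : ContinuousOn (deriv (mode α u m)) (Ioi 0) :=
      hsmooth.continuousOn_deriv_of_isOpen isOpen_Ioi (by norm_num)
    have hfc : ContinuousOn (fun r => deriv (mode α u m) r ^ 2 * r
        + k ^ 2 * mode α u m r ^ 2 / r) (Icc ε b) := by
      apply ContinuousOn.add
      · exact ((hdAc.mono hsub).pow 2).mul continuous_id.continuousOn
      · apply ContinuousOn.div
        · exact continuousOn_const.mul ((hAc.mono hsub).pow 2)
        · exact continuous_id.continuousOn
        · intro x hx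
          exact ne_of_gt (hsub hx)
    have hpt : ∀ r ∈ Icc ε b, deriv (mode α u m) r ^ 2 * r + k ^ 2 * mode α u m r ^ 2 / r
        ≤ α * G r := by
      intro r hr
      have hr0 : 0 < r := hsub hr
      have hrI : r ∈ Ioc (0:ℝ) b := ⟨hr0, hr.2⟩
      have s1 : Continuous fun θ => dR u r θ := continuous_slice0 cur hr0
      have t1 : Continuous fun θ => dT u r θ := continuous_slice0 cut hr0
      -- Cauchy-Schwarz for the two terms
      have c1 : (Γ' r) ^ 2 ≤ α * ∫ θ in (0:ℝ)..α, dR u r θ ^ 2 := by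
        have hcs := sq_integral_mul_le s1 ccos1 hα.le
        have hcos : ∫ θ in (0:ℝ)..α, Real.cos (k * θ) ^ 2 ≤ α := by
          have := intervalIntegral.integral_mono_on hα.le
            ((ccos1.pow 2).intervalIntegrable 0 α)
            (intervalIntegrable_const (μ := volume) (c := (1:ℝ)))
            (fun x _ => by
              have := Real.cos_sq_le_one (k * x)
              simpa using this)
          simpa using this
        have hnn : 0 ≤ ∫ θ in (0:ℝ)..α, dR u r θ ^ 2 :=
          intervalIntegral.integral_nonneg hα.le (fun x _ => sq_nonneg _)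
        calc (Γ' r) ^ 2 ≤ (∫ θ in (0:ℝ)..α, dR u r θ ^ 2)
              * (∫ θ in (0:ℝ)..α, Real.cos (k * θ) ^ 2) := hcs
          _ ≤ (∫ θ in (0:ℝ)..α, dR u r θ ^ 2) * α := mul_le_mul_of_nonneg_left hcos hnn
          _ = α * ∫ θ in (0:ℝ)..α, dR u r θ ^ 2 := mul_comm _ _
      have c2 : k ^ 2 * mode α u m r ^ 2 ≤ α * ∫ θ in (0:ℝ)..α, dT u r θ ^ 2 := by
        have hcs := sq_integral_mul_le csin1 t1 hα.le
        rw [(key r hrI).1] at hcs
        have hsin2 : ∫ θ in (0:ℝ)..α, Real.sin (k * θ) ^ 2 ≤ α := by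
          have := intervalIntegral.integral_mono_on hα.le
            ((csin1.pow 2).intervalIntegrable 0 α)
            (intervalIntegrable_const (μ := volume) (c := (1:ℝ)))
            (fun x _ => by
              have := Real.sin_sq_le_one (k * x)
              simpa using this)
          simpa using this
        have hnn : 0 ≤ ∫ θ in (0:ℝ)..α, dT u r θ ^ 2 :=
          intervalIntegral.integral_nonneg hα.le (fun x _ => sq_nonneg _)
        calc k ^ 2 * mode α u m r ^ 2 = (-(k * mode α u m r)) ^ 2 := by ring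
          _ ≤ (∫ θ in (0:ℝ)..α, Real.sin (k * θ) ^ 2)
              * (∫ θ in (0:ℝ)..α, dT u r θ ^ 2) := hcs
          _ ≤ α * ∫ θ in (0:ℝ)..α, dT u r θ ^ 2 := mul_le_mul_of_nonneg_right hsin2 hnn
      have hG : G r = r * (∫ θ in (0:ℝ)..α, dR u r θ ^ 2)
          + (1 / r) * ∫ θ in (0:ℝ)..α, dT u r θ ^ 2 := by
        rw [← intervalIntegral.integral_const_mul, ← intervalIntegral.integral_const_mul,
          ← intervalIntegral.integral_add]
        · apply intervalIntegral.integral_congr
          intro θ _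
          simp only
          have hr' : r ≠ 0 := hr0.ne'
          field_simp
        · exact (continuous_const.mul (s1.pow 2)).intervalIntegrable 0 α
        · exact (continuous_const.mul (t1.pow 2)).intervalIntegrable 0 α
      rw [e1 r hr0, hG]
      have hr' : r ≠ 0 := hr0.ne'
      have e : α * (r * (∫ θ in (0:ℝ)..α, dR u r θ ^ 2)
          + (1 / r) * ∫ θ in (0:ℝ)..α, dT u r θ ^ 2)
          = (α * ∫ θ in (0:ℝ)..α, dR u r θ ^ 2) * r
            + (α * ∫ θ in (0:ℝ)..α, dT u r θ ^ 2) / r := by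
        field_simp
      rw [e]
      exact add_le_add (mul_le_mul_of_nonneg_right c1 hr0.le)
        (div_le_div_of_nonneg_right c2 hr0.le)
    have hi1 : IntervalIntegrable (fun r => deriv (mode α u m) r ^ 2 * r
        + k ^ 2 * mode α u m r ^ 2 / r) volume ε b := hfc.intervalIntegrable_of_Icc hε.2.le
    have hi2 : IntervalIntegrable (fun r => α * G r) volume ε b :=
      (continuousOn_const.mul (hGc.mono hsub)).intervalIntegrable_of_Icc hε.2.le
    have hmono := intervalIntegral.integral_mono_on hε.2.le hi1 hi2 hpt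
    rw [intervalIntegral.integral_const_mul] at hmono
    exact hmono.trans (mul_le_mul_of_nonneg_left (hE ε hε) hα.le)

/-- the cosine modes of order `m ≥ 2` of a first Neumann eigenfunction of a circular sector
vanish -/
theorem mode_eq_zero0 {b α μ : ℝ} (hb : 0 < b) (hα : 0 < α) (hμ : 0 ≤ μ) {u : ℝ → ℝ → ℝ}
    (hu : NeumannEig0 b α μ u) (hvar : RayleighBound0 b α μ) {m : ℕ} (hm : 2 ≤ m) :
    ∀ r ∈ Ioc (0:ℝ) b, mode α u m r = 0 := by
  have hA := mode_radialSol0 hb hα hu m
  set A := mode α u m with hAdef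
  set ν := Real.pi / α with hν
  have hν0 : 0 < ν := div_pos Real.pi_pos hα
  obtain ⟨M, hM⟩ := hA.bdd
  have hen := hA.energy_le hb hμ (sq_nonneg _)
  have hAc : ContinuousOn A (Ioi 0) := hA.smooth.continuousOn
  have hdAc : ContinuousOn (deriv A) (Ioi 0) :=
    hA.smooth.continuousOn_deriv_of_isOpen isOpen_Ioi (by norm_num)
  have hsub : ∀ x y : ℝ, 0 < x → Icc x y ⊆ Ioi (0:ℝ) := fun x y hx z hz => lt_of_lt_of_le hx hz.1
  have hc : ∀ K x y : ℝ, 0 < x → ContinuousOn (fun r => deriv A r ^ 2 * r + K * A r ^ 2 / r)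
      (Icc x y) := by
    intro K x y hx
    apply ContinuousOn.add
    · exact ((hdAc.mono (hsub x y hx)).pow 2).mul continuous_id.continuousOn
    · apply ContinuousOn.div
      · exact continuousOn_const.mul ((hAc.mono (hsub x y hx)).pow 2)
      · exact continuous_id.continuousOn
      · intro z hz
        exact ne_of_gt (hsub x y hx hz)
  have hc2 : ∀ x y : ℝ, 0 < x → ContinuousOn (fun r => A r ^ 2 / r) (Icc x y) := by
    intro x y hx
    apply ContinuousOn.div
    · exact (hAc.mono (hsub x y hx)).pow 2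
    · exact continuous_id.continuousOn
    · intro z hz
      exact ne_of_gt (hsub x y hx hz)
  have hi : ∀ K x y : ℝ, 0 < x → x ≤ y → IntervalIntegrable
      (fun r => deriv A r ^ 2 * r + K * A r ^ 2 / r) volume x y :=
    fun K x y hx hxy => (hc K x y hx).intervalIntegrable_of_Icc hxy
  have hi2 : ∀ x y : ℝ, 0 < x → x ≤ y → IntervalIntegrable
      (fun r => A r ^ 2 / r) volume x y :=
    fun x y hx hxy => (hc2 x y hx).intervalIntegrable_of_Icc hxy
  have hm1 : (2:ℝ) ≤ m := by exact_mod_cast hm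
  have hnum : 0 < (m * ν) ^ 2 - ν ^ 2 := by
    have : (m * ν) ^ 2 - ν ^ 2 = (m ^ 2 - 1) * ν ^ 2 := by ring
    rw [this]
    have : (0:ℝ) < m ^ 2 - 1 := by nlinarith
    positivity
  have main : ∀ ε₁ ∈ Ioo (0:ℝ) b, ∫ r in ε₁..b, A r ^ 2 / r = 0 := by
    intro ε₁ hε₁
    have hJ0 : 0 ≤ ∫ r in ε₁..b, A r ^ 2 / r :=
      intervalIntegral.integral_nonneg hε₁.2.le
        (fun x hx => div_nonneg (sq_nonneg _) (hε₁.1.le.trans hx.1))
    have step : ∀ ε ∈ Ioo (0:ℝ) b, ε ≤ ε₁ →
        (∫ r in ε..b, (deriv A r ^ 2 * r + ν ^ 2 * A r ^ 2 / r))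
          ≤ μ * (∫ r in (0:ℝ)..b, A r ^ 2 * r)
            - ((m * ν) ^ 2 - ν ^ 2) * ∫ r in ε₁..b, A r ^ 2 / r := by
      intro ε hε hle
      have e : (∫ r in ε..b, (deriv A r ^ 2 * r + ν ^ 2 * A r ^ 2 / r))
          = (∫ r in ε..b, (deriv A r ^ 2 * r + (m * ν) ^ 2 * A r ^ 2 / r))
            - ((m * ν) ^ 2 - ν ^ 2) * ∫ r in ε..b, A r ^ 2 / r := by
        rw [← intervalIntegral.integral_const_mul, ← intervalIntegral.integral_sub]
        · apply intervalIntegral.integral_congr
          intro x _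
          simp only
          ring
        · exact hi _ ε b hε.1 hε.2.le
        · exact (hi2 ε b hε.1 hε.2.le).const_mul _
      have hJle : (∫ r in ε₁..b, A r ^ 2 / r) ≤ ∫ r in ε..b, A r ^ 2 / r := by
        have hadd := intervalIntegral.integral_add_adjacent_intervals
          (hi2 ε ε₁ hε.1 hle) (hi2 ε₁ b hε₁.1 hε₁.2.le)
        have h0 : 0 ≤ ∫ r in ε..ε₁, A r ^ 2 / r :=
          intervalIntegral.integral_nonneg hle
            (fun x hx => div_nonneg (sq_nonneg _) (hε.1.le.trans hx.1))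
        linarith
      rw [e]
      have h1 := hen ε hε
      have h2 := mul_le_mul_of_nonneg_left hJle hnum.le
      linarith
    have hE : ∀ ε ∈ Ioo (0:ℝ) b,
        (∫ r in ε..b, (deriv A r ^ 2 * r + ν ^ 2 * A r ^ 2 / r))
          ≤ μ * (∫ r in (0:ℝ)..b, A r ^ 2 * r)
            - ((m * ν) ^ 2 - ν ^ 2) * ∫ r in ε₁..b, A r ^ 2 / r := by
      intro ε hε
      rcases le_or_gt ε ε₁ with hle | hgt
      · exact step ε hε hle
      · have h1 := step ε₁ hε₁ le_rfl
        have hadd := intervalIntegral.integral_add_adjacent_intervals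
          (hi (ν ^ 2) ε₁ ε hε₁.1 hgt.le) (hi (ν ^ 2) ε b hε.1 hε.2.le)
        have h0 : 0 ≤ ∫ r in ε₁..ε, (deriv A r ^ 2 * r + ν ^ 2 * A r ^ 2 / r) :=
          intervalIntegral.integral_nonneg hgt.le (fun x hx => by
            have hx0 : 0 < x := lt_of_lt_of_le hε₁.1 hx.1
            positivity)
        linarith
    have hray := rayleigh_angular0 hb hα hμ hvar A (hA.smooth.of_le (by norm_num)) M hM _ hE
    have h3 : ((m * ν) ^ 2 - ν ^ 2) * (∫ r in ε₁..b, A r ^ 2 / r) ≤ 0 := by linarith
    have h4 : (∫ r in ε₁..b, A r ^ 2 / r) ≤ 0 := by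
      by_contra hcon
      push Not at hcon
      have := mul_pos hnum hcon
      linarith
    exact le_antisymm h4 hJ0
  intro r hr
  have hr2 : r / 2 ∈ Ioo (0:ℝ) b := ⟨by linarith [hr.1], by linarith [hr.1, hr.2]⟩
  have h5 := md0_eq_zero_of_integral_zero hr2.2 (hc2 (r / 2) b hr2.1)
    (fun x hx => div_nonneg (sq_nonneg _) (hr2.1.le.trans hx.1)) (main (r / 2) hr2) r
    ⟨by linarith [hr.1], hr.2⟩
  rcases div_eq_zero_iff.mp h5 with h | h
  · exact pow_eq_zero_iff two_ne_zero |>.mp h
  · exact absurd h (ne_of_gt hr.1)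

end Vale.Agent.H60.Hot
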