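import Vale.Agent.H60.Hot.Defs

/-!
# Hot spots on annular sectors: the radial equation and the angular modes
-/

namespace Vale.Agent.H60.Hot

open Set

/-- a solution of the radial equation `A'' + A' / r + (μ - κ / r²) A = 0` on `[a, b]` with
`A' (a) = A' (b) = 0` -/
structure RadialSol (a b μ κ : ℝ) (A : ℝ → ℝ) : Prop where
  smooth : ContDiff ℝ 2 A
  ode : ∀ r ∈ Icc a b, deriv (deriv A) r + deriv A r / r + (μ - κ / r ^ 2) * A r = 0
  bc : deriv A a = 0 ∧ deriv A b = 0

/-- the `m`-th cosine mode of `u` in the angular variable -/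
noncomputable def mode (α : ℝ) (u : ℝ → ℝ → ℝ) (m : ℕ) (r : ℝ) : ℝ :=
  ∫ θ in (0 : ℝ)..α, u r θ * Real.cos (m * (Real.pi / α) * θ)

end Vale.Agent.H60.Hot
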