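import Vale.Agent.H60.Hot.Defs0

/-!
# Hot spots on circular sectors: the singular radial equation
-/

namespace Vale.Agent.H60.Hot

open Set

/-- a bounded solution of finite energy of the radial equation
`A'' + A' / r + (μ - κ / r²) A = 0` on `(0, b]` with `A' (b) = 0` -/
structure RadialSol0 (b μ κ : ℝ) (A : ℝ → ℝ) : Prop where
  smooth : ContDiffOn ℝ 2 A (Ioi 0)
  ode : ∀ r ∈ Ioc (0 : ℝ) b, deriv (deriv A) r + deriv A r / r + (μ - κ / r ^ 2) * A r = 0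
  bc : deriv A b = 0
  bdd : ∃ M : ℝ, ∀ r ∈ Ioc (0 : ℝ) b, |A r| ≤ M
  energy : ∃ E : ℝ, ∀ ε ∈ Ioo (0 : ℝ) b,
    (∫ r in ε..b, (deriv A r ^ 2 * r + κ * A r ^ 2 / r)) ≤ E

end Vale.Agent.H60.Hot
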